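import Vale.Agent.P247J.Sta

/-!
# P247J, row ALG: consequences of the Bianchi identity
-/

set_option linter.all false

open scoped Quaternion

noncomputable section

namespace Vale.Agent.P247J

namespace Alg

theorem uu : ((uq 0).re = 1 ∧ (uq 0).imI = 0 ∧ (uq 0).imJ = 0 ∧ (uq 0).imK = 0) ∧
    ((uq 1).re = 0 ∧ (uq 1).imI = -1 ∧ (uq 1).imJ = 0 ∧ (uq 1).imK = 0) ∧
    ((uq 2).re = 0 ∧ (uq 2).imI = 0 ∧ (uq 2).imJ = -1 ∧ (uq 2).imK = 0) ∧
    ((uq 3).re = 0 ∧ (uq 3).imI = 0 ∧ (uq 3).imJ = 0 ∧ (uq 3).imK = -1) := by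
  simp [uq, qv, P247.H74.e]

theorem qext {a b : ℍ} (h : a = b) :
    a.re = b.re ∧ a.imI = b.imI ∧ a.imJ = b.imJ ∧ a.imK = b.imK := by
  subst h
  exact ⟨rfl, rfl, rfl, rfl⟩

/-- contraction -/
def ct (x g : Fin 4 → Fin 4 → ℝ) : ℝ := ∑ i, ∑ j, x i j * g i j

theorem ct_sq (x g : Fin 4 → Fin 4 → ℝ) :
    ct x g ^ 2 = ∑ i, ∑ j, ∑ k, ∑ l, x i j * x k l * (g k l * g i j) := by
  rw [pow_two]
  unfold ct
  rw [Finset.sum_mul]
  refine Finset.sum_congr rfl fun i _ => ?_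
  rw [Finset.sum_mul]
  refine Finset.sum_congr rfl fun j _ => ?_
  rw [Finset.mul_sum]
  refine Finset.sum_congr rfl fun k _ => ?_
  rw [Finset.mul_sum]
  exact Finset.sum_congr rfl fun l _ => by ring

/-- the signed sum of squares -/
def cq (x : Fin 4 → Fin 4 → ℍ) (g : Fin 4 → Fin 4 → ℝ) : ℝ :=
  ct (fun i j => (x i j).re) g ^ 2 - ct (fun i j => (x i j).imI) g ^ 2 -
    ct (fun i j => (x i j).imJ) g ^ 2 - ct (fun i j => (x i j).imK) g ^ 2

theorem tw_eq (u : Fin 4 → ℍ) {G : Fin 4 → Fin 4 → ℍ} (h : ∀ i j, (G i j).re = 0) :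
    tw u G = -(cq (fun i j => star (u i) * u j) (fun i j => (G i j).imI) +
      cq (fun i j => star (u i) * u j) (fun i j => (G i j).imJ) +
      cq (fun i j => star (u i) * u j) fun i j => (G i j).imK) := by
  unfold tw cq
  generalize hx : (fun i j => star (u i) * u j) = x
  have hx' : ∀ i j, star (u i) * u j = x i j := fun i j => congrFun (congrFun hx i) j
  simp only [hx', ct_sq, ← Finset.sum_sub_distrib, ← Finset.sum_add_distrib,
    ← Finset.sum_neg_distrib, Quaternion.re_mul, h]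
  refine Finset.sum_congr rfl fun i _ => Finset.sum_congr rfl fun j _ =>
    Finset.sum_congr rfl fun k _ => Finset.sum_congr rfl fun l _ => by ring

theorem cq_u {g : Fin 4 → Fin 4 → ℝ} (h : ∀ i j, g i j = -g j i) :
    cq (fun i j => star (uq i) * uq j) g =
      -4 * ((g 0 1 + g 2 3) ^ 2 + (g 0 2 - g 1 3) ^ 2 + (g 0 3 + g 1 2) ^ 2) ∧
    cq (fun i j => star (star (uq i)) * star (uq j)) g =
      -4 * ((g 0 1 - g 2 3) ^ 2 + (g 0 2 + g 1 3) ^ 2 + (g 0 3 - g 1 2) ^ 2) := by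
  have z : ∀ i, g i i = 0 := fun i => by linarith [h i i]
  constructor <;>
  · simp only [cq, ct, Fin.sum_univ_four, z, h 1 0, h 2 0, h 3 0, h 2 1, h 3 1, h 3 2]
    simp [uu]
    ring

theorem nr_eq {G : Fin 4 → Fin 4 → ℍ} (h : ∀ i j, G i j = -G j i) (h' : ∀ i j, (G i j).re = 0) :
    ∑ i, ∑ j, (G i j * G i j).re = -2 * (((G 0 1).imI ^ 2 + (G 0 2).imI ^ 2 + (G 0 3).imI ^ 2 +
      (G 1 2).imI ^ 2 + (G 1 3).imI ^ 2 + (G 2 3).imI ^ 2) + ((G 0 1).imJ ^ 2 + (G 0 2).imJ ^ 2 +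
      (G 0 3).imJ ^ 2 + (G 1 2).imJ ^ 2 + (G 1 3).imJ ^ 2 + (G 2 3).imJ ^ 2) + ((G 0 1).imK ^ 2 +
      (G 0 2).imK ^ 2 + (G 0 3).imK ^ 2 + (G 1 2).imK ^ 2 + (G 1 3).imK ^ 2 + (G 2 3).imK ^ 2)) := by
  have z : ∀ i, G i i = 0 := fun i => by
    have := h i i
    rwa [eq_neg_iff_add_eq_zero, ← two_smul ℝ, smul_eq_zero_iff_right two_ne_zero] at this
  simp only [Fin.sum_univ_four, z, h 1 0, h 2 0, h 3 0, h 2 1, h 3 1, h 3 2, neg_mul_neg,
    Quaternion.re_mul, h']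
  simp
  ring

end Alg

open Alg in
theorem alg : ALG_statement := by
  intro F G hF hG rF rG hB
  have z : ∀ {G : Fin 4 → Fin 4 → ℍ}, (∀ i j, G i j = -G j i) → ∀ i, G i i = 0 := fun h i => by
    have := h i i
    rwa [eq_neg_iff_add_eq_zero, ← two_smul ℝ, smul_eq_zero_iff_right two_ne_zero] at this
  have b1 := qext (hB 0 1 2)
  have b2 := qext (hB 0 1 3)
  have b3 := qext (hB 0 2 3)
  have b4 := qext (hB 1 2 3)
  simp only [hF 2 0, hF 3 0, hF 3 1, hG 2 0, hG 3 0, hG 3 1] at b1 b2 b3 b4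
  simp [rF, rG, uu] at b1 b2 b3 b4
  obtain ⟨a1, a2, a3, a4⟩ := b1
  obtain ⟨a5, a6, a7, a8⟩ := b2
  obtain ⟨a9, a10, a11, a12⟩ := b3
  obtain ⟨a13, a14, a15, a16⟩ := b4
  refine ⟨⟨-(F 0 1).imI - (F 0 2).imJ - (F 0 3).imK - (F 1 2).imK + (F 1 3).imJ - (F 2 3).imI,
    ?_, ?_⟩, ?_⟩
  · simp only [sq, Fin.sum_univ_four, z hF, hF 1 0, hF 2 0, hF 3 0, hF 2 1, hF 3 1, hF 3 2]
    ext <;> simp [rF, uu] <;> linarith
  · simp only [sq, Fin.sum_univ_four, z hG, hG 1 0, hG 2 0, hG 3 0, hG 2 1, hG 3 1, hG 3 2]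
    ext <;> simp [rG, uu] <;> linarith
  · have c : ∀ {G : Fin 4 → Fin 4 → ℍ}, (∀ i j, G i j = -G j i) →
        (∀ i j, (G i j).imI = -(G j i).imI) ∧ (∀ i j, (G i j).imJ = -(G j i).imJ) ∧
        ∀ i j, (G i j).imK = -(G j i).imK := fun h =>
      ⟨fun i j => by rw [h i j]; rfl, fun i j => by rw [h i j]; rfl, fun i j => by rw [h i j]; rfl⟩
    have t0 : ∀ u, tw u 0 = 0 := fun u => by simp [tw]
    have ss : (fun d => star (star (uq d))) = uq := funext fun d => star_star _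
    simp only [dq, ss, t0, Finset.sum_sub_distrib, nr_eq hF rF, nr_eq hG rG, tw_eq _ rF, tw_eq _ rG,
      (cq_u (c hF).1).1, (cq_u (c hF).1).2, (cq_u (c hF).2.1).1, (cq_u (c hF).2.1).2,
      (cq_u (c hF).2.2).1, (cq_u (c hF).2.2).2, (cq_u (c hG).1).1, (cq_u (c hG).1).2,
      (cq_u (c hG).2.1).1, (cq_u (c hG).2.1).2, (cq_u (c hG).2.2).1, (cq_u (c hG).2.2).2]
    generalize (F 0 1).imI = f01I, (F 0 2).imI = f02I, (F 0 3).imI = f03I, (F 1 2).imI = f12I,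
      (F 1 3).imI = f13I, (F 2 3).imI = f23I, (F 0 1).imJ = f01J, (F 0 2).imJ = f02J,
      (F 0 3).imJ = f03J, (F 1 2).imJ = f12J, (F 1 3).imJ = f13J, (F 2 3).imJ = f23J,
      (F 0 1).imK = f01K, (F 0 2).imK = f02K, (F 0 3).imK = f03K, (F 1 2).imK = f12K,
      (F 1 3).imK = f13K, (F 2 3).imK = f23K at *
    generalize (G 0 1).imI = g01I, (G 0 2).imI = g02I, (G 0 3).imI = g03I, (G 1 2).imI = g12I,
      (G 1 3).imI = g13I, (G 2 3).imI = g23I, (G 0 1).imJ = g01J, (G 0 2).imJ = g02J,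
      (G 0 3).imJ = g03J, (G 1 2).imJ = g12J, (G 1 3).imJ = g13J, (G 2 3).imJ = g23J,
      (G 0 1).imK = g01K, (G 0 2).imK = g02K, (G 0 3).imK = g03K, (G 1 2).imK = g12K,
      (G 1 3).imK = g13K, (G 2 3).imK = g23K at *
    obtain rfl : g01I = f23I - g23I - f01I := by linarith
    obtain rfl : g01J = -g23J - f13I - f02I := by linarith
    obtain rfl : g01K = -f03I - g23K + f12I := by linarith
    obtain rfl : g02I = f23J - g23J - f02I := by linarith
    obtain rfl : g02J = g13J - f13J - f02J := by linarith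
    obtain rfl : g02K = -f03J + g13K + f12J := by linarith
    obtain rfl : g03I = -f03I - g23K + f23K := by linarith
    obtain rfl : g03J = g13K - f13K - f03J := by linarith
    obtain rfl : g03K = -f23I - g13J + g23I + f13J - f03K := by linarith
    obtain rfl : g12I = g23K + f23K - f12I := by linarith
    obtain rfl : g12J = -g13K - f12J - f13K := by linarith
    obtain rfl : g12K = f12K - g23I + f23I + g13J - f13J := by linarith
    obtain rfl : g13I = -f23J - g23J - f13I := by linarith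
    obtain rfl : f01J = -f23J - f13I + f02I := by linarith
    obtain rfl : f01K = f03I - f23K + f12I := by linarith
    obtain rfl : f02K = f03J + f12J + f13K := by linarith
    ring

end Vale.Agent.P247J
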