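import Vale.Agent.P247J.Wei

/-!
# P247J, row `DIR`: the index theorem for twisted Dirac operators
-/

set_option linter.all false

open scoped ContDiff Topology Quaternion RealInnerProductSpace
open Set Filter MeasureTheory

noncomputable section

namespace Vale.Agent.P247J

open Vale.Agent.P204.GX Vale.Agent.P204.T4 Vale.Agent.P247E
open Vale.Agent.P247.H74 (e)
open Vale.Agent.P247.H647 (Sp)
open Wei

namespace Dir

section alg

variable {𝒜 ℬ : Type} [NormedRing 𝒜] [NormedAlgebra ℝ 𝒜] [NormedRing ℬ] [NormedAlgebra ℝ ℬ]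

theorem pd_clm {B C : Type} [NormedAddCommGroup B] [NormedSpace ℝ B] [NormedAddCommGroup C]
    [NormedSpace ℝ C] (L : B →L[ℝ] C) {f : V4 → B} (hf : ContDiff ℝ ∞ f) (y v : V4) :
    fderiv ℝ (fun y => L (f y)) y v = L (fderiv ℝ f y v) :=
  congrArg (fun T => T v) (L.hasFDerivAt.comp y (dif hf y).hasFDerivAt).fderiv

theorem sm_cur {A : Fin 4 → V4 → 𝒜} (hA : ∀ k, ContDiff ℝ ∞ (A k)) (i j : Fin 4) :
    ContDiff ℝ ∞ (cur A i j) :=
  ((sm_pd (hA j) _).sub (sm_pd (hA i) _)).add (((hA i).mul (hA j)).sub ((hA j).mul (hA i)))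

theorem sm_frc {B : Type} [NormedAddCommGroup B] [NormedSpace ℝ B] {n' : V4 → M4}
    (hn : ContDiff ℝ ∞ n') {F : Fin 4 → Fin 4 → V4 → B} (hF : ∀ k l, ContDiff ℝ ∞ (F k l))
    (i j : Fin 4) : ContDiff ℝ ∞ fun y => frc (n' y) (fun k l => F k l y) i j :=
  ContDiff.sum fun k _ => ContDiff.sum fun l _ =>
    ((sm_ent hn k i).mul (sm_ent hn l j)).smul (hF k l)

theorem cur_anti (A : Fin 4 → V4 → 𝒜) (i j : Fin 4) (y : V4) : cur A i j y = -cur A j i y := by
  unfold cur
  abel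

theorem frc_anti {B : Type} [AddCommGroup B] [Module ℝ B] (n' : M4) {F : Fin 4 → Fin 4 → B}
    (h : ∀ i j, F i j = -F j i) (i j : Fin 4) : frc n' F i j = -frc n' F j i := by
  unfold frc
  rw [Finset.sum_comm, ← Finset.sum_neg_distrib]
  refine Finset.sum_congr rfl fun k _ => ?_
  rw [← Finset.sum_neg_distrib]
  refine Finset.sum_congr rfl fun l _ => ?_
  rw [h l k, smul_neg, mul_comm]

theorem cur_prod {A : Fin 4 → V4 → 𝒜} {A' : Fin 4 → V4 → ℬ} (hA : ∀ k, ContDiff ℝ ∞ (A k))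
    (hA' : ∀ k, ContDiff ℝ ∞ (A' k)) (i j : Fin 4) (y : V4) :
    cur (fun k y => (A k y, A' k y)) i j y = (cur A i j y, cur A' i j y) := by
  have h : ∀ k v, fderiv ℝ (fun y => (A k y, A' k y)) y v =
      (fderiv ℝ (A k) y v, fderiv ℝ (A' k) y v) := fun k v => by
    rw [(dif (hA k) y).fderiv_prodMk (dif (hA' k) y)]
    rfl
  simp only [cur, h]
  rfl

theorem frc_prod {B C : Type} [AddCommGroup B] [Module ℝ B] [AddCommGroup C] [Module ℝ C]
    (n' : M4) (F : Fin 4 → Fin 4 → B) (G : Fin 4 → Fin 4 → C) (i j : Fin 4) :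
    frc n' (fun k l => (F k l, G k l)) i j = (frc n' F i j, frc n' G i j) := by
  refine Prod.ext ?_ ?_ <;> simp [frc, Prod.fst_sum, Prod.snd_sum]

/-- the real part -/
def reL : ℍ →L[ℝ] ℝ := LinearMap.toContinuousLinearMap (QuaternionAlgebra.reₗ _ _ _)

theorem cur_re {ξ : Fin 4 → V4 → ℍ} (hξ : ∀ k, ContDiff ℝ ∞ (ξ k)) (h : ∀ k y, (ξ k y).re = 0)
    (i j : Fin 4) (y : V4) : (cur ξ i j y).re = 0 := by
  have h1 : ∀ k v, (fderiv ℝ (ξ k) y v).re = 0 := fun k v => by
    have h2 := pd_clm reL (hξ k) y v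
    have h3 : (fun y => reL (ξ k y)) = fun _ => 0 := funext (h k)
    rw [h3, fderiv_fun_const] at h2
    exact h2.symm
  simp only [cur, Quaternion.re_add, Quaternion.re_sub, h1, Quaternion.re_mul]
  ring

theorem frc_re (n' : M4) {F : Fin 4 → Fin 4 → ℍ} (h : ∀ i j, (F i j).re = 0) (i j : Fin 4) :
    (frc n' F i j).re = 0 := by
  have h1 : ∀ i j, reL (F i j) = 0 := h
  show reL (frc n' F i j) = 0
  simp only [frc, map_sum, map_smul, h1, smul_zero, Finset.sum_const_zero]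

theorem cont_dq (u : Fin 4 → ℍ) {F F' G : V4 → Fin 4 → Fin 4 → ℍ}
    (hF : ∀ i j, Continuous fun y => F y i j) (hF' : ∀ i j, Continuous fun y => F' y i j)
    (hG : ∀ i j, Continuous fun y => G y i j) : Continuous fun y => dq u (F y) (F' y) (G y) := by
  have h : ∀ u : Fin 4 → ℍ, Continuous fun y => tw u (G y) := fun u =>
    continuous_finsetSum _ fun i _ => continuous_finsetSum _ fun j _ =>
      continuous_finsetSum _ fun k _ => continuous_finsetSum _ fun l _ =>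
        continuous_const.mul (Quaternion.continuous_re.comp ((hG k l).mul (hG i j)))
  exact (continuous_const.mul ((h _).sub (h _))).add (continuous_const.mul
    (continuous_finsetSum _ fun i _ => continuous_finsetSum _ fun j _ =>
      (Quaternion.continuous_re.comp ((hF i j).mul (hF i j))).sub
        (Quaternion.continuous_re.comp ((hF' i j).mul (hF' i j)))))

end alg

section quat

variable {V : Type} [NormedAddCommGroup V] [InnerProductSpace ℝ V] [FiniteDimensional ℝ V]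
  [CompleteSpace V] (B : QR V)
variable {n' : V4 → M4} {ρ : V4 → ℝ} {u : Fin 4 → ℍ} {α α' ξ : Fin 4 → V4 → ℍ}
  {Γ : Fin 4 → Fin 4 → Fin 4 → V4 → ℝ}

/-- the trace -/
def T (a : V →L[ℝ] V) : ℝ := LinearMap.trace ℝ V (a : V →ₗ[ℝ] V)

theorem T_add (a b : V →L[ℝ] V) : T (a + b) = T a + T b := by simp [T]

theorem T_sub (a b : V →L[ℝ] V) : T (a - b) = T a - T b := by simp [T]

theorem T_smul (c : ℝ) (a : V →L[ℝ] V) : T (c • a) = c * T a := by simp [T]

theorem T_sum {ι : Type} (s : Finset ι) (a : ι → V →L[ℝ] V) :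
    T (∑ i ∈ s, a i) = ∑ i ∈ s, T (a i) := by simp [T]

theorem T_lr (a b : ℍ) : T (B.l a * B.r b) = 4 * a.re * b.re := B.tr a b

theorem lr_mul (a b a' b' : ℍ) :
    B.l a * B.r b * (B.l a' * B.r b') = B.l (a * a') * B.r (b' * b) := by
  rw [B.l_mul, B.r_mul, mul_assoc, ← mul_assoc (B.r b), ← B.comm]
  simp only [mul_assoc]

theorem cur_con (hα : ∀ k, ContDiff ℝ ∞ (α k)) (hξ : ∀ k, ContDiff ℝ ∞ (ξ k)) (i j : Fin 4)
    (y : V4) : cur (B.con α ξ) i j y = B.l (cur α i j y) - B.r (cur ξ i j y) := by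
  have h : ∀ k v, fderiv ℝ (B.con α ξ k) y v =
      B.l (fderiv ℝ (α k) y v) - B.r (fderiv ℝ (ξ k) y v) := fun k v => by
    rw [← pd_clm B.l (hα k), ← pd_clm B.r (hξ k)]
    exact congrArg (fun T => T v) (fderiv_fun_sub (dif (B.l.contDiff.comp (hα k)) y)
      (dif (B.r.contDiff.comp (hξ k)) y))
  simp only [cur, h, QR.con, map_add, map_sub, B.l_mul, B.r_mul, mul_sub, sub_mul, B.comm]
  abel

theorem frc_con (hα : ∀ k, ContDiff ℝ ∞ (α k)) (hξ : ∀ k, ContDiff ℝ ∞ (ξ k)) (m : M4)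
    (i j : Fin 4) (y : V4) : frc m (fun k l => cur (B.con α ξ) k l y) i j =
      B.l (frc m (fun k l => cur α k l y) i j) - B.r (frc m (fun k l => cur ξ k l y) i j) := by
  simp only [frc, cur_con B hα hξ, map_sum, map_smul, smul_sub, Finset.sum_sub_distrib]

/-- the twisting term -/
def tt (u : Fin 4 → ℍ) (G : Fin 4 → Fin 4 → ℍ) : V →L[ℝ] V :=
  (1 / 2 : ℝ) • ∑ i, ∑ j, B.l (star (u i) * u j) * B.r (G i j)

theorem pot_eq' (hα : ∀ k, ContDiff ℝ ∞ (α k)) (hξ : ∀ k, ContDiff ℝ ∞ (ξ k)) {y : V4} {c : ℝ}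
    (hc : sq u (frc (n' y) fun i j => cur α i j y) = c) :
    B.pot n' u α ξ y = c • 1 + tt B u (frc (n' y) fun i j => cur ξ i j y) := by
  have h1 : c • (1 : V →L[ℝ] V) = B.l (c : ℍ) := by
    rw [← B.l_one, ← map_smul, ← Quaternion.coe_mul_eq_smul, mul_one]
  rw [h1, ← hc, QR.pot, sq, tt]
  simp only [frc_con B hα hξ, mul_sub, Finset.sum_sub_distrib, map_smul, map_sum, ← B.l_mul]
  module

theorem star_tt (u : Fin 4 → ℍ) {G : Fin 4 → Fin 4 → ℍ} (h : ∀ i j, (G i j).re = 0)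
    (h' : ∀ i j, G i j = -G j i) : star (tt B u G) = tt B u G := by
  rw [tt, star_smul, star_trivial, star_sum]
  congr 1
  simp only [star_sum]
  rw [Finset.sum_comm]
  refine Finset.sum_congr rfl fun i _ => Finset.sum_congr rfl fun j _ => ?_
  rw [star_mul, B.l_star, B.r_star, star_im (h j i), ← h' i j, star_mul, star_star, B.comm]

theorem T_tt (u : Fin 4 → ℍ) {G : Fin 4 → Fin 4 → ℍ} (h : ∀ i j, (G i j).re = 0) :
    T (tt B u G) = 0 := by
  simp only [tt, T_smul, T_sum, T_lr, h, mul_zero, Finset.sum_const_zero]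

include B in
theorem T_one : T (1 : V →L[ℝ] V) = 4 := by
  have h := T_lr B 1 1
  rw [B.l_one, B.r_one, one_mul] at h
  simpa using h

theorem T_tt2 (u : Fin 4 → ℍ) (G : Fin 4 → Fin 4 → ℍ) : T (tt B u G * tt B u G) = tw u G := by
  have h : ∀ X : Fin 4 → Fin 4 → V →L[ℝ] V, (∑ i, ∑ j, X i j) * (∑ i, ∑ j, X i j) =
      ∑ i, ∑ j, ∑ k, ∑ l, X i j * X k l := fun X => by
    simp only [Finset.sum_mul]
    simp only [Finset.mul_sum]
  rw [tt, smul_mul_smul_comm, T_smul, h]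
  simp only [lr_mul, T_sum, T_lr, tw, Finset.mul_sum]
  refine Finset.sum_congr rfl fun i _ => Finset.sum_congr rfl fun j _ =>
    Finset.sum_congr rfl fun k _ => Finset.sum_congr rfl fun l _ => ?_
  ring

theorem T_sq (u : Fin 4 → ℍ) {G : Fin 4 → Fin 4 → ℍ} (h : ∀ i j, (G i j).re = 0) (c : ℝ) :
    T ((c • 1 + tt B u G) * (c • 1 + tt B u G)) = 4 * c ^ 2 + tw u G := by
  simp only [add_mul, mul_add, smul_mul_assoc, mul_smul_comm, one_mul, mul_one, T_add, T_smul,
    T_tt B u h, T_tt2, T_one B]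
  ring

theorem T_om (a : ℍ) {b : ℍ} (h : b.re = 0) :
    T ((B.l a - B.r b) * (B.l a - B.r b)) = 4 * (a * a).re + 4 * (b * b).re := by
  have h1 := T_lr B (a * a) 1
  have h2 := T_lr B 1 (b * b)
  rw [B.r_one, mul_one] at h1
  rw [B.l_one, one_mul] at h2
  simp only [mul_sub, sub_mul, ← B.l_mul, ← B.r_mul, ← B.comm, T_sub, T_lr, h, h1, h2,
    Quaternion.re_one]
  ring

theorem sm_pot (W : WD n' ρ u α α' Γ) (hξ : ∀ k, ContDiff ℝ ∞ (ξ k)) :
    ContDiff ℝ ∞ (B.pot n' u α ξ) :=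
  (ContDiff.sum fun i _ => ContDiff.sum fun j _ => contDiff_const.mul
    (sm_frc W.n'_sm (sm_cur (sm_con B W.sm hξ)) i j)).const_smul _

theorem sm_hG (W : WD n' ρ u α α' Γ) (m : Fin 4) : ContDiff ℝ ∞ (hG n' Γ m) :=
  ContDiff.sum fun k _ => ContDiff.sum fun l _ =>
    (ContDiff.sum fun d _ => (sm_ent W.n'_sm k d).mul (sm_ent W.n'_sm l d)).mul (W.Γ_sm m k l)

theorem cliff (W : WD n' ρ u α α' Γ) {n : M4} {y : V4} (hn : ∀ v, app (n' y) (app n v) = v)
    {η : V4} (hη : η ≠ 0) : ∃ c : ℝ, 0 < c ∧ ∀ v, ‖(∑ i, η i • B.Mi n' u i y) v‖ = c * ‖v‖ := by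
  set q : ℍ := ∑ i, η i • be n' u i y with hq
  have h1 : ∑ i, η i • B.Mi n' u i y = B.l q := by
    simp only [hq, QR.Mi, map_sum, map_smul]
  have h2 : q = ∑ d, (∑ i, η i * n' y i d) • u d := by
    simp only [hq, be, Finset.smul_sum, Finset.sum_smul, smul_smul]
    exact Finset.sum_comm
  have h3 : q ≠ 0 := by
    intro h0
    have h4 : ∀ j, ∑ i, η i * n' y i j = 0 := by
      intro j
      have h5 : star (u j) * q + star q * u j = (∑ i, η i * n' y i j) • 2 := by
        rw [h2]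
        simp only [star_sum, Quaternion.star_smul, Finset.mul_sum, Finset.sum_mul, mul_smul_comm,
          smul_mul_assoc, ← Finset.sum_add_distrib, ← smul_add, W.on, smul_ite, smul_zero,
          Finset.sum_ite_eq, Finset.mem_univ, if_true]
      rw [h0, star_zero, mul_zero, zero_mul, add_zero] at h5
      refine (smul_eq_zero.1 h5.symm).resolve_right fun h => ?_
      rw [← one_add_one_eq_two] at h
      have h7 := congrArg QuaternionAlgebra.re h
      rw [Quaternion.re_add, Quaternion.re_one, Quaternion.re_zero] at h7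
      norm_num at h7
    have h6 : ∑ i, η i * η i = 0 := by
      calc ∑ i, η i * η i = ∑ i, η i * ∑ d, n' y i d * app n η d :=
            Finset.sum_congr rfl fun i _ => by rw [← congrFun (hn η) i]; rfl
        _ = ∑ d, (∑ i, η i * n' y i d) * app n η d := by
            simp only [Finset.mul_sum, Finset.sum_mul, mul_assoc]
            exact Finset.sum_comm
        _ = 0 := by simp only [h4, zero_mul, Finset.sum_const_zero]
    refine hη (funext fun i => mul_self_eq_zero.1 ?_)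
    exact (Finset.sum_eq_zero_iff_of_nonneg fun i _ => mul_self_nonneg (η i)).1 h6 i
      (Finset.mem_univ i)
  refine ⟨‖q‖, norm_pos_iff.2 h3, fun v => ?_⟩
  rw [h1, ← sq_eq_sq₀ (norm_nonneg _) (by positivity), ← real_inner_self_eq_norm_sq,
    ← ContinuousLinearMap.adjoint_inner_right, ← ContinuousLinearMap.star_eq_adjoint, B.l_star,
    ← ContinuousLinearMap.mul_apply, ← B.l_mul, Quaternion.star_mul_self,
    ← mul_one ((Quaternion.normSq q : ℝ) : ℍ), Quaternion.coe_mul_eq_smul, map_smul, B.l_one,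
    Quaternion.normSq_eq_norm_mul_self, ContinuousLinearMap.smul_apply,
    ContinuousLinearMap.one_apply, inner_smul_right, real_inner_self_eq_norm_sq]
  ring

theorem str_apply (a : EE V) : str V a = T a.1 - T a.2 := rfl

/-- the chart data of a twisted Dirac operator -/
def cdat {n : V4 → M4} (W : WD n' ρ u α α' Γ) (hξ : ∀ k, ContDiff ℝ ∞ (ξ k))
    (W' : WD n' ρ (fun d => star (u d)) α' α Γ) (hξ' : ∀ k y, (ξ k y).re = 0)
    (hn : ContDiff ℝ ∞ n) (h1 : ∀ y v, app (n y) (app (n' y) v) = v)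
    (h2 : ∀ y v, app (n' y) (app (n y) v) = v) (h3 : ∀ y, 0 < det4 (n y))
    (hc : ∀ y, ∃ c : ℝ, sq u (frc (n' y) fun i j => cur α i j y) = c ∧
      sq (fun d => star (u d)) (frc (n' y) fun i j => cur α' i j y) = c) :
    CD (𝒜 := EE V) (str V) where
  n := n
  n' := n'
  h := hG n' Γ
  A := fun i y => (B.con α ξ i y, B.con α' ξ i y)
  E := fun y => (B.pot n' u α ξ y, B.pot n' (fun d => star (u d)) α' ξ y)
  n_sm := hn
  n'_sm := W.n'_sm
  n_n' := h1
  n'_n := h2
  n_det := h3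
  h_sm := sm_hG W
  A_sm := fun i => (sm_con B W.sm hξ i).prodMk (sm_con B W.sm' hξ i)
  E_sm := (sm_pot B W hξ).prodMk (sm_pot B W' hξ)
  A_skew := fun i y => Prod.ext (star_con B W.im hξ' i y) (star_con B W.im' hξ' i y)
  E_symm := fun y => by
    obtain ⟨c, k1, k2⟩ := hc y
    have k3 := fun u => star_tt B u (frc_re (n' y) fun i j => cur_re hξ hξ' i j y)
      (frc_anti (n' y) fun i j => cur_anti ξ i j y)
    refine Prod.ext ?_ ?_
    · show star (B.pot n' u α ξ y) = B.pot n' u α ξ y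
      rw [pot_eq' B W.sm hξ k1, star_add, k3, star_smul, star_trivial, star_one]
    · show star (B.pot n' _ α' ξ y) = B.pot n' _ α' ξ y
      rw [pot_eq' B W.sm' hξ k2, star_add, k3, star_smul, star_trivial, star_one]
  E_tr := fun y => by
    obtain ⟨c, k1, k2⟩ := hc y
    have k3 := fun u => T_tt B u (frc_re (n' y) fun i j => cur_re hξ hξ' i j y)
    rw [str_apply]
    show T (B.pot n' u α ξ y) - T (B.pot n' _ α' ξ y) = 0
    rw [pot_eq' B W.sm hξ k1, pot_eq' B W.sm' hξ k2, T_add, T_add, k3, k3, sub_self]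

theorem cdat_d {n : V4 → M4} (W : WD n' ρ u α α' Γ) (hξ : ∀ k, ContDiff ℝ ∞ (ξ k))
    (W' : WD n' ρ (fun d => star (u d)) α' α Γ) (hξ' : ∀ k y, (ξ k y).re = 0)
    (hn : ContDiff ℝ ∞ n) (h1 : ∀ y v, app (n y) (app (n' y) v) = v)
    (h2 : ∀ y v, app (n' y) (app (n y) v) = v) (h3 : ∀ y, 0 < det4 (n y))
    (hc : ∀ y, ∃ c : ℝ, sq u (frc (n' y) fun i j => cur α i j y) = c ∧
      sq (fun d => star (u d)) (frc (n' y) fun i j => cur α' i j y) = c) (y : V4) :
    (cdat B W hξ W' hξ' hn h1 h2 h3 hc).d y = kap * dq u (frc (n' y) fun i j => cur α i j y)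
      (frc (n' y) fun i j => cur α' i j y) (frc (n' y) fun i j => cur ξ i j y) := by
  obtain ⟨c, k1, k2⟩ := hc y
  have k3 := frc_re (n' y) fun i j => cur_re hξ hξ' i j y
  show kap * dens (str V) (B.pot n' u α ξ y, B.pot n' (fun d => star (u d)) α' ξ y)
    (frc (n' y) fun i j => cur (fun i y => (B.con α ξ i y, B.con α' ξ i y)) i j y) = _
  congr 1
  simp only [cur_prod (sm_con B W.sm hξ) (sm_con B W.sm' hξ), dens, frc_prod, str_apply,
    Prod.fst_mul, Prod.snd_mul, frc_con B W.sm hξ, frc_con B W.sm' hξ, pot_eq' B W.sm hξ k1,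
    pot_eq' B W.sm' hξ k2, T_sq B _ k3, fun a i j => T_om B a (k3 i j), dq, Finset.mul_sum]
  congr 1
  · ring
  · exact Finset.sum_congr rfl fun i _ => Finset.sum_congr rfl fun j _ => by ring

end quat

theorem det_Rq {p : V4} (h : ∑ c, p c ^ 2 = 1) : det4 (Rq p) = 1 := by
  have h1 : det4 (Rq p) = (∑ c, p c ^ 2) ^ 2 := by
    simp [det4, mn, Rq, Fin.sum_univ_four]
    ring
  rw [h1, h, one_pow]

theorem det_n {X : Type} [MetricSpace X] (Q : QM X) (a : Q.A) (y : V4) :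
    det4 (Q.n a y) = rho Q.toCM a y := by
  rw [rho, Q.m_eq, det4_mm, det_Rq (Q.p_unit a y), one_mul]

end Dir

open Dir in
theorem dir_of (lit : LIT_statement) : DIR_statement := by
  intro X _ _ _ _ _ Q _ B E F P u α α' ξ Γ W W' hξ hξ' hc hM hN
  have hP : P.Cliff := fun a y η hη => by
    rw [hM]
    exact cliff B (W a) (Q.n'_n a y) hη
  have hd : ∀ a y, 0 < det4 (Q.n a y) := fun a y => by
    rw [det_n]; exact rho_pos a y
  have hr : ∀ a, rho Q.toCM a = fun y => det4 (Q.n a y) := fun a => funext fun y =>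
    (det_n Q a y).symm
  refine ⟨hP, fun a => cont_dq u
    (fun i j => (sm_frc (Q.n'_smooth a) (sm_cur (W a).sm) i j).continuous)
    (fun i j => (sm_frc (Q.n'_smooth a) (sm_cur (W a).sm') i j).continuous)
    fun i j => (sm_frc (Q.n'_smooth a) (sm_cur (hξ a)) i j).continuous, ?_⟩
  rw [lit X Q.toCM Sp E F P hP (fun a => cdat B (W a) (hξ a) (W' a) (hξ' a) (Q.n_smooth a)
    (Q.n_n' a) (Q.n'_n a) (hd a) (hc a)) (det_n Q) (fun a f hf => ?_) fun a f hf => ?_]
  · simp only [cdat_d]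
  · rw [Op.adjLoc, hM, hN, hr]
    exact (wei Sp B _ _ u _ _ _ _ (W a) (W' a) (hξ a) (hξ' a) f hf).1
  · rw [Op.adjLoc, hM, hN, hr]
    exact (wei Sp B _ _ u _ _ _ _ (W a) (W' a) (hξ a) (hξ' a) f hf).2

end Vale.Agent.P247J
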