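import Vale.Agent.P247J.Gauge1

/-!
# P247J, row GAUGE: the parametrix in a chart
-/

set_option linter.all false

open scoped ContDiff Topology
open Set MeasureTheory Filter NormedSpace

noncomputable section

namespace Vale.Agent.P247J

open Vale.Agent.P204.GX Vale.Agent.P204.T4 Vale.Agent.P247E
open Vale.Agent.P247.H74 (e)

namespace Gauge

variable {𝒜 : Type} [NormedRing 𝒜] [NormedAlgebra ℝ 𝒜] [StarRing 𝒜] {σ : 𝒜 →L[ℝ] ℝ}
  {a a' : Fin 4 → Fin 4 → V4 → ℝ} {h h' : Fin 4 → V4 → ℝ} {A A' : Fin 4 → V4 → 𝒜}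
  {E E' : V4 → 𝒜} {ρ ρ' : V4 → ℝ} {d C : ℝ} {U R : ℝ → V4 → 𝒜}

theorem uncut (H : HK σ a h A E ρ 0 d C U R) (h0 : ∀ s x, 2 ≤ ‖x‖ → U s x = 0 ∧ R s x = 0)
    (h1 : ∀ x, ‖x‖ < 3 → (∀ i j, a i j x = a' i j x) ∧ (∀ i, h i x = h' i x) ∧
      (∀ i, A i x = A' i x) ∧ E x = E' x ∧ ρ x = ρ' x) : HK σ a' h' A' E' ρ' 0 d C U R := by
  have k1 : ∀ s, lapA a' h' A' E' (U s) = lapA a h A E (U s) := fun s => funext fun x => by
    by_cases hx : ‖x‖ < 3
    · refine (lapA_congr (h1 x hx).1 (h1 x hx).2.1 (fun i => ?_) (h1 x hx).2.2.2.1).symm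
      filter_upwards [(isOpen_lt continuous_norm continuous_const).mem_nhds hx] with y hy
      exact (h1 y hy).2.2.1 i
    · have h2 : U s =ᶠ[𝓝 x] fun _ => 0 := by
        filter_upwards [(isOpen_lt (continuous_const (y := (2 : ℝ))) continuous_norm).mem_nhds
          (show 2 < ‖x‖ by linarith)] with y hy
        exact (h0 s y (le_of_lt hy)).1
      rw [lapA_zero _ _ _ h2, lapA_zero _ _ _ h2]
  have k2 : ∀ F : V4 → ℝ, (∀ x, 2 ≤ ‖x‖ → F x = 0) → ∫ x, ρ' x * F x = ∫ x, ρ x * F x := by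
    refine fun F hF => congrArg _ (funext fun x => ?_)
    by_cases hx : ‖x‖ < 3
    · rw [(h1 x hx).2.2.2.2]
    · rw [hF x (by linarith), mul_zero, mul_zero]
  refine ⟨H.smU, H.smR, H.supp, fun f hf s hs => ?_, fun f hf => ?_, fun s hs => ?_,
    fun s hs => ?_, fun s hs => ?_⟩
  · rw [k1]
    exact H.der f hf s hs
  · refine (H.lim f hf).congr fun s => (k2 _ fun x hx => ?_).symm
    rw [(h0 s x hx).1, map_zero]
  · rw [k2 _ fun x hx => by rw [(h0 s x hx).2]; simp]
    exact H.bR s hs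
  · rw [k2 _ fun x hx => by rw [(h0 s x hx).1]; simp]
    exact H.bU s hs
  · rw [k2 _ fun x hx => by rw [(h0 s x hx).1]; simp]
    exact H.tr s hs

theorem TD.transfer (t : TD 𝒜) (hs : ∀ x, star (t.G x) * t.G x = 1)
    (hA : ∀ i, ContDiff ℝ ∞ (A i)) (hρ : Continuous ρ) (ρ0 : ∀ y, 0 ≤ ρ y) {M : ℝ} (M1 : 1 ≤ M)
    (hM : ∀ x, ‖x‖ ≤ 2 → ‖t.G x‖ ≤ M)
    (H : HK σ (t.ta a) (t.tH h) (t.tA A) (t.tE E) (t.tρ ρ) 0 d C U R)
    (h0 : ∀ s x, 2 ≤ ‖x‖ → U s x = 0 ∧ R s x = 0) :
    HK σ a h A E ρ t.p d (M * C) (fun s => t.T (U s)) fun s => t.T (R s) := by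
  have cP := (sm_Ps t.N' t.p).continuous
  have cf : ∀ f : V4 → 𝒜 →L[ℝ] ℝ, Continuous f → Continuous fun x =>
      (f (Ps t.N' t.p x)).comp (ContinuousLinearMap.mul ℝ 𝒜 (t.G x)) := fun f hf =>
    (hf.comp cP).clm_comp ((ContinuousLinearMap.mul ℝ 𝒜).continuous.comp t.sm.continuous)
  have k1 : ∀ (F : V4 → 𝒜 → ℝ) (w : V4 → 𝒜), ∫ y, ρ y * F y (t.T w y) =
      ∫ x, t.tρ ρ x * F (Ps t.N' t.p x) (t.G x * w x) := fun F w => by
    rw [t.cov]
    simp only [TD.T, TD.tρ, t.Ph_Ps, mul_assoc]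
  have k2 : ∀ w : V4 → 𝒜, Continuous w → (∀ x, 2 ≤ ‖x‖ → w x = 0) → ∀ b : ℝ,
      ∫ x, t.tρ ρ x * ‖w x‖ ^ 2 ≤ b ^ 2 → ∫ y, ρ y * ‖t.T w y‖ ^ 2 ≤ (M * b) ^ 2 := by
    intro w hw w0 b hb
    have p0 : ∀ x, 0 ≤ t.tρ ρ x := fun x => mul_nonneg (inv_pos.2 t.det).le (ρ0 _)
    have hi : Integrable fun x => t.tρ ρ x * ‖w x‖ ^ 2 := by
      refine Continuous.integrable_of_hasCompactSupport
        ((continuous_const.mul (hρ.comp cP)).mul (hw.norm.pow 2))
        (HasCompactSupport.intro (isCompact_closedBall (0 : V4) 2) fun x hx => ?_)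
      rw [w0 x (le_of_lt (by simpa using hx))]
      simp
    rw [k1 (fun _ z => ‖z‖ ^ 2), mul_pow]
    refine le_trans ?_ (mul_le_mul_of_nonneg_left hb (sq_nonneg M))
    rw [← integral_const_mul]
    refine integral_mono_of_nonneg (Eventually.of_forall fun x => mul_nonneg (p0 x) (sq_nonneg _))
      (hi.const_mul _) (Eventually.of_forall fun x => ?_)
    show t.tρ ρ x * ‖t.G x * w x‖ ^ 2 ≤ M ^ 2 * (t.tρ ρ x * ‖w x‖ ^ 2)
    rw [mul_left_comm, ← mul_pow]
    refine mul_le_mul_of_nonneg_left (pow_le_pow_left₀ (norm_nonneg _) ?_ 2) (p0 x)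
    by_cases hx : ‖x‖ ≤ 2
    · exact (norm_mul_le _ _).trans (mul_le_mul_of_nonneg_right (hM x hx) (norm_nonneg _))
    · rw [w0 x (le_of_lt (not_le.1 hx))]
      simp
  refine ⟨fun s hs => t.T_sm (H.smU s hs), fun s hs => t.T_sm (H.smR s hs), ?_,
    fun f hf s hs => ?_, fun f hf => ?_, fun s hs => ?_, fun s hs => ?_, fun s hs' => ?_⟩
  · obtain ⟨K, hK, h1⟩ := H.supp
    refine ⟨_, hK.image cP, fun s y hy => ?_⟩
    have h2 := h1 s (Ph t.N t.p y) fun h => hy ⟨_, h, t.Ps_Ph y⟩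
    simp only [TD.T, h2.1, h2.2, mul_zero, and_self]
  · have h1 := H.der _ ((cf f hf).const_smul (det4 t.N)⁻¹) s hs
    have h2 : ∀ w : V4 → 𝒜, ∫ y, f y (t.T w y) = ∫ x, ((det4 t.N)⁻¹ • (f (Ps t.N' t.p x)).comp
        (ContinuousLinearMap.mul ℝ 𝒜 (t.G x))) (w x) := fun w => by
      rw [t.cov]
      simp only [TD.T, t.Ph_Ps]
      rfl
    simp only [Pi.smul_apply, ← h2] at h1
    simpa only [t.lapA_T hA (H.smU s hs), TD.T, mul_sub, mul_smul_comm] using h1
  · have h1 := H.lim _ (cf f hf)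
    simp only [ContinuousLinearMap.comp_apply, ContinuousLinearMap.mul_apply', t.G0, t.Ps_zero,
      mul_one] at h1
    simpa only [k1 fun y z => f y z] using h1
  · rw [mul_assoc]
    exact k2 _ (H.smR s hs).continuous (fun x hx => (h0 s x hx).2) _ (H.bR s hs)
  · rw [mul_div_assoc]
    exact k2 _ (H.smU s hs).continuous (fun x hx => (h0 s x hx).1) _ (H.bU s hs)
  · have h1 := H.tr s hs'
    have h2 : ∀ x z, star (t.G x * z) * (t.G x * z) = star z * z := fun x z => by
      rw [star_mul, mul_assoc, ← mul_assoc (star (t.G x)), hs, one_mul]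
    rw [k1 fun _ z => σ (star z * z), mul_assoc]
    simp only [h2]
    exact h1.trans (le_mul_of_one_le_left ((abs_nonneg _).trans h1) M1)

theorem tame {B : Type} [NormedAddCommGroup B] [NormedSpace ℝ B] {K : Set V4} (hK : IsCompact K)
    (χ : ContDiffBump (0 : V4)) {F : V4 → V4 → B} (hF : ContDiff ℝ ∞ fun q : V4 × V4 => F q.1 q.2) :
    Tame fun (p : K) x => χ x • F p x := by
  let H : V4 × V4 → B := fun q => χ q.2 • F q.1 q.2
  have hH : ContDiff ℝ ∞ H := (χ.contDiff.comp contDiff_snd).smul hF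
  refine ⟨fun p => hH.comp (contDiff_const.prodMk contDiff_id), fun k => ?_⟩
  obtain ⟨C, hC⟩ := (hK.prod χ.hasCompactSupport).exists_bound_of_continuousOn
    (hH.continuous_iteratedFDeriv (m := k) (by exact_mod_cast le_top)).continuousOn
  refine ⟨max C 0, fun p x => ?_⟩
  by_cases hx : x ∈ tsupport χ
  · have h1 : (fun x => χ x • F p x) =
        (fun z => H ((p.1, 0) + z)) ∘ ContinuousLinearMap.inr ℝ V4 V4 := by
      funext y
      simp [H]
    rw [h1, ContinuousLinearMap.iteratedFDeriv_comp_right _ (f := fun z => H ((p.1, 0) + z))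
      (hH.comp (contDiff_const.add contDiff_id)) _ (by exact_mod_cast le_top),
      iteratedFDeriv_comp_add_left]
    refine (ContinuousMultilinearMap.norm_compContinuousLinearMap_le _ _).trans ?_
    refine (mul_le_of_le_one_right (norm_nonneg _) (Finset.prod_le_one (fun _ _ => norm_nonneg _)
      fun _ _ => ContinuousLinearMap.norm_inr_le_one ..)).trans (le_max_of_le_left (hC _ ?_))
    simpa using hx
  · have h1 : x ∉ Function.support (iteratedFDeriv ℝ k fun x => χ x • F p x) := fun h =>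
      hx (tsupport_smul_subset_left _ _ (support_iteratedFDeriv_subset k h))
    rw [Function.notMem_support.1 h1, norm_zero]
    exact le_max_right _ _

variable [CompleteSpace 𝒜] [StarModule ℝ 𝒜] [ContinuousStar 𝒜]

/-- the logarithm of the gauge transformation -/
def lg (D : CD σ) (p x : V4) : 𝒜 := ∑ i, x i • ∑ k, D.n' p k i • D.A k p

theorem sm_exp : ContDiff ℝ ∞ (exp : 𝒜 → 𝒜) :=
  contDiff_iff_contDiffAt.2 fun x => (exp_analytic (𝕂 := ℝ) x).contDiffAt

theorem sm_n (D : CD σ) (i j : Fin 4) : ContDiff ℝ ∞ fun q : V4 × V4 => D.n q.1 i j :=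
  (contDiff_pi.1 (contDiff_pi.1 D.n_sm i) j).comp contDiff_fst

theorem sm_n' (D : CD σ) (i j : Fin 4) : ContDiff ℝ ∞ fun q : V4 × V4 => D.n' q.1 i j :=
  (contDiff_pi.1 (contDiff_pi.1 D.n'_sm i) j).comp contDiff_fst

theorem sm_lg (D : CD σ) : ContDiff ℝ ∞ fun q : V4 × V4 => lg D q.1 q.2 :=
  ContDiff.sum fun i _ => (contDiff_pi.1 contDiff_snd i).smul
    (ContDiff.sum fun k _ => (sm_n' D k i).smul ((D.A_sm k).comp contDiff_fst))

theorem sm_ps (D : CD σ) : ContDiff ℝ ∞ fun q : V4 × V4 => Ps (D.n' q.1) q.1 q.2 :=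
  contDiff_fst.add (contDiff_pi.2 fun i => ContDiff.sum fun j _ =>
    (sm_n' D i j).mul (contDiff_pi.1 contDiff_snd j))

theorem star_lg (D : CD σ) (p x : V4) : star (lg D p x) = -lg D p x := by
  simp [lg, star_sum, D.A_skew]

theorem exp_neg_mul (z : 𝒜) : exp (-z) * exp z = 1 := by
  letI : NormedAlgebra ℚ 𝒜 := .restrictScalars ℚ ℝ _
  rw [← exp_add_of_commute (Commute.refl z).neg_left, neg_add_cancel, exp_zero]

/-- the normalisation at `p` -/
def td (D : CD σ) (p : V4) : TD 𝒜 where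
  p := p
  N := D.n p
  N' := D.n' p
  G x := exp (-lg D p x)
  G' x := exp (lg D p x)
  hN := D.n_n' p
  hN' := D.n'_n p
  det := D.n_det p
  sm := sm_exp.comp ((sm_lg D).comp (contDiff_const.prodMk contDiff_id)).neg
  sm' := sm_exp.comp ((sm_lg D).comp (contDiff_const.prodMk contDiff_id))
  GG' x := exp_neg_mul _
  G0 := by simp [lg]

variable (D : CD σ) (p : V4)

theorem G'G (x : V4) : (td D p).G' x * (td D p).G x = 1 := by
  have h := exp_neg_mul (-lg D p x)
  rwa [neg_neg] at h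

theorem star_G (x : V4) : star ((td D p).G x) = (td D p).G' x := by
  show star (exp _) = exp _
  rw [star_exp, star_neg, star_lg, neg_neg]

theorem star_G' (x : V4) : star ((td D p).G' x) = (td D p).G x := by rw [← star_G, star_star]

theorem G'0 : (td D p).G' 0 = 1 := by
  show exp _ = 1
  simp [lg]

theorem tA_zero (i : Fin 4) : (td D p).tA D.A i 0 = 0 := by
  have h1 : HasFDerivAt (fun x => -lg D p x) (-∑ j, (ContinuousLinearMap.proj j : V4 →L[ℝ] ℝ).smulRight
      (∑ k, D.n' p k j • D.A k p)) 0 :=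
    (HasFDerivAt.fun_sum fun j _ => (hasFDerivAt_apply j (0 : V4)).smul_const _).neg
  have h2 : HasFDerivAt exp (1 : 𝒜 →L[ℝ] 𝒜) (-lg D p 0) := by
    simpa [lg] using hasFDerivAt_exp_zero (𝕂 := ℝ) (𝔸 := 𝒜)
  have h3 : fderiv ℝ (td D p).G 0 = _ := (h2.comp (0 : V4) h1).fderiv
  rw [TD.tA, h3, G'0, TD.G0, TD.Ps_zero]
  simp [e, Pi.single_apply, td]

theorem tA_skew (i : Fin 4) (x : V4) : star ((td D p).tA D.A i x) = -(td D p).tA D.A i x := by
  have h1 := pd_mul (td D p).sm' (td D p).sm x (e i)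
  simp only [G'G, fderiv_fun_const, Pi.zero_apply, ContinuousLinearMap.zero_apply] at h1
  have h2 : star (fderiv ℝ (td D p).G x (e i)) = fderiv ℝ (td D p).G' x (e i) := by
    rw [← funext (star_G D p), fderiv_star]
    rfl
  simp only [TD.tA, star_add, star_mul, star_G, star_G', h2, star_sum, star_smul, D.A_skew,
    star_trivial, smul_neg, Finset.sum_neg_distrib]
  rw [eq_neg_of_add_eq_zero_right h1.symm]
  noncomm_ring

end Gauge

open Gauge

theorem gauge (hH : HEAT_statement) : HEATC_statement := by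
  intro 𝒜 _ _ _ _ _ _ _ σ hσ D K hK
  let χ : ContDiffBump (0 : V4) := ⟨3, 4, by norm_num, by norm_num⟩
  have χ1 : ∀ x, ‖x‖ < 3 → χ x = 1 := fun x hx =>
    χ.one_of_mem_closedBall (mem_closedBall_zero_iff.2 hx.le)
  have χ0 : χ 0 = 1 := χ1 0 (by simp)
  have sG : ContDiff ℝ ∞ fun q : V4 × V4 => (td D q.1).G q.2 := sm_exp.comp (sm_lg D).neg
  have sG' : ContDiff ℝ ∞ fun q : V4 × V4 => (td D q.1).G' q.2 := sm_exp.comp (sm_lg D)
  have sn' := fun i j => contDiff_pi.1 (contDiff_pi.1 D.n'_sm i) j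
  have sd : ContDiff ℝ ∞ fun y => det4 (D.n y) := contDiff_det4.comp D.n_sm
  let L : LD σ K :=
    { a := fun p i j x => χ x • (td D p).ta (gi D.n') i j x
      h := fun p i x => χ x • (td D p).tH D.h i x
      A := fun p i x => χ x • (td D p).tA D.A i x
      E := fun p x => χ x • (td D p).tE D.E x
      ρ := fun p x => χ x • (td D p).tρ (fun y => det4 (D.n y)) x
      ta := fun i j => tame hK χ (F := fun p => (td D p).ta (gi D.n') i j)
        (ContDiff.sum fun k _ => ContDiff.sum fun l _ => ((sm_n D i k).mul (sm_n D j l)).mul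
          ((ContDiff.sum fun c _ => (sn' k c).mul (sn' l c)).comp (sm_ps D)))
      th := fun i => tame hK χ (F := fun p => (td D p).tH D.h i)
        (ContDiff.sum fun k _ => (sm_n D i k).mul ((D.h_sm k).comp (sm_ps D)))
      tA := fun i => tame hK χ (F := fun p => (td D p).tA D.A i)
        (((sG'.mul (ContDiff.sum fun k _ => (sm_n' D k i).smul ((D.A_sm k).comp (sm_ps D)))).mul
          sG).add (sG'.mul ((ContDiff.fderiv (f := fun q : V4 × V4 => (td D q.1).G) (m := ∞)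
            (sG.comp ((contDiff_fst.comp contDiff_fst).prodMk contDiff_snd)) contDiff_snd
            le_rfl).clm_apply contDiff_const)))
      tE := tame hK χ (F := fun p => (td D p).tE D.E)
        ((sG'.mul (D.E_sm.comp (sm_ps D))).mul sG)
      tρ := tame hK χ (F := fun p => (td D p).tρ fun y => det4 (D.n y))
        (((sd.comp contDiff_fst).inv fun q => (D.n_det _).ne').mul (sd.comp (sm_ps D)))
      a_symm := fun p i j x => by
        congr 1
        refine Finset.sum_comm.trans (Finset.sum_congr rfl fun k _ => Finset.sum_congr rfl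
          fun l _ => ?_)
        simp only [gi, mul_comm]
      a_zero := fun p i j => by
        have h1 : ∑ c, (∑ k, D.n p i k * D.n' p k c) * ∑ l, D.n p j l * D.n' p l c =
            if i = j then 1 else 0 := by
          simp [delta (D.n_n' p), eq_comm]
        rw [χ0, one_smul, TD.ta, TD.Ps_zero, ← h1]
        simp only [Finset.sum_mul_sum]
        simp only [gi, Finset.mul_sum]
        rw [Finset.sum_congr rfl fun k _ => Finset.sum_comm, Finset.sum_comm]
        exact Finset.sum_congr rfl fun c _ => Finset.sum_congr rfl fun k _ =>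
          Finset.sum_congr rfl fun l _ => by simp only [td]; ring
      A_zero := fun p i => by rw [tA_zero, smul_zero]
      ρ_zero := fun p => by
        rw [χ0, one_smul, TD.tρ, TD.Ps_zero]
        exact inv_mul_cancel₀ (D.n_det _).ne'
      A_skew := fun p i x => by rw [star_smul, tA_skew, star_trivial, smul_neg]
      E_symm := fun p x => by
        rw [star_smul, star_trivial, TD.tE, star_mul, star_mul, star_G, star_G', D.E_symm,
          mul_assoc]
      E_tr := fun p x => by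
        rw [map_smul, TD.tE, mul_assoc, hσ.comm, mul_assoc, TD.GG', mul_one, D.E_tr, smul_zero] }
  obtain ⟨C, hC⟩ := hH 𝒜 σ hσ K L
  obtain ⟨M, hM⟩ := (hK.prod (isCompact_closedBall (0 : V4) 2)).exists_bound_of_continuousOn
    sG.continuous.continuousOn
  refine ⟨max M 1 * C, fun p hp => ?_⟩
  obtain ⟨U, R, H, h0⟩ := hC ⟨p, hp⟩
  have hA : ∀ i, L.A ⟨p, hp⟩ i =ᶠ[𝓝 0] (td D p).tA D.A i := fun i => by
    filter_upwards [Metric.ball_mem_nhds (0 : V4) (by norm_num : (0 : ℝ) < 3)] with y hy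
    show χ y • _ = _
    rw [χ1 y (mem_ball_zero_iff.1 hy), one_smul]
  have hd : (kap * dens σ (L.E ⟨p, hp⟩ 0) fun i j => cur (L.A ⟨p, hp⟩) i j 0) = D.d p := by
    have h1 : L.E ⟨p, hp⟩ 0 = D.E p := by
      show χ 0 • _ = _
      rw [χ0, one_smul, TD.tE, G'0, TD.G0, TD.Ps_zero, one_mul, mul_one]
      rfl
    have h2 : ∀ i j, cur (L.A ⟨p, hp⟩) i j 0 = frc (D.n' p) (fun k l => cur D.A k l p) i j :=
      fun i j => by
        refine Eq.trans ?_ ((td D p).cur_T D.A_sm i j)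
        simp only [cur, (hA _).fderiv_eq, (hA _).eq_of_nhds]
    rw [h1, funext₂ h2]
    rfl
  rw [hd] at H
  refine ⟨_, _, (td D p).transfer (fun x => by rw [star_G, G'G]) D.A_sm sd.continuous
    (fun y => (D.n_det y).le) (le_max_right M 1)
    (fun x hx => le_max_of_le_left (hM (p, x) ⟨hp, mem_closedBall_zero_iff.2 hx⟩))
    (uncut H h0 fun x hx => ?_) h0⟩
  simp only [L, χ1 x hx, one_smul, implies_true, and_self]

end Vale.Agent.P247J
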