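import Vale.Agent.P247J.Heat1

/-!
# P247J: the Gaussian parametrix
-/

set_option linter.all false

open scoped ContDiff Topology
open Set Filter MeasureTheory

noncomputable section

namespace Vale.Agent.P247J.Heat

open Vale.Agent.P204.T4 Vale.Agent.P247E
open Vale.Agent.P247.H74 (e)

section gen

variable {Λ E : Type} [NormedAddCommGroup E] [NormedSpace ℝ E]

theorem OO.nsq {m : ℕ} {Φ : Λ → ℝ → V4 → E} (h : OO m Φ) :
    OO (m + m) fun p s y => ‖Φ p s y‖ ^ 2 := by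
  obtain ⟨C, M, c0, h⟩ := h
  refine ⟨C * C, M + M, by positivity, fun p s hs y => ?_⟩
  rw [Real.norm_of_nonneg (sq_nonneg _)]
  exact (pow_le_pow_left₀ (norm_nonneg _) (h p s hs y) 2).trans_eq (by ring)

theorem OO.int {m : ℕ} {Ψ : Λ → ℝ → V4 → ℝ} (h : OO m Ψ)
    (hc : ∀ p, ∀ s ∈ Ioc (0 : ℝ) 1, Continuous (Ψ p s)) : ∃ C, 0 ≤ C ∧ ∀ p, ∀ s ∈ Ioc (0 : ℝ) 1,
      Integrable (fun y => gs y ^ 2 * Ψ p s y) ∧ |∫ y, gs y ^ 2 * Ψ p s y| ≤ C * s ^ m := by
  obtain ⟨C, M, c0, h⟩ := h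
  refine ⟨C * ∫ y, (1 + ‖y‖) ^ M * gs y ^ 2, mul_nonneg c0 (integral_nonneg fun y => by positivity),
    fun p s hs => ?_⟩
  obtain ⟨h1, h2⟩ := int_of_bd (hc p s hs) (h p s hs)
  exact ⟨h1, h2.trans_eq (by ring)⟩

theorem der_term {Φ : V4 → E} (h : ContDiff ℝ ∞ Φ) (k : ℕ) (x : V4) {s : ℝ} (hs : 0 < s) :
    HasDerivAt (fun s : ℝ => (s ^ k * s⁻¹ ^ 4) • Φ (s⁻¹ • x)) ((s ^ k * s⁻¹ ^ 5) •
      (((k : ℝ) - 4) • Φ (s⁻¹ • x) - ∑ i, (s⁻¹ • x) i • pa i Φ (s⁻¹ • x))) s := by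
  have h0 := hasDerivAt_inv hs.ne'
  have h1 := (hasDerivAt_pow k s).fun_mul (h0.fun_pow 4)
  have h2 := (dif h (s⁻¹ • x)).hasFDerivAt.comp_hasDerivAt s (h0.smul_const x)
  refine (h1.fun_smul h2).congr_deriv ?_
  have e1 : (k : ℝ) * s ^ (k - 1) = k * s ^ k * s⁻¹ := by
    cases k with
    | zero => simp
    | succ k => rw [Nat.add_sub_cancel, pow_succ]; field_simp
  rw [map_smul, clm_vec _ x, e1]
  simp only [pa, Pi.smul_apply, smul_eq_mul, Fin.sum_univ_four, Function.comp_apply,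
    Nat.add_one_sub_one]
  match_scalars <;> field_simp <;> ring

/-- the rescaled function -/
def sc (m : ℕ) (Φ : Λ → ℝ → V4 → E) (p : Λ) (s : ℝ) (x : V4) : E :=
  cut x • (s⁻¹ ^ m * gs (s⁻¹ • x)) • Φ p s (s⁻¹ • x)

theorem sc_eq (m : ℕ) (Φ : Λ → ℝ → V4 → E) (p : Λ) {s : ℝ} (hs : 0 < s) (x : V4) :
    sc m Φ p s x = s⁻¹ ^ m • gs (s⁻¹ • x) • ct Φ p s (s⁻¹ • x) := by
  rw [sc, ct, smul_inv_smul₀ hs.ne', smul_comm, mul_smul]

theorem sc_zero (m : ℕ) (Φ : Λ → ℝ → V4 → E) (p : Λ) (s : ℝ) {x : V4} (h : 3 / 2 ≤ ‖x‖) :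
    sc m Φ p s x = 0 := by rw [sc, cut_zero h, zero_smul]

variable {q0 q1 q2 q3 q4 : Λ → V4 → E} (p0 : PF q0) (p1 : PF q1) (p2 : PF q2) (p3 : PF q3)
  (p4 : PF q4)
include p0 p1 p2 p3 p4

theorem ct_sm (p : Λ) (s : ℝ) : ContDiff ℝ ∞ (ct (ev q0 q1 q2 q3 q4) p s) :=
  sml (cut_sm s) (ev_sm p0 p1 p2 p3 p4 p s)

theorem sc_sm (m : ℕ) (p : Λ) (s : ℝ) : ContDiff ℝ ∞ (sc m (ev q0 q1 q2 q3 q4) p s) :=
  sml cut.contDiff (sml (contDiff_const.mul (scl gs_sm _)) (scl (ev_sm p0 p1 p2 p3 p4 p s) _))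

theorem sc_cont (m : ℕ) (p : Λ) :
    ContinuousOn (fun q : ℝ × V4 => sc m (ev q0 q1 q2 q3 q4) p q.1 q.2) (Ioi 0 ×ˢ univ) := by
  have ci : ContinuousOn (fun q : ℝ × V4 => q.1⁻¹) (Ioi 0 ×ˢ univ) :=
    continuousOn_fst.inv₀ fun q hq => ne_of_gt hq.1
  have cy := ci.smul (continuousOn_snd (s := Ioi (0 : ℝ) ×ˢ (univ : Set V4)))
  have c : ∀ {f : Λ → V4 → E}, PF f → ContinuousOn (fun q : ℝ × V4 => f p (q.1⁻¹ • q.2))
      (Ioi 0 ×ˢ univ) := fun h => (h.sm p).continuous.comp_continuousOn cy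
  exact (cut.continuous.comp_continuousOn continuousOn_snd).smul (((ci.pow m).mul
    (gs_sm.continuous.comp_continuousOn cy)).smul (((((c p0).add (continuousOn_fst.smul
    (c p1))).add ((continuousOn_fst.pow 2).smul (c p2))).add ((continuousOn_fst.pow 3).smul
    (c p3))).add ((continuousOn_fst.pow 4).smul (c p4))))

theorem sc_der (p : Λ) (x : V4) {s : ℝ} (hs : 0 < s) :
    HasDerivAt (fun s => sc 4 (ev q0 q1 q2 q3 q4) p s x)
      (sc 5 (ev (nn 0 q0) (nn 1 q1) (nn 2 q2) (nn 3 q3) (nn 4 q4)) p s x) s := by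
  have t := fun {q : Λ → V4 → E} (h : PF q) (k : ℕ) => der_term (sml gs_sm (h.sm p)) k x hs
  convert (((((t p0 0).fun_add (t p1 1)).fun_add (t p2 2)).fun_add (t p3 3)).fun_add
    (t p4 4)).fun_const_smul (cut x) using 1
  · funext s
    simp only [sc, ev]
    module
  · simp only [sc, ev, nn, pa_gs_smul (p0.sm p), pa_gs_smul (p1.sm p), pa_gs_smul (p2.sm p),
      pa_gs_smul (p3.sm p), pa_gs_smul (p4.sm p), Fin.sum_univ_four]
    push_cast
    module

theorem pa_sc (p : Λ) {s : ℝ} (hs : 0 < s) (i j : Fin 4) (x : V4) :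
    pa j (sc 4 (ev q0 q1 q2 q3 q4) p s) x =
      s⁻¹ ^ 5 • gs (s⁻¹ • x) • dh j (ct (ev q0 q1 q2 q3 q4) p s) (s⁻¹ • x) ∧
    pa i (pa j (sc 4 (ev q0 q1 q2 q3 q4) p s)) x =
      s⁻¹ ^ 6 • gs (s⁻¹ • x) • dh i (dh j (ct (ev q0 q1 q2 q3 q4) p s)) (s⁻¹ • x) := by
  have k : ∀ (m : ℕ) {f : V4 → E}, ContDiff ℝ ∞ f → ∀ i,
      pa i (fun x => s⁻¹ ^ m • gs (s⁻¹ • x) • f (s⁻¹ • x)) =
        fun x => s⁻¹ ^ (m + 1) • gs (s⁻¹ • x) • dh i f (s⁻¹ • x) := fun m f hf i => by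
    rw [pa_csmul _ (scl (sml gs_sm hf) _), pa_scale (sml gs_sm hf), pa_gs_smul hf]
    simp only [pow_succ, mul_smul]
  have c := ct_sm p0 p1 p2 p3 p4 p s
  rw [funext (sc_eq 4 _ p hs), k 4 c, k 5 (dh_sm c j)]
  exact ⟨rfl, rfl⟩

end gen

variable {Λ 𝒜 : Type} [NormedRing 𝒜] [NormedAlgebra ℝ 𝒜] [StarRing 𝒜] {σ : 𝒜 →L[ℝ] ℝ}
  [StarModule ℝ 𝒜]

theorem star_mem0 {a : 𝒜} (h : a ∈ F0 𝒜) : star a ∈ F0 𝒜 := by
  obtain ⟨c, rfl⟩ := Submodule.mem_span_singleton.1 h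
  simpa using h

/-- the trace of the fourth coefficient of `star q * q` -/
def psi (al : Fin 4 → V4 →L[ℝ] 𝒜) (E0 : 𝒜) (σ : 𝒜 →L[ℝ] ℝ) (y : V4) : ℝ :=
  2 * σ (E0 * E0) + (2 / 3) * ∑ l, ∑ j, σ (rl al l (e j) * rl al l (e j)) +
    (2 / 3) * ∑ l, σ (rl al l y * rl al l y)

theorem psi_eq (hσ : Str σ) {al : Fin 4 → V4 →L[ℝ] 𝒜} {E0 : 𝒜}
    (h1 : ∀ l y, star (al l y) = -al l y) (h2 : star E0 = E0) (y : V4) :
    2 * s4 al E0 σ y + σ (star (e2 al E0 y) * e2 al E0 y) = psi al E0 σ y := by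
  have k1 : star (sq2 al y) = -sq2 al y := by simp [sq2, h1]
  have k2 := hσ.st (E0 * sq2 al y)
  rw [star_mul, k1, h2, neg_mul, map_neg] at k2
  simp only [s4, psi, bs_apply]
  simp only [e2, star_add, star_smul, star_neg, k1, h2, star_trivial, mul_add,
    add_mul, smul_mul_assoc, mul_smul_comm, map_add, map_smul, smul_eq_mul, mul_neg, neg_mul,
    map_neg, smul_neg, hσ.comm E0 (sq2 al y)] at k2 ⊢
  linarith

theorem int_psi (al : Fin 4 → V4 →L[ℝ] 𝒜) (E0 : 𝒜) : ∫ y, gs y ^ 2 * psi al E0 σ y =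
    kap * dens σ E0 fun i j => al j (e i) - al i (e j) := by
  have h := int_quad (∑ l, (bs σ).bilinearComp (rl al l) (rl al l))
  simp only [ContinuousLinearMap.sum_apply, ContinuousLinearMap.bilinearComp_apply,
    bs_apply] at h
  have i0 : Integrable fun y => gs y ^ 2 := by simpa using int_w2 0
  have pr : ∀ l, PF fun (_ : Unit) y => rl al l y := fun l => (PF.sum Finset.univ fun i =>
    (PF.cst (rl al l (e i))).co i).congr fun _ y => clm_vec _ y
  have i1 := (PF.sum Finset.univ fun l => (pr l).bil (bs σ) (pr l)).int ()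
  simp only [bs_apply] at i1
  have r : ∀ l j, σ (rl al l (e j) * rl al l (e j)) =
      (1 / 4) * σ ((al j (e l) - al l (e j)) * (al j (e l) - al l (e j))) := fun l j => by
    rw [show rl al l (e j) = (-(1 / 2) : ℝ) • (al j (e l) - al l (e j)) by
      simp only [rl, ContinuousLinearMap.smul_apply, ContinuousLinearMap.sub_apply, tl_e]; module]
    simp only [smul_mul_assoc, mul_smul_comm, map_smul, smul_eq_mul]
    ring
  have e1 : ∀ y, gs y ^ 2 * psi al E0 σ y = (2 * σ (E0 * E0) + (2 / 3) * ∑ l, ∑ j,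
      σ (rl al l (e j) * rl al l (e j))) * gs y ^ 2 +
      (2 / 3) * (gs y ^ 2 * ∑ l, σ (rl al l y * rl al l y)) := fun y => by rw [psi]; ring
  simp only [e1]
  rw [integral_add (i0.const_mul _) (i1.const_mul _), integral_const_mul, integral_const_mul, h,
    Finset.sum_comm (f := fun i l => σ (rl al l (e i) * rl al l (e i))), ← kap, dens]
  simp only [r, ← Finset.mul_sum]
  ring

theorem sq_bd {a C D b : ℝ} (h : a ≤ D * (b * b)) (h1 : D ≤ C) (h2 : 1 ≤ C) : a ≤ (C * b) ^ 2 :=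
  h.trans (by nlinarith [mul_self_nonneg b, mul_le_mul h1 h2 zero_le_one (by linarith)])

end Vale.Agent.P247J.Heat

namespace Vale.Agent.P247J

open Heat Vale.Agent.P204.T4 Vale.Agent.P247E
open Vale.Agent.P247.H74 (e)

theorem heat : HEAT_statement := by
  intro 𝒜 _ _ _ _ _ _ _ σ hσ Λ D
  obtain ⟨q0, q1, q2, q3, q4, h0, p1, p2, p3, p4, m1, m2, m2', m3, m4, hZ⟩ := exists_formal D hσ
  have p0 : PF q0 := h0 ▸ PF.cst 1
  set U := sc 4 (ev q0 q1 q2 q3 q4) with hU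
  set dU := sc 5 (ev (nn 0 q0) (nn 1 q1) (nn 2 q2) (nn 3 q3) (nn 4 q4)) with hdU
  set R : Λ → ℝ → V4 → 𝒜 := fun p s x =>
    dU p s x + (2 * s) • lapA (D.a p) (D.h p) (D.A p) (D.E p) (U p s) x with hR
  have sU : ∀ p s, ContDiff ℝ ∞ (U p s) := sc_sm p0 p1 p2 p3 p4 4
  have sR : ∀ p s, ContDiff ℝ ∞ (R p s) := fun p s =>
    (sc_sm (p0.nn 0) (p1.nn 1) (p2.nn 2) (p3.nn 3) (p4.nn 4) 5 p s).add
      ((lap_sm D p (sU p s)).const_smul _)
  have z : ∀ p s x, 2 ≤ ‖x‖ → U p s x = 0 ∧ R p s x = 0 := fun p s x hx => by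
    refine ⟨sc_zero _ _ _ _ (by linarith), ?_⟩
    rw [hR]
    simp only
    rw [hdU, sc_zero _ _ _ _ (by linarith), lap_zero D p, smul_zero, add_zero]
    filter_upwards [(isOpen_lt continuous_const continuous_norm).mem_nhds
      (show 3 / 2 < ‖x‖ by linarith)] with y hy using sc_zero _ _ _ _ hy.le
  have Eq := (Exp.poly p0 p1 p2 p3 p4).ct
  have Eρ := D.tρ.exp
  have cρ : ∀ p (s : ℝ), Continuous fun y : V4 => D.ρ p (s • y) := fun p s =>
    (scl (D.tρ.sm p) s).continuous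
  have cq := fun p s => (ct_sm p0 p1 p2 p3 p4 p s).continuous
  have sc' : ∀ {s : ℝ}, 0 < s → ∀ f : V4 → ℝ, ∫ x, f x = s ^ 4 * ∫ y, f (s • y) := fun hs f => by
    rw [← int_scale _ hs]
    simp only [smul_inv_smul₀ hs.ne']
  have eU : ∀ p {s : ℝ}, 0 < s → ∀ y, U p s (s • y) =
      s⁻¹ ^ 4 • gs y • ct (ev q0 q1 q2 q3 q4) p s y := fun p s hs y => by
    rw [hU, sc_eq _ _ _ hs, inv_smul_smul₀ hs.ne']
  -- the remainder
  have oZ : OO 5 fun p s y => (s ^ 5 * (gs y)⁻¹) • R p s (s • y) := hZ.congr fun p s hs y => by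
    have s0 := hs.1.ne'
    have g0 := (gs_pos y).ne'
    have k1 := fun j x => (pa_sc p0 p1 p2 p3 p4 p hs.1 0 j x).1
    have k2 := fun i j x => (pa_sc p0 p1 p2 p3 p4 p hs.1 i j x).2
    simp only [hR, lap_eq D p (sU p s)]
    simp only [hU, k2]
    simp only [k1, hdU, sc_eq _ _ _ hs.1, inv_smul_smul₀ s0, mul_smul_comm, Fin.sum_univ_four]
    match_scalars <;> field_simp
  obtain ⟨C1, c1, b1⟩ := (Eρ.oo.bil (ContinuousLinearMap.mul ℝ ℝ) oZ.nsq).int fun p s hs =>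
    (cρ p s).mul (((continuous_const.mul (gs_sm.continuous.inv₀ fun y => (gs_pos y).ne')).smul
      (scl (sR p s) s).continuous).norm.pow 2)
  obtain ⟨C2, c2, b2⟩ := (Eρ.oo.bil (ContinuousLinearMap.mul ℝ ℝ) Eq.oo.nsq).int fun p s hs =>
    (cρ p s).mul ((cq p s).norm.pow 2)
  -- the supertrace
  have sk : ∀ p l y, star (al D p l y) = -al D p l y := fun p l y => by
    have := tc_mem (W := LinearMap.ker (((starL' ℝ : 𝒜 ≃L[ℝ] 𝒜) : 𝒜 →L[ℝ] 𝒜) +
      ContinuousLinearMap.id ℝ 𝒜 : 𝒜 →ₗ[ℝ] 𝒜)) (D.tA l) (fun p x => by simp [D.A_skew]) 1 p y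
    simpa [tc_one, al, add_eq_zero_iff_eq_neg] using this
  have st : ∀ {a : 𝒜}, a ∈ F1 σ → star a ∈ F1 σ := fun h => (hσ.st _).trans h
  have zz : ∀ {a : 𝒜}, a ∈ F1 σ → σ a = 0 := fun h => h
  have Eτ := ((Eq.clm ((starL' ℝ : 𝒜 ≃L[ℝ] 𝒜) : 𝒜 →L[ℝ] 𝒜)).bil (bs σ) Eq).congr'
    (g0 := fun _ _ => 0) (g1 := fun _ _ => 0) (g2 := fun _ _ => 0) (g3 := fun _ _ => 0)
    (g4 := fun p => psi (al D p) (D.E p 0) σ) (fun p y => by simp [bs_apply, h0, hσ.one])
    (fun p y => by simp [bs_apply, h0, hσ.st, zz (F0_le hσ (m1 p y))])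
    (fun p y => by simp [bs_apply, h0, hσ.st, zz (m2' p y),
      zz (mul0 (star_mem0 (m1 p y)) (F0_le hσ (m1 p y)))])
    (fun p y => by simp [bs_apply, h0, hσ.st, zz (m3 p y), zz (mul0 (star_mem0 (m1 p y)) (m2' p y)),
      zz (mul0' (st (m2' p y)) (m1 p y))])
    fun p y => by
      have k1 := zz (mul0 (star_mem0 (m2 p y)) (m2' p y))
      have k2 := zz (mul0' (st (sub_mem (m2' p y) (F0_le hσ (m2 p y)))) (m2 p y))
      rw [← psi_eq hσ (sk p) (D.E_symm p 0), ← m4]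
      simp only [star_sub, sub_mul, mul_sub, map_sub, sub_sub_cancel] at k1 k2
      simp [bs_apply, h0, hσ.st, zz (mul0 (star_mem0 (m1 p y)) (m3 p y)),
        zz (mul0' (st (m3 p y)) (m1 p y))]
      linarith
  have cτ : ∀ p s, Continuous fun y => D.ρ p (s • y) * σ (star (ct (ev q0 q1 q2 q3 q4) p s y) *
      ct (ev q0 q1 q2 q3 q4) p s y) := fun p s =>
    (cρ p s).mul (σ.continuous.comp ((cq p s).star.mul (cq p s)))
  have oτ : OO 5 fun p s y => D.ρ p (s • y) * σ (star (ct (ev q0 q1 q2 q3 q4) p s y) *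
      ct (ev q0 q1 q2 q3 q4) p s y) - s ^ 4 * psi (al D p) (D.E p 0) σ y :=
    ((Eρ.smul Eτ).oo5 (by simp) (by simp) (by simp) (by simp)).congr fun p s _ y => by
      simp [tc_zero, D.ρ_zero, bs_apply]
  obtain ⟨C3, c3, b3⟩ := oτ.int fun p s _ =>
    (cτ p s).sub (continuous_const.mul (Eτ.p4.sm p).continuous)
  refine ⟨C1 + C2 + C3 + 1, fun p => ⟨U p, R p, ⟨fun s _ => sU p s, fun s _ => sR p s,
    ⟨_, isCompact_closedBall (0 : V4) 2, fun s x hx => z p s x (le_of_not_ge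
      (mt mem_closedBall_zero_iff.2 hx))⟩, fun f hf s hs => ?_, fun f hf => ?_, fun s hs => ?_,
    fun s hs => ?_, fun s hs => ?_⟩, z p⟩⟩
  · have nk : ∀ x, x ∉ Metric.closedBall (0 : V4) 2 → 3 / 2 ≤ ‖x‖ := fun x hx => by
      linarith [le_of_not_ge (mt mem_closedBall_zero_iff.2 hx)]
    simp only [hR, add_sub_cancel_right]
    exact der_int (G' := fun s x => f x (dU p s x)) (isCompact_closedBall (0 : V4) 2)
      (fun s x hx => by rw [hU, sc_zero _ _ _ _ (nk x hx), map_zero])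
      (fun s x hx => by rw [hdU, sc_zero _ _ _ _ (nk x hx), map_zero])
      (fun s _ => hf.clm_apply (sU p s).continuous)
      ((hf.comp_continuousOn continuousOn_snd).clm_apply
        (sc_cont (p0.nn 0) (p1.nn 1) (p2.nn 2) (p3.nn 3) (p4.nn 4) 5 p))
      (fun s hs x => (f x).hasFDerivAt.comp_hasDerivAt s (sc_der p0 p1 p2 p3 p4 p x hs)) hs.1
  · obtain ⟨Mf, hM⟩ := (isCompact_closedBall (0 : V4) 2).exists_bound_of_continuousOn
      hf.continuousOn
    obtain ⟨C, M, c0, b⟩ := Eρ.oo.bil (ContinuousLinearMap.lsmul ℝ ℝ) Eq.oo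
    have m0 : 0 ≤ Mf := (norm_nonneg _).trans (hM 0 (by simp))
    have lim := tendsto_integral_filter_of_dominated_convergence (μ := (volume : Measure V4))
      (l := 𝓝[>] (0 : ℝ)) (F := fun s y => gs y * f (s • y) (D.ρ p (s • y) •
        ct (ev q0 q1 q2 q3 q4) p s y)) (f := fun y => gs y * f 0 1)
      (fun y => Mf * C * ((1 + ‖y‖) ^ M * gs y))
      (Eventually.of_forall fun s => (gs_sm.continuous.mul ((hf.comp
        (continuous_const_smul s)).clm_apply ((cρ p s).smul (cq p s)))).aestronglyMeasurable)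
      (by
        filter_upwards [Ioc_mem_nhdsGT (zero_lt_one' ℝ)] with s hs
        refine Eventually.of_forall fun y => ?_
        have g0 := gs_pos y
        by_cases hy : ‖s • y‖ ≤ 2
        · have b' := b p s hs y
          rw [pow_zero, mul_one] at b'
          rw [norm_mul, Real.norm_of_nonneg g0.le]
          calc _ ≤ gs y * (Mf * (C * (1 + ‖y‖) ^ M)) := mul_le_mul_of_nonneg_left
                (((f _).le_opNorm _).trans (mul_le_mul (hM _ (mem_closedBall_zero_iff.2 hy)) b'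
                  (norm_nonneg _) m0)) g0.le
            _ = _ := by ring
        · rw [ct, cut_zero (by linarith), zero_smul, smul_zero, map_zero, mul_zero, norm_zero]
          positivity)
      ((int_w M).const_mul _) (Eventually.of_forall fun y => by
        have c : Continuous fun s : ℝ => s • y := continuous_id.smul continuous_const
        have : Continuous fun s : ℝ => gs y * f (s • y) (D.ρ p (s • y) •
            ct (ev q0 q1 q2 q3 q4) p s y) := continuous_const.mul ((hf.comp c).clm_apply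
          (((D.tρ.sm p).continuous.comp c).smul ((cut.continuous.comp c).smul
            (by unfold Heat.ev; fun_prop))))
        convert (this.tendsto 0).mono_left nhdsWithin_le_nhds using 2
        simp [ct, Heat.ev, h0, D.ρ_zero, cut.one_of_mem_closedBall (Metric.mem_closedBall_self
          cut.rIn_pos.le)])
    rw [integral_mul_const, int_gs, one_mul] at lim
    refine lim.congr' (eventually_mem_nhdsWithin.mono fun s hs => ?_)
    replace hs : 0 < s := hs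
    beta_reduce
    rw [sc' hs fun x => D.ρ p x * f x (U p s x), ← integral_const_mul]
    simp only [eU p hs, map_smul, smul_eq_mul]
    congr 1
    funext y
    field_simp
  · have s0 := hs.1.ne'
    refine sq_bd (D := C1) ?_ (by linarith) (by linarith)
    rw [sc' hs.1]
    have := (le_abs_self _).trans (b1 p s hs).2
    have e1 : ∀ y, D.ρ p (s • y) * ‖R p s (s • y)‖ ^ 2 = s⁻¹ ^ 10 * (gs y ^ 2 *
        ContinuousLinearMap.mul ℝ ℝ (D.ρ p (s • y))
          (‖(s ^ 5 * (gs y)⁻¹) • R p s (s • y)‖ ^ 2)) := fun y => by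
      have g0 := (gs_pos y).ne'
      rw [norm_smul, mul_pow, Real.norm_eq_abs, sq_abs, ContinuousLinearMap.mul_apply']
      field_simp
    simp only [e1, integral_const_mul]
    calc _ ≤ s ^ 4 * (s⁻¹ ^ 10 * (C1 * s ^ (0 + (5 + 5)))) := by
          have := hs.1
          gcongr
      _ = _ := by field_simp; ring
  · have s0 := hs.1.ne'
    rw [div_eq_mul_inv]
    refine sq_bd (D := C2) ?_ (by linarith) (by linarith)
    rw [sc' hs.1]
    have := (le_abs_self _).trans (b2 p s hs).2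
    have e1 : ∀ y, D.ρ p (s • y) * ‖U p s (s • y)‖ ^ 2 = s⁻¹ ^ 8 * (gs y ^ 2 *
        ContinuousLinearMap.mul ℝ ℝ (D.ρ p (s • y))
          (‖ct (ev q0 q1 q2 q3 q4) p s y‖ ^ 2)) := fun y => by
      rw [eU p hs.1, smul_smul, norm_smul, mul_pow, Real.norm_eq_abs, sq_abs,
        ContinuousLinearMap.mul_apply']
      ring
    simp only [e1, integral_const_mul]
    calc _ ≤ s ^ 4 * (s⁻¹ ^ 8 * (C2 * s ^ (0 + (0 + 0)))) := by
          have := hs.1
          gcongr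
      _ = _ := by field_simp; ring
  · have s0 := hs.1.ne'
    have s1 := hs.1
    have e0 : (fun i j => cur (D.A p) i j 0) = fun i j => al D p j (e i) - al D p i (e j) := by
      funext i j
      simp [cur, al, D.A_zero]
    obtain ⟨i3, b3'⟩ := b3 p s hs
    have i4 := Eτ.p4.int p
    have e1 : ∀ y, D.ρ p (s • y) * σ (star (U p s (s • y)) * U p s (s • y)) = s⁻¹ ^ 8 *
        (gs y ^ 2 * (D.ρ p (s • y) * σ (star (ct (ev q0 q1 q2 q3 q4) p s y) *
          ct (ev q0 q1 q2 q3 q4) p s y) - s ^ 4 * psi (al D p) (D.E p 0) σ y)) +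
        s⁻¹ ^ 4 * (gs y ^ 2 * psi (al D p) (D.E p 0) σ y) := fun y => by
      simp only [eU p s1, star_smul, star_trivial, smul_mul_assoc, mul_smul_comm, map_smul,
        smul_eq_mul]
      field_simp
      ring
    rw [e0, ← int_psi, sc' s1]
    simp only [e1]
    rw [integral_add (i3.const_mul _) (i4.const_mul _), integral_const_mul, integral_const_mul,
      mul_add, ← mul_assoc, ← mul_assoc, ← mul_pow, mul_inv_cancel₀ s0, one_pow, one_mul,
      add_sub_cancel_right, abs_mul, abs_of_pos (by positivity)]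
    calc _ ≤ s ^ 4 * s⁻¹ ^ 8 * (C3 * s ^ 5) := by gcongr
      _ = C3 * s := by field_simp
      _ ≤ _ := by gcongr; linarith

end Vale.Agent.P247J
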