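import Vale.Agent.P247J.Sta

/-! # P247J: `LCE`, the existence of the Levi-Civita connection -/

set_option linter.all false

open scoped ContDiff Topology Quaternion RealInnerProductSpace
open Set

noncomputable section

namespace Vale.Agent.P247J

open Vale.Agent.P204.GX Vale.Agent.P204.T4 Vale.Agent.P247E
open Vale.Agent.P247.H74 (e)

namespace Lc

theorem uq_re (d : Fin 4) : (uq d).re = if d = 0 then 1 else 0 := by
  fin_cases d <;> simp [uq, qv, e]
theorem uq_i (d : Fin 4) : (uq d).imI = if d = 1 then -1 else 0 := by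
  fin_cases d <;> simp [uq, qv, e]
theorem uq_j (d : Fin 4) : (uq d).imJ = if d = 2 then -1 else 0 := by
  fin_cases d <;> simp [uq, qv, e]
theorem uq_k (d : Fin 4) : (uq d).imK = if d = 3 then -1 else 0 := by
  fin_cases d <;> simp [uq, qv, e]

theorem qv_eq (t : V4) : qv t = ∑ c, t c • uq c := by
  ext <;> simp [Fin.sum_univ_four, uq_re, uq_i, uq_j, uq_k, qv]

theorem inn (a b : ℍ) : ⟪a, b⟫ = a.re * b.re + a.imI * b.imI + a.imJ * b.imJ + a.imK * b.imK := by
  simp [Quaternion.inner_def]

theorem on_uq (i j : Fin 4) : ⟪uq i, uq j⟫ = if i = j then 1 else 0 := by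
  rw [inn]
  fin_cases i <;> fin_cases j <;> simp [uq_re, uq_i, uq_j, uq_k]

theorem exp_uq (q : ℍ) : ∑ c, ⟪q, uq c⟫ • uq c = q := by
  ext <;> simp [Fin.sum_univ_four, inn, uq_re, uq_i, uq_j, uq_k]

theorem th_eq (n : V4 → M4) (l : Fin 4) : th n l = fun y => ∑ c, n y c l • uq c :=
  funext fun y => qv_eq _

theorem th_sm {n : V4 → M4} (h : ContDiff ℝ ∞ n) (l : Fin 4) : ContDiff ℝ ∞ (th n l) := by
  rw [th_eq]
  exact ContDiff.sum fun c _ => by fun_prop

theorem pd_sm {B : Type} [NormedAddCommGroup B] [NormedSpace ℝ B] {f : V4 → B}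
    (h : ContDiff ℝ ∞ f) (v : V4) : ContDiff ℝ ∞ fun y => fderiv ℝ f y v :=
  (h.fderiv_right (m := ∞) le_rfl).clm_apply contDiff_const

theorem inv_ent {P P' : M4} (h : ∀ v, app P (app P' v) = v) (i j : Fin 4) :
    ∑ k, P i k * P' k j = if i = j then 1 else 0 := by
  have := congrFun (h (e j)) i
  simpa [app, e, Pi.single_apply] using this

theorem frc_frc {B : Type} [AddCommGroup B] [Module ℝ B] {P P' : M4}
    (h : ∀ v, app P' (app P v) = v) (F : Fin 4 → Fin 4 → B) (k l : Fin 4) :
    frc P (frc P' F) k l = F k l := by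
  have : frc P (frc P' F) k l =
      ∑ a, ∑ b, ((∑ i, P' a i * P i k) * ∑ j, P' b j * P j l) • F a b := by
    simp only [frc, Finset.smul_sum, smul_smul, Finset.sum_mul_sum, Finset.sum_smul]
    rw [Finset.sum_congr rfl fun i _ => Finset.sum_comm, Finset.sum_comm]
    refine Finset.sum_congr rfl fun a _ => ?_
    rw [Finset.sum_congr rfl fun i _ => Finset.sum_comm, Finset.sum_comm]
    refine Finset.sum_congr rfl fun b _ => Finset.sum_congr rfl fun i _ =>
      Finset.sum_congr rfl fun j _ => ?_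
    congr 1
    ring
  rw [this]
  simp [inv_ent h]

/-- the left part of a skew matrix -/
def aL (W : M4) : ℍ := ((W 0 1 - W 2 3) / 2) • uq 1 + ((W 0 2 + W 1 3) / 2) • uq 2 +
  ((W 0 3 - W 1 2) / 2) • uq 3

/-- the right part of a skew matrix -/
def aR (W : M4) : ℍ := (-(W 0 1 + W 2 3) / 2) • uq 1 + (-(W 0 2 - W 1 3) / 2) • uq 2 +
  (-(W 0 3 + W 1 2) / 2) • uq 3

theorem skew {W : M4} (h : ∀ j k, W j k = -W k j) : (aL W).re = 0 ∧ (aR W).re = 0 ∧
    ∀ j, aL W * uq j - uq j * aR W = ∑ k, W j k • uq k := by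
  have d : ∀ j, W j j = 0 := fun j => by linarith [h j j]
  refine ⟨by simp [aL, uq_re], by simp [aR, uq_re], fun j => ?_⟩
  fin_cases j <;> ext <;>
    simp [aL, aR, Fin.sum_univ_four, uq_re, uq_i, uq_j, uq_k, d, h 1 0, h 2 0, h 3 0, h 2 1,
      h 3 1, h 3 2] <;> ring

end Lc

open Lc in
theorem lce : LCE_statement := fun n n' hn hn' h1 h2 => by
  let T : Fin 4 → Fin 4 → V4 → ℍ := fun k l y =>
    fderiv ℝ (th n l) y (e k) - fderiv ℝ (th n k) y (e l)
  let t : Fin 4 → Fin 4 → Fin 4 → V4 → ℝ := fun i j k y =>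
    ⟪frc (n' y) (fun a b => T a b y) i j, uq k⟫
  let om : Fin 4 → Fin 4 → Fin 4 → V4 → ℝ := fun i j k y =>
    -(t i j k y - t j k i y + t k i j y) / 2
  let W : Fin 4 → V4 → M4 := fun l y j k => ∑ i, n y i l * om i j k y
  have hT : ∀ k l, ContDiff ℝ ∞ (T k l) := fun k l =>
    (pd_sm (th_sm hn l) _).sub (pd_sm (th_sm hn k) _)
  have ht : ∀ i j k, ContDiff ℝ ∞ (t i j k) := fun i j k =>
    ContDiff.inner ℝ (ContDiff.sum fun a _ => ContDiff.sum fun b _ =>
      ContDiff.smul (f := fun y => n' y a i * n' y b j) (by fun_prop) (hT a b)) contDiff_const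
  have hom : ∀ i j k, ContDiff ℝ ∞ (om i j k) := fun i j k =>
    (((ht i j k).sub (ht j k i)).add (ht k i j)).neg.div_const 2
  have hW : ∀ l j k, ContDiff ℝ ∞ fun y => W l y j k := fun l j k =>
    ContDiff.sum fun i _ => ContDiff.mul (f := fun y => n y i l) (by fun_prop) (hom i j k)
  have ts : ∀ i j k y, t i j k y = -t j i k y := fun i j k y => by
    simp only [t, frc]
    rw [← inner_neg_left, Finset.sum_comm]
    congr 1
    simp only [← Finset.sum_neg_distrib, ← smul_neg, T, neg_sub]
    exact Finset.sum_congr rfl fun a _ => Finset.sum_congr rfl fun b _ => by rw [mul_comm]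
  have Ws : ∀ l y j k, W l y j k = -W l y k j := fun l y j k => by
    simp only [W, ← Finset.sum_neg_distrib, om]
    refine Finset.sum_congr rfl fun i _ => ?_
    rw [ts i k j, ts k j i, ts j i k]
    ring
  refine ⟨fun l y => aR (W l y), fun l y => aL (W l y), fun l => ?_, fun l => ?_,
    fun l y => (skew (Ws l y)).2.1, fun l y => (skew (Ws l y)).1, fun k l y => ?_⟩
  · have := hW l
    unfold aR
    fun_prop (disch := norm_num)
  · have := hW l
    unfold aL
    fun_prop (disch := norm_num)
  · have a : ∀ k l, aL (W k y) * th n l y - th n l y * aR (W k y) =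
        frc (n y) (fun i j => ∑ c, om i j c y • uq c) k l := fun k l => by
      rw [th_eq]
      simp only [Finset.mul_sum, Finset.sum_mul, ← Finset.sum_sub_distrib, mul_smul_comm,
        smul_mul_assoc, ← smul_sub, (skew (Ws k y)).2.2, frc, W, Finset.sum_smul, Finset.smul_sum,
        smul_smul]
      rw [Finset.sum_congr rfl fun i _ => Finset.sum_comm, Finset.sum_comm]
      refine Finset.sum_congr rfl fun a _ => Finset.sum_congr rfl fun i _ =>
        Finset.sum_congr rfl fun j _ => ?_
      congr 1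
      ring
    have b : ∀ i j, ∑ c, om i j c y • uq c - ∑ c, om j i c y • uq c =
        -frc (n' y) (fun a b => T a b y) i j := fun i j => by
      rw [← exp_uq (frc _ _ i j), ← Finset.sum_sub_distrib, ← Finset.sum_neg_distrib]
      refine Finset.sum_congr rfl fun c _ => ?_
      rw [← sub_smul, ← neg_smul]
      congr 1
      change _ = -t i j c y
      simp only [om]
      rw [ts j i c, ts i c j, ts c j i]
      ring
    have c := frc_frc (h2 y) (fun a b => T a b y) k l
    have d : frc (n y) (fun i j => ∑ c, om i j c y • uq c) k l -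
        frc (n y) (fun i j => ∑ c, om i j c y • uq c) l k = -T k l y := by
      rw [← c, frc, frc, frc, Finset.sum_comm (f := fun a b => (n y a l * n y b k) • _)]
      simp only [← Finset.sum_sub_distrib, ← Finset.sum_neg_distrib, ← smul_neg, ← b]
      refine Finset.sum_congr rfl fun i _ => Finset.sum_congr rfl fun j _ => ?_
      rw [mul_comm (n y j l), ← smul_sub, Finset.sum_sub_distrib]
    rw [a, a, ← sub_eq_zero, add_sub_add_comm, d]
    exact add_neg_cancel _

end Vale.Agent.P247J
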