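import Vale.Agent.P247J.Lc1

/-! # P247J: `LCD`, Christoffel symbols, the formula of Jacobi, the Bianchi identity -/

set_option linter.all false

open scoped ContDiff Topology Quaternion RealInnerProductSpace
open Set

noncomputable section

namespace Vale.Agent.P247J

open Vale.Agent.P204.GX Vale.Agent.P204.T4 Vale.Agent.P247E
open Vale.Agent.P247.H74 (e)

namespace Lc

theorem be_sm {n' : V4 → M4} (h : ContDiff ℝ ∞ n') (u : Fin 4 → ℍ) (m : Fin 4) :
    ContDiff ℝ ∞ (be n' u m) :=
  ContDiff.sum fun c _ => by fun_prop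

theorem be_star (n' : V4 → M4) (u : Fin 4 → ℍ) (m : Fin 4) :
    be n' (fun d => star (u d)) m = fun y => star (be n' u m y) := by
  funext y
  simp [be, star_sum]

theorem inner_skew {a b : ℍ} (ha : a.re = 0) (hb : b.re = 0) (x z : ℍ) :
    ⟪a * x - x * b, z⟫ = -⟪a * z - z * b, x⟫ := by
  simp [inn, ha, hb]
  ring

theorem star_im {a : ℍ} (ha : a.re = 0) : star a = -a := by
  ext <;> simp [ha]

theorem th_be {n n' : V4 → M4} {y : V4} (h : ∀ v, app (n' y) (app (n y) v) = v) (m l : Fin 4) :
    ⟪th n l y, be n' uq m y⟫ = if m = l then 1 else 0 := by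
  rw [← inv_ent h, th_eq]
  simp [be, sum_inner, inner_sum, inner_smul_left, inner_smul_right, on_uq]

theorem exp_be {n n' : V4 → M4} {y : V4} (h : ∀ v, app (n y) (app (n' y) v) = v) (q : ℍ) :
    ∑ l, ⟪th n l y, q⟫ • be n' uq l y = q := by
  conv_rhs => rw [← exp_uq q]
  simp only [th_eq, be, sum_inner, inner_smul_left, Finset.smul_sum, smul_smul, Finset.sum_mul,
    conj_trivial]
  rw [Finset.sum_comm]
  refine Finset.sum_congr rfl fun d _ => ?_
  rw [← Finset.sum_smul, Finset.sum_comm]
  congr 1
  have : ∀ c, ∑ l, n y c l * ⟪uq c, q⟫ * n' y l d = (if c = d then 1 else 0) * ⟪uq c, q⟫ :=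
    fun c => by
      rw [← inv_ent h, Finset.sum_mul]
      exact Finset.sum_congr rfl fun l _ => by ring
  simp only [this]
  simp [real_inner_comm]

theorem exp_th {n n' : V4 → M4} {y : V4} (h : ∀ v, app (n y) (app (n' y) v) = v) (k : Fin 4) :
    uq k = ∑ c, n' y c k • th n c y := by
  simp only [th_eq, Finset.smul_sum, smul_smul]
  rw [Finset.sum_comm]
  simp only [← Finset.sum_smul, mul_comm (n' y _ k), inv_ent h]
  simp

theorem jacobi {P P' : M4} (h : ∀ v, app P (app P' v) = v) (Y : M4) :
    fderiv ℝ det4 P Y = (∑ k, ∑ c, P' k c * Y c k) * det4 P := by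
  have a : HasDerivAt (fun t : ℝ => det4 (P + t • Y)) (fderiv ℝ det4 P Y) 0 := by
    have := (contDiff_det4.differentiable (by simp) (P + (0 : ℝ) • Y)).hasFDerivAt.comp_hasDerivAt
      (0 : ℝ) (((hasDerivAt_id (0 : ℝ)).smul_const Y).const_add P)
    simp only [zero_smul, add_zero, one_smul] at this
    exact this
  obtain ⟨q, hq⟩ : ∃ q : Polynomial ℝ, ∀ t : ℝ, det4 (P + t • Y) =
      (1 + (∑ k, ∑ c, P' k c * Y c k) * t + q.eval t * t ^ 2) * det4 P := by
    refine ⟨(Matrix.det (1 + (Polynomial.X : Polynomial ℝ) •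
      (Matrix.of (mm P' Y)).map Polynomial.C)).divX.divX, fun t => ?_⟩
    have e1 : Matrix.of (P + t • Y) = Matrix.of P * (1 + t • Matrix.of (mm P' Y)) := by
      have : mm P (mm P' Y) = Y := m4_ext fun v => by rw [app_mm, app_mm, h]
      rw [mul_add, mul_one, Matrix.mul_smul]
      exact congrArg (fun Z => P + t • Z) this.symm
    rw [det4_eq_det, e1, Matrix.det_mul, Matrix.det_one_add_smul, mul_comm, det4_eq_det]
    rfl
  rw [funext hq] at a
  have b := ((((hasDerivAt_id (0 : ℝ)).const_mul (∑ k, ∑ c, P' k c * Y c k)).const_add 1).add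
    ((q.hasDerivAt 0).mul (hasDerivAt_pow 2 (0 : ℝ)))).mul_const (det4 P)
  simpa using a.unique b

/-- the covariant derivative -/
def nb (ap am : Fin 4 → V4 → ℍ) (k : Fin 4) (f : V4 → ℍ) (y : V4) : ℍ :=
  fderiv ℝ f y (e k) + (am k y * f y - f y * ap k y)

theorem nb_nb {ap am : Fin 4 → V4 → ℍ} (hp : ∀ k, ContDiff ℝ ∞ (ap k))
    (hm : ∀ k, ContDiff ℝ ∞ (am k)) {f : V4 → ℍ} (hf : ContDiff ℝ ∞ f) (i j : Fin 4) (y : V4) :
    cur am i j y * f y - f y * cur ap i j y =
      nb ap am i (nb ap am j f) y - nb ap am j (nb ap am i f) y := by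
  have D : ∀ {g : V4 → ℍ}, ContDiff ℝ ∞ g → HasFDerivAt g (fderiv ℝ g y) y := fun hg =>
    (hg.differentiable (by simp) y).hasFDerivAt
  have a : ∀ i j, fderiv ℝ (nb ap am j f) y (e i) = fderiv ℝ (fderiv ℝ f) y (e i) (e j) +
      (am j y * fderiv ℝ f y (e i) + fderiv ℝ (am j) y (e i) * f y -
        (f y * fderiv ℝ (ap j) y (e i) + fderiv ℝ f y (e i) * ap j y)) := fun i j => by
    have h0 := ((hf.fderiv_right (m := ∞) le_rfl).differentiable (by simp) y).hasFDerivAt
    have := ((h0.clm_apply (hasFDerivAt_const (e j) y)).add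
      (((D (hm j)).mul' (D hf)).sub ((D hf).mul' (D (hp j))))).fderiv
    rw [show nb ap am j f = _ from rfl]
    erw [this]
    simp
  have s : fderiv ℝ (fderiv ℝ f) y (e i) (e j) = fderiv ℝ (fderiv ℝ f) y (e j) (e i) :=
    (hf.contDiffAt.isSymmSndFDerivAt (by simp; norm_cast)) _ _
  rw [nb, a, nb.eq_1 ap am j (nb ap am i f), a, s]
  simp only [nb, cur]
  noncomm_ring

theorem cyc {B : Type} [AddCommGroup B] [Module ℝ B] (S : Fin 4 → Fin 4 → Fin 4 → B)
    (h : ∀ a b c, S a b c + S b c a + S c a b = 0) (P : M4) (i j k : Fin 4) :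
    ∑ a, ∑ b, ∑ c, (P a i * P b j * P c k) • S a b c +
      ∑ a, ∑ b, ∑ c, (P a j * P b k * P c i) • S a b c +
      ∑ a, ∑ b, ∑ c, (P a k * P b i * P c j) • S a b c = 0 := by
  have r : ∀ F : Fin 4 → Fin 4 → Fin 4 → B, ∑ a, ∑ b, ∑ c, F a b c = ∑ a, ∑ b, ∑ c, F b c a :=
    fun F => by rw [Finset.sum_congr rfl fun a _ => Finset.sum_comm, Finset.sum_comm]
  rw [r fun a b c => (P a j * P b k * P c i) • S a b c,
    r fun a b c => (P a k * P b i * P c j) • S a b c, r fun a b c => (P b k * P c i * P a j) • _]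
  simp only [← Finset.sum_add_distrib]
  refine Finset.sum_eq_zero fun a _ => Finset.sum_eq_zero fun b _ =>
    Finset.sum_eq_zero fun c _ => ?_
  rw [show P b j * P c k * P a i = P a i * P b j * P c k by ring,
    show P c k * P a i * P b j = P a i * P b j * P c k by ring, ← smul_add, ← smul_add, h,
    smul_zero]

theorem o (i j : Fin 4) : star (uq i) * uq j + star (uq j) * uq i = if i = j then 2 else 0 := by
  rw [← one_add_one_eq_two]
  fin_cases i <;> fin_cases j <;> ext <;> simp [uq_re, uq_i, uq_j, uq_k]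

theorem o' (i j : Fin 4) : uq i * star (uq j) + uq j * star (uq i) = if i = j then 2 else 0 := by
  rw [← one_add_one_eq_two]
  fin_cases i <;> fin_cases j <;> ext <;> simp [uq_re, uq_i, uq_j, uq_k]

end Lc

open Lc in
theorem lcd : LCD_statement := fun n n' hn hn' h1 h2 hd ap am H => by
  have tf : ∀ k l, nb ap am k (th n l) = nb ap am l (th n k) := fun k l => funext (H.tf k l)
  refine ⟨?_, fun y i j k => ?_⟩
  · let Γ : Fin 4 → Fin 4 → Fin 4 → V4 → ℝ := fun m k l y =>
      ⟪nb ap am k (th n l) y, be n' uq m y⟫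
    have sm : ∀ m k l, ContDiff ℝ ∞ (Γ m k l) := fun m k l =>
      ContDiff.inner ℝ ((pd_sm (th_sm hn l) _).add (((H.m_sm k).mul (th_sm hn l)).sub
        ((th_sm hn l).mul (H.p_sm k)))) (be_sm hn' _ m)
    have sy : ∀ m k l y, Γ m k l y = Γ m l k y := fun m k l y => by simp only [Γ, tf k l]
    have db : ∀ m k y, fderiv ℝ (be n' uq m) y (e k) + (am k y * be n' uq m y -
        be n' uq m y * ap k y) = -∑ l, Γ m k l y • be n' uq l y := fun m k y => by
      rw [← exp_be (h1 y) (_ + _), ← Finset.sum_neg_distrib]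
      refine Finset.sum_congr rfl fun l _ => ?_
      have a := fderiv_inner_apply ℝ ((th_sm hn l).differentiable (by simp) y)
        ((be_sm hn' uq m).differentiable (by simp) y) (e k)
      rw [show (fun t => ⟪th n l t, be n' uq m t⟫) = fun _ => if m = l then (1 : ℝ) else 0 from
        funext fun t => th_be (h2 t) m l, fderiv_fun_const] at a
      rw [← neg_smul, inner_add_right, real_inner_comm (_ - _) (th n l y),
        inner_skew (H.m_im k y) (H.p_im k y)]
      congr 1
      simp only [Γ, nb, inner_add_left]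
      have a' : (0 : ℝ) = _ := a
      linarith
    have dr : ∀ l y, fderiv ℝ (fun y => det4 (n y)) y (e l) =
        (∑ k, Γ k k l y) * det4 (n y) := fun l y => by
      have hy := (hn.differentiable (by simp) y).hasFDerivAt
      have a := ((contDiff_det4.differentiable (by simp) (n y)).hasFDerivAt.comp y hy).fderiv
      have b : ∀ k, fderiv ℝ (th n k) y (e l) = ∑ c, fderiv ℝ n y (e l) c k • uq c := fun k => by
        rw [th_eq, (HasFDerivAt.fun_sum fun c _ => (hasFDerivAt_pi'.1 (hasFDerivAt_pi'.1 hy c)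
          k).smul_const (uq c)).fderiv]
        simp
      have c : ∑ k, ⟪am l y * th n k y - th n k y * ap l y, be n' uq k y⟫ = 0 := by
        have : ∀ k, ⟪am l y * th n k y - th n k y * ap l y, be n' uq k y⟫ =
            ∑ c, n y c k * ⟪am l y * uq c - uq c * ap l y, be n' uq k y⟫ := fun k => by
          simp only [th_eq, Finset.mul_sum, Finset.sum_mul, ← Finset.sum_sub_distrib,
            mul_smul_comm, smul_mul_assoc, ← smul_sub, sum_inner, inner_smul_left, conj_trivial]
        simp only [this]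
        rw [Finset.sum_comm]
        refine Finset.sum_eq_zero fun c _ => ?_
        have z := inner_skew (H.m_im l y) (H.p_im l y) (uq c) (uq c)
        have : ∑ k, n y c k • be n' uq k y = uq c := by
          simp only [be, Finset.smul_sum, smul_smul]
          rw [Finset.sum_comm]
          simp only [← Finset.sum_smul, inv_ent (h1 y)]
          simp
        simp only [← inner_smul_right, ← inner_sum, this]
        linarith
      erw [a]
      rw [ContinuousLinearMap.comp_apply, jacobi (h1 y)]
      rw [Finset.sum_congr rfl fun k _ => sy k k l y]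
      simp only [Γ, nb, inner_add_left, Finset.sum_add_distrib, c, add_zero, b]
      simp [be, sum_inner, inner_sum, inner_smul_left, inner_smul_right, on_uq]
    refine ⟨Γ, ⟨hn', contDiff_det4.comp hn, fun y => (hd y).ne', o, o', H.p_sm, H.m_sm, H.p_im,
      H.m_im, sm, sy, db, dr⟩, ⟨hn', contDiff_det4.comp hn, fun y => (hd y).ne',
      by simpa using o', by simpa using o, H.m_sm, H.p_sm, H.m_im, H.p_im, sm, sy,
      fun m k y => ?_, dr⟩⟩
    have := congrArg star (db m k y)
    simp only [star_add, star_sub, star_mul, star_neg, star_sum, Quaternion.star_smul,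
      star_im (H.m_im k y), star_im (H.p_im k y)] at this
    have d : fderiv ℝ (fun y => star (be n' uq m y)) y (e k) =
        star (fderiv ℝ (be n' uq m) y (e k)) := by
      haveI : StarModule ℝ ℍ := ⟨fun r a => Quaternion.star_smul r a⟩
      rw [fderiv_star]
      rfl
    simp only [be_star]
    rw [← this, d]
    simp [sub_eq_add_neg, add_comm]
  · have a : ∀ i j k, frc (n' y) (fun i j => cur am i j y) i j * uq k -
        uq k * frc (n' y) (fun i j => cur ap i j y) i j = ∑ a, ∑ b, ∑ c,
          (n' y a i * n' y b j * n' y c k) • (cur am a b y * th n c y - th n c y * cur ap a b y) :=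
      fun i j k => by
        rw [exp_th (h1 y) k]
        simp only [frc, Finset.mul_sum, Finset.sum_mul, mul_smul_comm, smul_mul_assoc, smul_smul,
          smul_sub, Finset.sum_sub_distrib, Finset.smul_sum]
        congr 1
        rw [Finset.sum_comm]
        refine Finset.sum_congr rfl fun a _ => ?_
        rw [Finset.sum_comm]
        simp only [mul_comm (n' y _ k)]
    rw [a, a, a]
    refine cyc (fun a b c => cur am a b y * th n c y - th n c y * cur ap a b y)
      (fun a b c => ?_) _ i j k
    simp only [nb_nb H.p_sm H.m_sm (th_sm hn _)]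
    rw [tf b c, tf c a, tf a b]
    abel

end Vale.Agent.P247J
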