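import Vale.Agent.P247J.Bes

/-!
# P247J: the local index theorem for operators whose squares are of Laplace type
-/

open scoped ContDiff Topology RealInnerProductSpace
open Set MeasureTheory Filter

noncomputable section

namespace Vale.Agent.P247J

open Vale.Agent.P204.GX Vale.Agent.P204.T4 Vale.Agent.P247E
open Vale.Agent.P247.H74 (e)

namespace Lit

theorem lap_map {V W : Type} [NormedAddCommGroup V] [NormedSpace ℝ V] [NormedAddCommGroup W]
    [NormedSpace ℝ W] (T : W →L[ℝ] V) (g : Fin 4 → Fin 4 → V4 → ℝ) (h : Fin 4 → V4 → ℝ)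
    {A : Fin 4 → V4 → W →L[ℝ] W} {A' : Fin 4 → V4 → V →L[ℝ] V} {E : V4 → W →L[ℝ] W}
    {E' : V4 → V →L[ℝ] V} (hA : ∀ i, ContDiff ℝ ∞ (A i)) (h1 : ∀ i y w, T (A i y w) = A' i y (T w))
    (h2 : ∀ y w, T (E y w) = E' y (T w)) {f : V4 → W} (hf : ContDiff ℝ ∞ f) (y : V4) :
    T (lap g h A E f y) = lap g h A' E' (fun y => T (f y)) y := by
  have c : ∀ i (f : V4 → W), ContDiff ℝ ∞ f → cd A' i (fun y => T (f y)) = fun y => T (cd A i f y) :=
    fun i f hf => funext fun y => by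
      rw [cd, cd, map_add, h1, show fderiv ℝ (fun y => T (f y)) y = _ from
        (T.hasFDerivAt.comp y (hf.differentiable (by simp) y).hasFDerivAt).fderiv]
      rfl
  have s : ∀ i, ContDiff ℝ ∞ (cd A i f) := fun i =>
    ((hf.fderiv_right (m := ∞) le_rfl).clm_apply contDiff_const).add ((hA i).clm_apply hf)
  simp only [lap, c _ f hf, c _ _ (s _), map_add, map_neg, map_sum, map_smul, h2]

variable {X : Type} [MetricSpace X] [CompactSpace X] [MeasurableSpace X] [BorelSpace X] {M : CM X}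
  {V : Type} [NormedAddCommGroup V] [InnerProductSpace ℝ V] [FiniteDimensional ℝ V]
  {E F : Bun M V} {P : Op E F} {P' : Op F E} {ι : Type} {lam : ι → ℝ}

omit [CompactSpace X] [FiniteDimensional ℝ V] in
theorem pc (E : Bun M V) (a : M.A) (t : X → V) {w : X → V} {K : Set V4}
    (hw : ∀ x ∉ M.ψ a '' K, w x = 0) :
    ∫ x, ⟪t x, w x⟫ ∂M.mu = ∫ y, rho M a y * ⟪E.lo a t y, E.lo a w y⟫ := by
  simpa only [real_inner_comm, mul_comm] using
    E.pair_chart a (fun x hx => hw x fun k => hx (image_subset_range _ _ k)) t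

omit [CompactSpace X] in
theorem l2 {t : X → V} (ht : t ∈ E.Sm) : ∃ u : LL2 M V,
    (∀ (w : LL2 M V) s, w =ᵐ[M.mu] s → ⟪w, u⟫ = ∫ x, ⟪s x, t x⟫ ∂M.mu) ∧
      ‖u‖ ^ 2 = ∫ x, ⟪t x, t x⟫ ∂M.mu := by
  have k : ∀ (w : LL2 M V) s, w =ᵐ[M.mu] s → ⟪w, E.J (E.jw ht)⟫ = ∫ x, ⟪s x, t x⟫ ∂M.mu :=
    fun w s h => integral_congr_ae (by
      filter_upwards [h, (E.rep_jw ht).J_ae] with x h1 h2
      rw [h1, h2])
  exact ⟨_, k, by rw [← real_inner_self_eq_norm_sq, k _ _ (E.rep_jw ht).J_ae]⟩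

theorem side (adj : P.IsAdj P') (B : Eb P P' lam) (h0 : ∀ n, 0 ≤ lam n) {𝒜 : Type} [NormedRing 𝒜]
    [NormedAlgebra ℝ 𝒜] [StarRing 𝒜] {σ : 𝒜 →L[ℝ] ℝ} (π : 𝒜 →L[ℝ] V →L[ℝ] V)
    (hm : ∀ a b v, π (a * b) v = π a (π b v)) (h1 : ∀ v, π 1 v = v) (hn : ∀ a, ‖π a‖ ≤ ‖a‖)
    {a : M.A} {g : Fin 4 → Fin 4 → V4 → ℝ} {h : Fin 4 → V4 → ℝ} {A : Fin 4 → V4 → 𝒜} {Z : V4 → 𝒜}
    (hA : ∀ i, ContDiff ℝ ∞ (A i)) (hl : ∀ f : V4 → V, ContDiff ℝ ∞ f → locOp (P'.Mi a) (P'.N a)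
      (locOp (P.Mi a) (P.N a) f) = lap g h (fun i y => π (A i y)) (fun y => π (Z y)) f)
    {p : V4} {d C : ℝ} {U R : ℝ → V4 → 𝒜} (K : HK σ g h A Z (rho M a) p d C U R) {s : ℝ}
    (hs : s ∈ Ioc (0 : ℝ) 1) {v : V} (hv : ‖v‖ = 1) :
    ∃ S, HasSum (fun n => Real.exp (-(2 * lam n * s ^ 2)) * ⟪E.lo a (B.s n) p, v⟫ ^ 2) S ∧
      |S - ∫ y, rho M a y * ‖π (U s y) v‖ ^ 2| ≤ 3 * C ^ 2 * s ∧
      Integrable (fun y => rho M a y * ‖π (U s y) v‖ ^ 2) ∧
      ∫ y, rho M a y * ‖π (U s y) v‖ ^ 2 ≤ (C / s ^ 2) ^ 2 := by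
  obtain ⟨L, hL, z⟩ := K.supp
  have cρ := (contDiff_rho (M := M) a).continuous
  have C0 : 0 ≤ C := by simpa using (abs_nonneg _).trans (K.tr 1 ⟨one_pos, le_rfl⟩)
  let T := π.flip v
  have it : ∀ G : V4 → 𝒜, ContDiff ℝ ∞ G → (∀ x ∉ L, G x = 0) →
      Integrable fun y => rho M a y * ‖T (G y)‖ ^ 2 := fun G hG h0 =>
    (cρ.mul ((T.continuous.comp hG.continuous).norm.pow 2)).integrable_of_hasCompactSupport
      (.intro hL fun x hx => by simp [h0 x hx])
  have m : ∀ G : V4 → 𝒜, ContDiff ℝ ∞ G → (∀ x ∉ L, G x = 0) → ∀ c, 0 ≤ c →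
      ∫ y, rho M a y * ‖G y‖ ^ 2 ≤ c ^ 2 → (E.ext a fun y => T (G y)) ∈ E.Sm ∧
      (∀ x ∉ M.ψ a '' L, (E.ext a fun y => T (G y)) x = 0) ∧ ∃ u : LL2 M V,
        (∀ n, ⟪B.φ n, u⟫ = ∫ x, ⟪B.s n x, (E.ext a fun y => T (G y)) x⟫ ∂M.mu) ∧
        ‖u‖ ^ 2 = ∫ y, rho M a y * ‖T (G y)‖ ^ 2 ∧ ‖u‖ ≤ c := fun G hG h0 c c0 hc => by
    have k := E.ext_mem a (f := fun y => T (G y)) (T.contDiff.comp hG)
      (.intro hL fun x hx => by simp [h0 x hx])
    have z := fun x => E.ext_zero a (f := fun y => T (G y)) (K := L) (x := x) fun x hx => by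
      simp [h0 x hx]
    obtain ⟨u, u1, u2⟩ := l2 k
    rw [pc E a _ z, E.lo_ext] at u2
    simp only [real_inner_self_eq_norm_sq] at u2
    refine ⟨k, z, u, fun n => u1 _ _ (B.rep n), u2, (pow_le_pow_iff_left₀ (norm_nonneg _) c0
      two_ne_zero).1 (u2.trans_le (le_trans (integral_mono (it G hG h0) ((cρ.mul
        (hG.continuous.norm.pow 2)).integrable_of_hasCompactSupport (.intro hL fun x hx => by
          simp [h0 x hx])) fun y => ?_) hc))⟩
    have := ((π (G y)).le_opNorm v).trans (mul_le_mul_of_nonneg_right (hn _) (norm_nonneg _))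
    rw [hv, mul_one] at this
    exact mul_le_mul_of_nonneg_left (pow_le_pow_left₀ (norm_nonneg _) this 2) (rho_pos a y).le
  choose! m1 m2 u u1 u2 u3 using fun s hs => m (U s) (K.smU s hs) (fun x hx => (z s x hx).1) _
    (div_nonneg C0 (sq_nonneg s)) (K.bU s hs)
  choose! n1 n2 r r1 _ r3 using fun s hs => m (R s) (K.smR s hs) (fun x hx => (z s x hx).2) _
    (mul_nonneg C0 (sq_nonneg s)) (K.bR s hs)
  let f := fun n y => (innerSL ℝ (E.lo a (B.s n) y)).comp T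
  have cf : ∀ n, Continuous (f n) := fun n =>
    ((innerSL ℝ).continuous.comp (B.sm n a).continuous).clm_comp continuous_const
  have ha : ∀ n, ∀ s ∈ Ioc (0 : ℝ) 1, ∫ y, rho M a y * f n y (U s y) =
      ∫ x, ⟪B.s n x, (E.ext a fun y => T (U s y)) x⟫ ∂M.mu := fun n s hs => by
    rw [pc E a _ (m2 s hs), E.lo_ext]; rfl
  have hd : ∀ n, ∀ s ∈ Ioc (0 : ℝ) 1, ∫ y, (rho M a y • f n y) (R s y - (2 * s) •
      lapA g h A Z (U s) y) = ⟪B.φ n, r s⟫ - 2 * s * lam n * ∫ y, rho M a y * f n y (U s y) := by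
    intro n s hs
    have cl := (hL.image (M.continuous_ψ a)).isClosed
    have q := P.app_mem (m1 s hs)
    have k := pc E a (B.s n) (w := (E.ext a fun y => T (R s y)) - (2 * s) • P'.app (P.app
      (E.ext a fun y => T (U s y)))) (K := L) fun x hx => by
        simp [n2 s hs x hx, P'.app_zero cl (fun x hx => P.app_zero cl (m2 s hs) hx) hx]
    rw [E.lo_sub, E.lo_smul, P'.lo_app q, P.lo_app (m1 s hs), E.lo_ext, E.lo_ext,
      hl (fun y => T (U s y)) (T.contDiff.comp (K.smU s hs))] at k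
    simp only [Pi.sub_apply, Pi.smul_apply, inner_sub_right, inner_smul_right] at k
    rw [integral_sub (E.integrable_inner (B.sm n) (n1 s hs)) ((E.integrable_inner (B.sm n)
      (P'.app_mem q)).const_mul _), integral_const_mul, ← adj _ (B.sm n) _ q,
      ← adj.symm _ (P.app_mem (B.sm n)) _ (m1 s hs)] at k
    simp only [B.eig, inner_smul_left, integral_const_mul, conj_trivial] at k
    rw [r1 s hs, ha n s hs, mul_assoc (2 * s), k]
    refine integral_congr_ae (.of_forall fun y => ?_)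
    have := lap_map T g h (E := fun y => ContinuousLinearMap.mul ℝ 𝒜 (Z y)) (E' := fun y => π (Z y))
      (A' := fun i y => π (A i y)) (fun i => (ContinuousLinearMap.mul ℝ 𝒜).contDiff.comp (hA i))
      (fun i y w => hm _ _ _) (fun y w => hm _ _ _) (K.smU s hs) y
    simp only [f, smul_apply, ContinuousLinearMap.comp_apply, map_sub, map_smul, lapA, ← this,
      innerSL_apply_apply, smul_eq_mul, Function.comp_def]
    ring
  obtain ⟨S, s1, s2⟩ := bes' B.φ (c := fun n => ⟪E.lo a (B.s n) p, v⟫) (u := u) (r := r)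
    (a := fun n s => ∫ y, rho M a y * f n y (U s y)) h0 (fun n s hs => (ha n s hs).trans
      (u1 s hs n).symm) (fun n s hs => (K.der (fun y => rho M a y • f n y) (cρ.smul (cf n)) s
        hs).congr_deriv (hd n s hs)) (fun n => by simpa [f, T, h1] using K.lim (f n) (cf n))
    (fun s hs => ⟨r3 s hs, u3 s hs⟩) hs
  exact ⟨S, s1, u2 s hs ▸ s2, it _ (K.smU s hs) fun x hx => (z s x hx).1,
    u2 s hs ▸ pow_le_pow_left₀ (norm_nonneg _) (u3 s hs) 2⟩

theorem diag (adj : P.IsAdj P') (B : Eb P P' lam) (h0 : ∀ n, 0 ≤ lam n) {𝒜 : Type} [NormedRing 𝒜]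
    [NormedAlgebra ℝ 𝒜] [StarRing 𝒜] {σ : 𝒜 →L[ℝ] ℝ} (π : 𝒜 →L[ℝ] V →L[ℝ] V)
    (hm : ∀ a b v, π (a * b) v = π a (π b v)) (h1 : ∀ v, π 1 v = v) (hn : ∀ a, ‖π a‖ ≤ ‖a‖)
    {a : M.A} {g : Fin 4 → Fin 4 → V4 → ℝ} {h : Fin 4 → V4 → ℝ} {A : Fin 4 → V4 → 𝒜} {Z : V4 → 𝒜}
    (hA : ∀ i, ContDiff ℝ ∞ (A i)) (hl : ∀ f : V4 → V, ContDiff ℝ ∞ f → locOp (P'.Mi a) (P'.N a)
      (locOp (P.Mi a) (P.N a) f) = lap g h (fun i y => π (A i y)) (fun y => π (Z y)) f)
    {p : V4} {d C : ℝ} {U R : ℝ → V4 → 𝒜} (K : HK σ g h A Z (rho M a) p d C U R) {s : ℝ}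
    (hs : s ∈ Ioc (0 : ℝ) 1) :
    ∃ S, HasSum (fun n => Real.exp (-(2 * lam n * s ^ 2)) * ‖B.s n (M.ψ a p)‖ ^ 2) S ∧
      |S - ∫ y, ∑ i, rho M a y * ‖π (U s y) (stdOrthonormalBasis ℝ V i)‖ ^ 2| ≤
        Module.finrank ℝ V * (3 * C ^ 2 * s) ∧
      Integrable (fun y => ∑ i, rho M a y * ‖π (U s y) (stdOrthonormalBasis ℝ V i)‖ ^ 2) ∧
      S ≤ Module.finrank ℝ V * (3 * C ^ 2 * s + (C / s ^ 2) ^ 2) := by
  choose S s1 s2 s3 s4 using fun i => side adj B h0 π hm h1 hn hA hl K hs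
    ((stdOrthonormalBasis ℝ V).orthonormal.1 i)
  refine ⟨∑ i, S i, ?_, ?_, integrable_finsetSum _ fun i _ => s3 i, ?_⟩
  · simpa only [← Finset.mul_sum, OrthonormalBasis.sum_sq_inner_left, E.norm_lo] using
      hasSum_sum fun i (_ : i ∈ Finset.univ) => s1 i
  · rw [integral_finsetSum _ fun i _ => s3 i, ← Finset.sum_sub_distrib]
    simpa using (Finset.abs_sum_le_sum_abs _ Finset.univ).trans
      (Finset.sum_le_sum fun i _ => s2 i)
  · simpa [mul_add] using Finset.sum_le_sum fun i (_ : i ∈ Finset.univ) =>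
      show S i ≤ 3 * C ^ 2 * s + (C / s ^ 2) ^ 2 by linarith [abs_le.1 (s2 i), s4 i]

theorem glob (B : Eb P P' lam) {c : ι → ℝ} (hc : ∀ n, 0 < c n) {b : ℝ}
    (h : ∀ x, ∃ S, HasSum (fun n => c n * ‖B.s n x‖ ^ 2) S ∧ S ≤ b) :
    Integrable (fun x => ∑' n, c n * ‖B.s n x‖ ^ 2) M.mu ∧
      HasSum c (∫ x, ∑' n, c n * ‖B.s n x‖ ^ 2 ∂M.mu) := by
  have k : ∀ n, Continuous fun x => c n * ‖B.s n x‖ ^ 2 := fun n => by
    simpa only [real_inner_self_eq_norm_sq] using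
      (E.continuous_inner (B.sm n) (B.sm n)).const_mul (c n)
  have i := fun n => (k n).integrable_of_hasCompactSupport (μ := M.mu) (.of_compactSpace _)
  have p : ∀ n x, 0 ≤ c n * ‖B.s n x‖ ^ 2 := fun n x => mul_nonneg (hc n).le (sq_nonneg _)
  have e : ∀ n, ∫ x, c n * ‖B.s n x‖ ^ 2 ∂M.mu = c n := fun n => by
    have : ⟪B.φ n, B.φ n⟫ = ∫ x, ‖B.s n x‖ ^ 2 ∂M.mu := integral_congr_ae ((B.rep n).mono
      fun x hx => by simp only [hx, real_inner_self_eq_norm_sq])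
    rw [integral_const_mul, ← this, real_inner_self_eq_norm_sq, B.φ.orthonormal.1, one_pow, mul_one]
  have s : Summable c := summable_of_sum_le (fun n => (hc n).le) (c := ∫ _, b ∂M.mu) fun J => by
    rw [← Finset.sum_congr rfl fun n _ => e n, ← integral_finsetSum _ fun n _ => i n]
    refine integral_mono (integrable_finsetSum _ fun n _ => i n) (integrable_const _) fun x => ?_
    obtain ⟨S, h1, h2⟩ := h x
    exact (sum_le_hasSum J (fun n _ => p n x) h1).trans h2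
  have : Countable ι := countable_univ_iff.1 (s.countable_support.mono fun n _ => (hc n).ne')
  refine ⟨(integrable_const b).mono' (Measurable.tsum fun n => (k n).measurable).aestronglyMeasurable
    (.of_forall fun x => ?_), ?_⟩
  · obtain ⟨S, h1, h2⟩ := h x
    rwa [Real.norm_of_nonneg (tsum_nonneg fun n => p n x), h1.tsum_eq]
  · simpa only [e] using hasSum_integral_of_summable_integral_norm i (by
      simpa only [Real.norm_of_nonneg (p _ _), e] using s)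

theorem tr_sq [CompleteSpace V] (A : V →L[ℝ] V) : LinearMap.trace ℝ V ((star A * A : V →L[ℝ] V) :
    V →ₗ[ℝ] V) = ∑ i, ‖A (stdOrthonormalBasis ℝ V i)‖ ^ 2 := by
  rw [LinearMap.trace_eq_sum_inner _ (stdOrthonormalBasis ℝ V)]
  exact Finset.sum_congr rfl fun i _ => (ContinuousLinearMap.adjoint_inner_right A _ _).trans
    (real_inner_self_eq_norm_sq _)

theorem cont_d {𝒜 : Type} [NormedRing 𝒜] [NormedAlgebra ℝ 𝒜] [StarRing 𝒜] {σ : 𝒜 →L[ℝ] ℝ}
    (D : CD σ) : Continuous D.d := by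
  have h1 := D.n'_sm.continuous
  have h2 := D.E_sm.continuous
  have h3 := fun i => (D.A_sm i).continuous
  have h4 := fun i => (D.A_sm i).continuous_fderiv (by simp)
  unfold CD.d dens frc cur
  fun_prop

theorem sum_elim {J : Type} {k : ℕ} {lam : J → ℝ} {s S : ℝ} (h : HasSum (fun n => Real.exp
    (-(2 * Sum.elim (fun _ : Fin k => 0) lam n * s ^ 2))) S) :
    S = k + ∑' j, Real.exp (-(2 * lam j * s ^ 2)) :=
  h.unique (HasSum.sum (by simpa [Function.comp_def] using hasSum_fintype fun _ : Fin k => (1 : ℝ))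
    (h.summable.comp_injective Sum.inr_injective).hasSum)

theorem str_ok [CompleteSpace V] : Str (𝒜 := EE V) (str V) :=
  ⟨sub_self _, fun a b => congrArg₂ (· - ·) (LinearMap.trace_mul_comm ℝ (a.1 : V →ₗ[ℝ] V) b.1)
    (LinearMap.trace_mul_comm ℝ (a.2 : V →ₗ[ℝ] V) b.2), fun a => by
      have : ∀ A : V →L[ℝ] V, LinearMap.trace ℝ V ((star A : V →L[ℝ] V) : V →ₗ[ℝ] V) =
          LinearMap.trace ℝ V (A : V →ₗ[ℝ] V) := fun A => by
        simp only [LinearMap.trace_eq_sum_inner _ (stdOrthonormalBasis ℝ V)]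
        exact Finset.sum_congr rfl fun i _ =>
          (ContinuousLinearMap.adjoint_inner_right A _ _).trans (real_inner_comm _ _)
      exact congrArg₂ (· - ·) (this a.1) (this a.2)⟩

omit [CompactSpace X] in
theorem glue {k : X → ℝ} (hk : Integrable k M.mu) {d : M.A → V4 → ℝ} (hd : ∀ a, Continuous (d a))
    {c : M.A → ℝ} (h : ∀ a y, ‖y‖ < 2 → |k (M.ψ a y) - d a y| ≤ c a) :
    |∫ x, k x ∂M.mu - ∑ a, ∫ y, M.zl a y * rho M a y * d a y| ≤ ∑ a, c a * M.mu.real univ := by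
  have g := fun a => memLp_one_iff_integrable.1
    (BM.memLp (M := M) (bm_zeta a (lb_cont (hd a))) 1)
  have i : ∀ a, Integrable (fun x => M.zeta a x • k x) M.mu := fun a =>
    hk.bdd_mul (cont_charts fun b => (M.sm0_zeta a b).continuous).aestronglyMeasurable (c := 1)
      (.of_forall fun x => by
      rw [Real.norm_of_nonneg (M.zeta_nonneg a x)]; exact M.zeta_le_one a x)
  rw [← integral_congr_ae (.of_forall fun x => sum_zeta_smul M x (k x)),
    integral_finsetSum _ fun a _ => i a, ← Finset.sum_sub_distrib]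
  refine (Finset.abs_sum_le_sum_abs _ _).trans (Finset.sum_le_sum fun a _ => ?_)
  have e : ∫ x, M.zeta a x • d a (M.inv a x) ∂M.mu = ∫ y, M.zl a y * rho M a y * d a y := by
    rw [M.integral_chart a fun x hx => by
      rw [M.zeta_eq_zero a fun k => hx (image_subset_range _ _ k), zero_smul]]
    simp only [M.inv_ψ, smul_eq_mul, mul_right_comm _ (d a _)]
    rfl
  rw [← e, ← integral_sub (i a) (g a), ← Real.norm_eq_abs]
  refine norm_integral_le_of_norm_le_const (.of_forall fun x => ?_)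
  rcases zeta_cases a x with k | ⟨y, hy, rfl⟩
  · simpa [k] using (abs_nonneg _).trans (h a 0 (by simp))
  · rw [M.inv_ψ, ← smul_sub, norm_smul, Real.norm_of_nonneg (M.zeta_nonneg _ _)]
    exact (mul_le_of_le_one_left (abs_nonneg _) (M.zeta_le_one _ _)).trans (h a y hy)

end Lit

open Lit in
theorem lit (hS : SPEC_statement) (hH : HEATC_statement) : LIT_statement := by
  intro X _ _ _ _ M V _ _ _ _ E F P hc D hρ l1 l2
  obtain ⟨J, k, k', lam, h0, ⟨B⟩, ⟨B'⟩, hi⟩ := hS X M V V E F rfl P hc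
  choose C hC using fun a => hH (EE V) _ str_ok (D a) _ (isCompact_closedBall (0 : V4) 2)
  simp only [hρ] at hC
  choose! U R K using hC
  have key : ∀ s ∈ Ioc (0 : ℝ) 1, |(P.ind : ℝ) - ∑ a, ∫ y, M.zl a y * rho M a y * (D a).d y| ≤
      ∑ a, (2 * Module.finrank ℝ V * (3 * C a ^ 2) + C a) * s * M.mu.real univ := fun s hs => by
    have d1 := fun a p hp => diag P.isAdj_adj B (by rintro (n | n) <;> simp [h0])
      (.fst ℝ _ _) (fun _ _ _ => rfl) (fun _ => rfl) norm_fst_le (D a).A_sm (by exact l1 a)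
      (K a p hp) hs
    have d2 := fun a p hp => diag P.isAdj_adj.symm B' (by rintro (n | n) <;> simp [h0])
      (.snd ℝ _ _) (fun _ _ _ => rfl) (fun _ => rfl) norm_snd_le (D a).A_sm (by exact l2 a)
      (K a p hp) hs
    have m := fun x => mem_closedBall_zero_iff.2 ((M.norm_cy x).le.trans one_le_two)
    have le := fun x => Finset.single_le_sum (f := fun a => (Module.finrank ℝ V : ℝ) *
      (3 * C a ^ 2 * s + (C a / s ^ 2) ^ 2)) (fun a _ => by have := hs.1; positivity)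
      (Finset.mem_univ (M.ch x))
    obtain ⟨i1, e1⟩ := glob B (fun n => Real.exp_pos _) fun x => by
      obtain ⟨S, a1, -, -, a2⟩ := d1 _ _ (m x)
      exact ⟨S, M.ψ_cy x ▸ a1, a2.trans (le x)⟩
    obtain ⟨i2, e2⟩ := glob B' (fun n => Real.exp_pos _) fun x => by
      obtain ⟨S, a1, -, -, a2⟩ := d2 _ _ (m x)
      exact ⟨S, M.ψ_cy x ▸ a1, a2.trans (le x)⟩
    have e3 := (congrArg₂ (· - ·) (sum_elim e1) (sum_elim e2)).symm.trans (integral_sub i1 i2).symm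
    rw [add_sub_add_right_eq_sub] at e3
    rw [hi, Int.cast_sub, Int.cast_natCast, Int.cast_natCast, e3]
    refine glue (i1.sub i2) (fun a => cont_d (D a)) fun a y hy => ?_
    have hy' := mem_closedBall_zero_iff.2 hy.le
    obtain ⟨S, a1, a2, a3, -⟩ := d1 a y hy'
    obtain ⟨S', b1, b2, b3, -⟩ := d2 a y hy'
    have t := (K a y hy').tr s hs
    have e5 : ∀ A : EE V, str V (star A * A) = ∑ i, ‖A.1 (stdOrthonormalBasis ℝ V i)‖ ^ 2 -
        ∑ i, ‖A.2 (stdOrthonormalBasis ℝ V i)‖ ^ 2 := fun A =>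
      congrArg₂ (· - ·) (tr_sq A.1) (tr_sq A.2)
    simp only [e5, mul_sub, Finset.mul_sum] at t
    simp only [ContinuousLinearMap.coe_fst', ContinuousLinearMap.coe_snd'] at a2 a3 b2 b3
    rw [integral_sub a3 b3] at t
    rw [Pi.sub_apply, a1.tsum_eq, b1.tsum_eq]
    rw [abs_le] at a2 b2 t ⊢
    constructor <;> linarith [a2.1, a2.2, b2.1, b2.2, t.1, t.2]
  refine sub_eq_zero.1 (abs_nonpos_iff.1 (ge_of_tendsto (x := 𝓝[>] (0 : ℝ)) ?_
    (mem_of_superset (Ioc_mem_nhdsGT one_pos) key)))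
  exact (Continuous.tendsto' (by fun_prop) 0 0 (by simp)).mono_left nhdsWithin_le_nhds

end Vale.Agent.P247J
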