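import Vale.Agent.P247J.Ops2

/-!
# P247J: the three operators
-/

set_option linter.all false

open scoped ContDiff Topology Quaternion RealInnerProductSpace
open Set Filter

noncomputable section

namespace Vale.Agent.P247J

open Vale.Agent.P204.GX Vale.Agent.P204.T4 Vale.Agent.P247E
open Vale.Agent.P247.H74 (e)
open Vale.Agent.P247.H647 (Sp)
open Vale.Agent.P247I (tm ph ph' Ad Ad_apply)

namespace Ops

section gen

variable {V : Type} [NormedAddCommGroup V] [InnerProductSpace ℝ V] [FiniteDimensional ℝ V]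
  [CompleteSpace V] (B : QR V)

/-- the covariant derivative along a vector -/
def nab (A : Fin 4 → V4 → V →L[ℝ] V) (f : V4 → V) (y v : V4) : V :=
  fderiv ℝ f y v + ∑ k, v k • A k y (f y)

theorem loc_eq (n' : V4 → M4) (u : Fin 4 → ℍ) (α ξ : Fin 4 → V4 → ℍ) (f : V4 → V) (y : V4) :
    locOp (B.Mi n' u) (B.N n' u α ξ) f y =
      ∑ d, B.l (u d) (nab (B.con α ξ) f y fun k => n' y k d) := by
  have h : ∀ d, fderiv ℝ f y (fun k => n' y k d) = ∑ k, n' y k d • fderiv ℝ f y (e k) :=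
    fun d => clm_vec _ _
  simp only [locOp, QR.N, QR.Mi, be, nab, h, map_add, map_sum, map_smul,
    ContinuousLinearMap.sum_apply, ContinuousLinearMap.smul_apply, ContinuousLinearMap.mul_apply,
    Finset.sum_add_distrib]
  rw [Finset.sum_comm]
  congr 1
  exact Finset.sum_comm

theorem sm_Mi {n' : V4 → M4} (hn : ContDiff ℝ ∞ n') (u : Fin 4 → ℍ) (k : Fin 4) :
    ContDiff ℝ ∞ (B.Mi n' u k) :=
  B.l.contDiff.comp (ContDiff.sum fun d _ =>
    (contDiff_pi.1 (contDiff_pi.1 hn k) d).smul contDiff_const)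

theorem sm_N {n' : V4 → M4} (hn : ContDiff ℝ ∞ n') (u : Fin 4 → ℍ) {α ξ : Fin 4 → V4 → ℍ}
    (hα : ∀ k, ContDiff ℝ ∞ (α k)) (hξ : ∀ k, ContDiff ℝ ∞ (ξ k)) :
    ContDiff ℝ ∞ (B.N n' u α ξ) :=
  ContDiff.sum fun k _ => (sm_Mi B hn u k).mul
    ((B.l.contDiff.comp (hα k)).sub (B.r.contDiff.comp (hξ k)))

end gen

/-- the covariant derivative in quaternions -/
def nq (α ξ : Fin 4 → V4 → ℍ) (g : V4 → ℍ) (y v : V4) : ℍ :=
  fderiv ℝ g y v + (cvl α y v * g y - g y * cvl ξ y v)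

theorem fd_tq {f : V4 → Sp} {y : V4} (hf : DifferentiableAt ℝ f y) (v : V4) :
    fderiv ℝ (fun z => tq (f z)) y v = tq (fderiv ℝ f y v) :=
  congrArg (fun T : V4 →L[ℝ] ℍ => T v) (tq.hasFDerivAt.comp y hf.hasFDerivAt).fderiv

theorem tq_nab1 (α ξ : Fin 4 → V4 → ℍ) {f : V4 → Sp} {y : V4} (hf : DifferentiableAt ℝ f y)
    (v : V4) : tq (nab (bi1.con α ξ) f y v) = nq α ξ (fun z => tq (f z)) y v := by
  simp only [nab, nq, fd_tq hf, map_add, map_sum, map_smul, QR.con, bi1, map_sub,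
    ContinuousLinearMap.sub_apply, tq_lm, tq_rm, cvl, Finset.sum_mul, Finset.mul_sum, smul_sub,
    Finset.sum_sub_distrib, smul_mul_assoc, mul_smul_comm]

theorem star_im {a : ℍ} (h : a.re = 0) : star a = -a := by ext <;> simp [h]

theorem tq_nab2 {α ξ : Fin 4 → V4 → ℍ} (hα : ∀ k y, (α k y).re = 0) (hξ : ∀ k y, (ξ k y).re = 0)
    {f : V4 → Sp} {y : V4} (hf : DifferentiableAt ℝ f y) (v : V4) :
    tq (nab (bi2.con ξ α) f y v) = nq α ξ (fun z => tq (f z)) y v := by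
  simp only [nab, nq, fd_tq hf, map_add, map_sum, map_smul, QR.con, bi2, map_sub,
    ContinuousLinearMap.sub_apply, tq_lm', tq_rm', cvl, Finset.sum_mul, Finset.mul_sum, smul_sub,
    Finset.sum_sub_distrib, smul_mul_assoc, mul_smul_comm, star_im (hα _ _), star_im (hξ _ _),
    mul_neg, neg_mul, smul_neg, Finset.sum_neg_distrib]
  abel

theorem nq_sum (α ξ : Fin 4 → V4 → ℍ) (g : V4 → ℍ) (y : V4) (c : Fin 4 → ℝ) (b : Fin 4 → V4) :
    nq α ξ g y (∑ d, c d • b d) = ∑ d, c d • nq α ξ g y (b d) := by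
  have h : ∀ β : Fin 4 → V4 → ℍ, cvl β y (∑ d, c d • b d) = ∑ d, c d • cvl β y (b d) := fun β => by
    simp only [cvl, Finset.sum_apply, Pi.smul_apply, smul_eq_mul, Finset.sum_smul, Finset.smul_sum,
      smul_smul]
    exact Finset.sum_comm
  simp only [nq, h, map_sum, map_smul, Finset.sum_mul, Finset.mul_sum, smul_mul_assoc,
    mul_smul_comm, smul_add, smul_sub, Finset.sum_add_distrib, Finset.sum_sub_distrib]

variable {X : Type} [MetricSpace X] (Q : QM X)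

/-- the transition quaternion -/
def tr (a b : Q.A) (z : V4) : ℍ := TL (Q.n b) (Q.τ a b z) (fderiv ℝ (Q.τ a b) z (Q.b a z 0))

theorem tr_eq {a b : Q.A} {z : V4} (h : z ∈ Q.O a b) :
    tr Q a b z = star (qv (Q.p b (Q.τ a b z))) * qv (Q.p a z) := by
  rw [tr, TL_eq, ← Q.p_trans h, qv_Rq, qv_cq]

theorem d_tr {a b : Q.A} {y : V4} (h : y ∈ Q.O a b) : DifferentiableAt ℝ (tr Q a b) y := by
  have h2 := Q.contDiffAt_τ h
  exact (((sm_TL (Q.n_smooth b)).contDiffAt.comp y h2).clm_apply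
    ((h2.fderiv_right (m := ∞) (by simp)).clm_apply
      (Q.b_smooth a 0).contDiffAt)).differentiableAt (by simp)

theorem TL_tau {a b : Q.A} {z : V4} (h : z ∈ Q.O a b) (w : V4) :
    TL (Q.n b) (Q.τ a b z) (fderiv ℝ (Q.τ a b) z w) = tr Q a b z * TL (Q.n a) z w := by
  have h1 := fv_tau Q.toCM h (app (Q.m a z) w)
  rw [Q.m'_m] at h1
  rw [h1, TL_eq, Q.m'_app, Q.n_n', qv_Rq, Q.m_app, qv_Rq, qv_cq, tr_eq Q h, TL_eq, mul_assoc]

theorem law_Q {ap am : Q.A → Fin 4 → V4 → ℍ} (H : ∀ a, IsLC (Q.n a) (ap a) (am a)) {a b : Q.A}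
    {y : V4} (h : y ∈ Q.O a b) (v : V4) :
    cvl (am b) (Q.τ a b y) (fderiv ℝ (Q.τ a b) y v) * tr Q a b y + fderiv ℝ (tr Q a b) y v =
      tr Q a b y * cvl (am a) y v ∧
    cvl (ap b) (Q.τ a b y) (fderiv ℝ (Q.τ a b) y v) = cvl (ap a) y v := by
  have hO := (Q.isOpen_O a b).mem_nhds h
  refine law (Q.n_smooth a) (Q.n_smooth b) (H a) (H b)
    (fun t => ⟨app (Q.n' a y) (vq t), by rw [TL_eq, Q.n_n', qv_vq]⟩) (Q.contDiffAt_τ h) (d_tr Q h)
    ?_ ?_ v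
  · filter_upwards [hO] with z hz
    rw [tr_eq Q hz, star_mul, star_star, mul_assoc, ← mul_assoc (qv (Q.p b _)),
      mul_star_qv (Q.p_unit _ _), one_mul, star_mul_qv (Q.p_unit _ _)]
  · filter_upwards [hO] with z hz using TL_tau Q hz

theorem tq_lo (a : Q.A) (s : X → Sp) (y : V4) :
    tq (Q.t1.lo a s y) = star (qv (Q.p a y)) * tq (s (Q.ψ a y)) := by
  have : Q.t1.lo a s y = sgm (cq (Q.p a y)) (s (Q.ψ a y)) := by
    simp [Bun.lo, QM.bm, LBc.triv]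
  rw [this, tq_sgm, qv_cq]

/-- the covariant derivative in the measurable gauge and frame -/
def Wq (α ξ : Q.A → Fin 4 → V4 → ℍ) (s : X → Sp) (a : Q.A) (y : V4) (c : Fin 4) : ℍ :=
  qv (Q.p a y) * nq (α a) (ξ a) (fun z => tq (Q.t1.lo a s z)) y (fv Q.toCM a y c)

theorem Wq_eq (α ξ : Q.A → Fin 4 → V4 → ℍ) (s : X → Sp) (a : Q.A) (y : V4) (c : Fin 4) :
    Wq Q α ξ s a y c = qv (Q.p a y) * ∑ d, Rq (Q.p a y) c d •
      nq (α a) (ξ a) (fun z => tq (Q.t1.lo a s z)) y fun k => Q.n' a y k d := by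
  have : ∀ d, Q.b a y d = fun k => Q.n' a y k d := fun d => funext fun k => Q.b_apply a y d k
  rw [Wq, Q.fv_eq, nq_sum]
  simp only [this]

theorem Wq_tau {α ξ : Q.A → Fin 4 → V4 → ℍ} {s : X → Sp} (hs : s ∈ Q.t1.Sm) {a b : Q.A} {y : V4}
    (h : y ∈ Q.O a b)
    (h1 : ∀ v, cvl (α b) (Q.τ a b y) (fderiv ℝ (Q.τ a b) y v) * tr Q a b y +
      fderiv ℝ (tr Q a b) y v = tr Q a b y * cvl (α a) y v)
    (h2 : ∀ v, cvl (ξ b) (Q.τ a b y) (fderiv ℝ (Q.τ a b) y v) = cvl (ξ a) y v) (c : Fin 4) :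
    Wq Q α ξ s a y c = Wq Q α ξ s b (Q.τ a b y) c := by
  have key : ∀ z ∈ Q.O a b, tq (Q.t1.lo b s (Q.τ a b z)) = tr Q a b z * tq (Q.t1.lo a s z) :=
    fun z hz => by
      rw [tq_lo, tq_lo, tr_eq Q hz, Q.ψ_τ hz, mul_assoc, ← mul_assoc (qv (Q.p a z)),
        mul_star_qv (Q.p_unit _ _), one_mul]
  have d : ∀ a y, HasFDerivAt (fun z => tq (Q.t1.lo a s z))
      (fderiv ℝ (fun z => tq (Q.t1.lo a s z)) y) y := fun a y =>
    ((tq.contDiff.comp (hs a)).differentiable (by simp) y).hasFDerivAt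
  have a1 := (d b (Q.τ a b y)).comp y (Q.differentiableAt_τ h).hasFDerivAt
  have a2 := ((d_tr Q h).hasFDerivAt.mul' (d a y)).congr_of_eventuallyEq
    (f₁ := fun z => tq (Q.t1.lo b s (Q.τ a b z)))
    (by filter_upwards [(Q.isOpen_O a b).mem_nhds h] with z hz using key z hz)
  have a3 : fderiv ℝ (fun z => tq (Q.t1.lo b s z)) (Q.τ a b y)
      (fderiv ℝ (Q.τ a b) y (fv Q.toCM a y c)) =
      tr Q a b y * fderiv ℝ (fun z => tq (Q.t1.lo a s z)) y (fv Q.toCM a y c) +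
        fderiv ℝ (tr Q a b) y (fv Q.toCM a y c) * tq (Q.t1.lo a s y) := by
    simpa using congrArg (fun T : V4 →L[ℝ] ℍ => T (fv Q.toCM a y c)) (a1.unique a2)
  have a4 : fv Q.toCM b (Q.τ a b y) c = fderiv ℝ (Q.τ a b) y (fv Q.toCM a y c) :=
    (fv_tau Q.toCM h (e c)).symm
  have a5 : qv (Q.p a y) = qv (Q.p b (Q.τ a b y)) * tr Q a b y := by
    rw [tr_eq Q h, ← mul_assoc, mul_star_qv (Q.p_unit _ _), one_mul]
  have a6 := congrArg (fun t => t * tq (Q.t1.lo a s y)) (h1 (fv Q.toCM a y c))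
  unfold Wq nq
  rw [a4, a3, h2, a5, mul_assoc]
  congr 1
  simp only [key y h, mul_add, mul_sub, add_mul, mul_assoc] at a6 ⊢
  linear_combination (norm := abel1) -a6

theorem app1 (α ξ : Q.A → Fin 4 → V4 → ℍ) {s : X → Sp} (hs : s ∈ Q.t1.Sm) (a : Q.A) (y : V4) :
    tq (Q.t0.u a y (locOp (bi1.Mi (Q.n' a) fun d => star (uq d))
      (bi1.N (Q.n' a) (fun d => star (uq d)) (α a) (ξ a)) (Q.t1.lo a s) y)) =
      ∑ c, star (uq c) * Wq Q α ξ s a y c := by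
  have : ∀ v, Q.t0.u a y v = v := fun v => by simp [LBc.bp, LBc.triv]
  simp only [Wq_eq]
  rw [this, frame_l (Q.p_unit a y), loc_eq, map_sum]
  refine Finset.sum_congr rfl fun d _ => ?_
  rw [← tq_nab1 _ _ ((hs a).differentiable (by simp) y)]
  exact tq_lm _ _

theorem app2 {α ξ : Q.A → Fin 4 → V4 → ℍ} (hα : ∀ a k y, (α a k y).re = 0)
    (hξ : ∀ a k y, (ξ a k y).re = 0) {s : X → Sp} (hs : s ∈ Q.t1.Sm) (a : Q.A) (y : V4) :
    tq ((tm Q).u a y (locOp (bi2.Mi (Q.n' a) uq) (bi2.N (Q.n' a) uq (ξ a) (α a))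
      (Q.t1.lo a s) y)) = ∑ c, Wq Q α ξ s a y c * star (uq c) := by
  have : ∀ v, tq ((tm Q).u a y v) = qv (Q.p a y) * (tq v * star (qv (Q.p a y))) := fun v => by
    show tq (Ad (Q.p a y) v) = _
    rw [Ad_apply, tq_sgm, tq_ph', tq_spn]
  simp only [Wq_eq]
  rw [this, frame_r, loc_eq, map_sum]
  congr 2
  refine Finset.sum_congr rfl fun d _ => ?_
  rw [← tq_nab2 (hα a) (hξ a) ((hs a).differentiable (by simp) y)]
  exact tq_rm' _ _

end Ops

open Ops in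
theorem ops : OPS_statement := by
  refine ⟨bi1, bi2, fun _ _ => rfl, fun _ _ => rfl, ?_⟩
  intro X _ _ _ _ _ Q _ ap am H
  refine ⟨⟨⟨fun a => bi1.Mi (Q.n' a) fun d => star (uq d),
      fun a => bi1.N (Q.n' a) (fun d => star (uq d)) (am a) (ap a),
      fun a => sm_Mi _ (Q.n'_smooth a) _,
      fun a => sm_N _ (Q.n'_smooth a) _ (H a).m_sm (H a).p_sm,
      fun s hs a b y hy => tq_inj ?_⟩, fun a => ⟨rfl, rfl⟩⟩,
    ⟨⟨fun a => bi1.Mi (Q.n' a) fun d => star (uq d),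
      fun a => bi1.N (Q.n' a) (fun d => star (uq d)) (am a) 0,
      fun a => sm_Mi _ (Q.n'_smooth a) _,
      fun a => sm_N _ (Q.n'_smooth a) _ (H a).m_sm fun _ => contDiff_const,
      fun s hs a b y hy => tq_inj ?_⟩, fun a => ⟨rfl, rfl⟩⟩,
    ⟨⟨fun a => bi2.Mi (Q.n' a) uq, fun a => bi2.N (Q.n' a) uq (ap a) (am a),
      fun a => sm_Mi _ (Q.n'_smooth a) _,
      fun a => sm_N _ (Q.n'_smooth a) _ (H a).p_sm (H a).m_sm,
      fun s hs a b y hy => tq_inj ?_⟩, fun a => ⟨rfl, rfl⟩⟩⟩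
  · rw [app1 Q am ap hs, app1 Q am ap hs]
    simp only [Wq_tau Q hs hy (fun v => (law_Q Q H hy v).1) fun v => (law_Q Q H hy v).2]
  · refine (app1 Q am (fun _ => 0) hs a y).trans (Eq.trans ?_ (app1 Q am (fun _ => 0) hs b _).symm)
    simp only [Wq_tau Q (ξ := fun _ => 0) hs hy (fun v => (law_Q Q H hy v).1)
      fun v => by simp [cvl]]
  · rw [app2 Q (fun a => (H a).m_im) (fun a => (H a).p_im) hs,
      app2 Q (fun a => (H a).m_im) (fun a => (H a).p_im) hs]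
    simp only [Wq_tau Q hs hy (fun v => (law_Q Q H hy v).1) fun v => (law_Q Q H hy v).2]

end Vale.Agent.P247J
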