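import Vale.Agent.P247J.Sta
import Vale.Agent.P247W.Hod

/-!
# P247J: the row `SPEC`
-/

set_option linter.all false

open scoped Topology RealInnerProductSpace
open Set Filter Module MeasureTheory

noncomputable section

namespace Vale.Agent.P247J

open Vale.Agent.P204.GX Vale.Agent.P204.T4 Vale.Agent.P247E
open Vale.Agent.P247.H447.E5

namespace Spec

section abs

variable {H K : Type} [NormedAddCommGroup H] [InnerProductSpace ℝ H] [CompleteSpace H]
  [NormedAddCommGroup K] [InnerProductSpace ℝ K] [CompleteSpace K]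

/-- eigenvectors of a compact symmetric operator for the nonzero eigenvalues -/
theorem eigen (T : K →L[ℝ] K) (hc : IsCompactOperator T) (hs : T.IsSymmetric) :
    ∃ (J : Type) (ψ : J → K) (ν : J → ℝ), Orthonormal ℝ ψ ∧ (∀ j, ν j ≠ 0) ∧
      (∀ j, T (ψ j) = ν j • ψ j) ∧ ∀ g, (∀ j, ⟪ψ j, g⟫ = 0) → T g = 0 := by
  let S := fun μ : ℝ => End.eigenspace (T : End ℝ K) μ
  let A := {μ : ℝ // μ ≠ 0}
  have fd : ∀ μ : A, FiniteDimensional ℝ (S μ) := fun μ =>
    T.finite_dimensional_eigenspace hc μ.1 μ.2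
  let b := fun μ : A => stdOrthonormalBasis ℝ (S μ)
  have o : OrthogonalFamily ℝ (fun μ : A => S μ) fun μ => (S μ).subtypeₗᵢ :=
    hs.orthogonalFamily_eigenspaces.comp Subtype.val_injective
  refine ⟨_, _, fun a => a.1.1, o.orthonormal_sigma_orthonormal fun μ => (b μ).orthonormal,
    fun a => a.1.2, fun a => End.mem_eigenspace_iff.1 (b a.1 a.2).2, fun g hg => ?_⟩
  have h := T.orthogonalComplement_iSup_eigenspaces_eq_bot hc hs
  refine (Submodule.eq_bot_iff _).1 h _ ?_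
  rw [← Submodule.iInf_orthogonal, Submodule.mem_iInf]
  intro μ v hv
  have e : ⟪v, T g⟫ = μ * ⟪v, g⟫ := by
    rw [← real_inner_smul_left, ← End.mem_eigenspace_iff.1 hv]; exact (hs v g).symm
  rw [e]
  by_cases h0 : μ = 0
  · rw [h0, zero_mul]
  have := congrArg (fun z : S μ => ⟪(z : K), g⟫) ((b ⟨μ, h0⟩).sum_repr ⟨v, hv⟩)
  simp only [Submodule.coe_sum, Submodule.coe_smul, sum_inner, real_inner_smul_left] at this
  exact mul_eq_zero_of_right _ (this.symm.trans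
    (Finset.sum_eq_zero fun i _ => mul_eq_zero_of_right _ (hg ⟨⟨μ, h0⟩, i⟩)))

/-- the singular value decomposition of a compact operator -/
theorem svd (B : K →L[ℝ] H) (hc : IsCompactOperator B) :
    ∃ (J : Type) (ψ : J → K) (φ : J → H) (c : J → ℝ), Orthonormal ℝ ψ ∧ Orthonormal ℝ φ ∧
      (∀ j, φ j = c j • B (ψ j)) ∧ (∀ j g, ⟪ψ j, g⟫ = c j * ⟪φ j, B g⟫) ∧
      (∀ g, (∀ j, ⟪ψ j, g⟫ = 0) → B g = 0) ∧ ∀ f, (∀ j, ⟪φ j, f⟫ = 0) → ∀ g, ⟪B g, f⟫ = 0 := by
  have e : ∀ g g', ⟪(B.adjoint ∘L B) g, g'⟫ = ⟪B g, B g'⟫ := fun g g' => B.adjoint_inner_left _ _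
  obtain ⟨J, ψ, ν, o, n0, ev, z⟩ := eigen (B.adjoint ∘L B) (hc.clm_comp B.adjoint) fun g g' => by
    refine (e g g').trans ?_
    rw [real_inner_comm, ← e, real_inner_comm]; rfl
  have e' : ∀ j g, ⟪B (ψ j), B g⟫ = ν j * ⟪ψ j, g⟫ := fun j g => by
    rw [← e, ev, real_inner_smul_left]
  have np : ∀ j, 0 < ν j := fun j => lt_of_le_of_ne (by
    have := e' j (ψ j)
    rw [real_inner_self_eq_norm_sq (ψ j), o.1 j, one_pow, mul_one] at this
    exact this ▸ real_inner_self_nonneg) (n0 j).symm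
  have cc : ∀ j, (√(ν j))⁻¹ * ((√(ν j))⁻¹ * ν j) = 1 := fun j => by
    have := Real.sqrt_pos.2 (np j)
    field_simp
    exact (Real.sq_sqrt (np j).le).symm
  have z' : ∀ g, (∀ j, ⟪ψ j, g⟫ = 0) → B g = 0 := fun g hg =>
    inner_self_eq_zero (𝕜 := ℝ) |>.1 (by rw [← e, z g hg, inner_zero_left])
  classical
  refine ⟨J, ψ, fun j => (√(ν j))⁻¹ • B (ψ j), fun j => (√(ν j))⁻¹, o,
    orthonormal_iff_ite.2 fun i j => ?_, fun _ => rfl, fun j g => ?_, z', fun f hf g => ?_⟩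
  · rw [real_inner_smul_left, real_inner_smul_right, e', orthonormal_iff_ite.1 o]
    split_ifs with h
    · rw [h, mul_one, cc]
    · simp
  · rw [real_inner_smul_left, e', ← mul_assoc _ (ν j), ← mul_assoc, cc, one_mul]
  · have h := z' (B.adjoint f) fun j => by
      have := hf j
      rw [real_inner_smul_left, mul_eq_zero] at this
      rw [B.adjoint_inner_right]
      exact this.resolve_left (inv_ne_zero (Real.sqrt_pos.2 (np j)).ne')
    have h2 : B.adjoint f = 0 := inner_self_eq_zero (𝕜 := ℝ) |>.1 (by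
      rw [B.adjoint_inner_right, h, inner_zero_left])
    rw [← B.adjoint_inner_right, h2, inner_zero_right]

/-- completing an orthonormal family by a basis of its orthogonal complement -/
theorem complete {J : Type} {φ : J → H} (o : Orthonormal ℝ φ) (N : Submodule ℝ H)
    [FiniteDimensional ℝ N] (h1 : ∀ j, φ j ∈ Nᗮ) (h2 : ∀ f, (∀ j, ⟪φ j, f⟫ = 0) → f ∈ N) :
    ∃ b : HilbertBasis (Fin (finrank ℝ N) ⊕ J) ℝ H, (∀ i, b (.inl i) ∈ N) ∧
      ∀ j, b (.inr j) = φ j := by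
  let b := stdOrthonormalBasis ℝ N
  have o' : Orthonormal ℝ (Sum.elim (fun i => (b i : H)) φ) := by
    refine ⟨?_, ?_⟩
    · rintro (i | j)
      exacts [b.orthonormal.1 i, o.1 j]
    · rintro (i | j) (i' | j') h
      exacts [b.orthonormal.2 fun k => h (k ▸ rfl), h1 j' _ (b i).2,
        (real_inner_comm _ _).trans (h1 j _ (b i').2), o.2 fun k => h (k ▸ rfl)]
  refine ⟨.mkOfOrthogonalEqBot o' ((Submodule.eq_bot_iff _).2 fun f hf => ?_), fun i => ?_,
    fun j => ?_⟩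
  · have m := h2 f fun j => hf _ (Submodule.subset_span ⟨.inr j, rfl⟩)
    have := b.sum_repr' ⟨f, m⟩
    rw [Finset.sum_eq_zero fun i _ => by
      rw [show ⟪b i, (⟨f, m⟩ : N)⟫ = 0 from hf _ (Submodule.subset_span ⟨.inl i, rfl⟩),
        zero_smul]] at this
    exact congrArg Subtype.val this.symm
  · rw [HilbertBasis.coe_mkOfOrthogonalEqBot]; exact (b i).2
  · rw [HilbertBasis.coe_mkOfOrthogonalEqBot]; rfl

variable {H₁ : Type} [NormedAddCommGroup H₁] [InnerProductSpace ℝ H₁] [CompleteSpace H₁]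

/-- the singular value decomposition of an operator with compact resolvent -/
theorem svd' (j : H₁ →L[ℝ] H) (D : H₁ →L[ℝ] K) (hc : IsCompactOperator j)
    (hi : Function.Injective j) (hd : DenseRange j) (G : K →L[ℝ] H₁)
    (g2 : ∀ g, g - D (G g) ∈ D.rangeᗮ) (N : Submodule ℝ H) (hN : N = D.ker.map j.toLinearMap)
    [FiniteDimensional ℝ N] (N' : Submodule ℝ K) (hN' : N' = D.rangeᗮ) [FiniteDimensional ℝ N'] :
    ∃ (J : Type) (c : J → ℝ) (φ : HilbertBasis (Fin (finrank ℝ N) ⊕ J) ℝ H)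
      (ψ : HilbertBasis (Fin (finrank ℝ N') ⊕ J) ℝ K), (∀ i, φ (.inl i) ∈ N) ∧
      (∀ i, ψ (.inl i) ∈ N') ∧ ∀ n, (∃ w, j w = φ (.inr n) ∧ D w = c n • ψ (.inr n)) ∧
        ∀ w, ⟪ψ (.inr n), D w⟫ = ⟪c n • φ (.inr n), j w⟫ := by
  let B : K →L[ℝ] H := Nᗮ.starProjection ∘L j ∘L G
  have b1 : ∀ g, ∃ w, j w = B g ∧ D w = D (G g) := fun g => by
    obtain ⟨k, hk, e⟩ : N.starProjection (j (G g)) ∈ D.ker.map j.toLinearMap :=
      hN ▸ N.starProjection_apply_mem _
    refine ⟨G g - k, ?_, by rw [map_sub, show D k = 0 from hk, sub_zero]⟩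
    rw [map_sub, show j k = _ from e]
    exact (N.starProjection_orthogonal_val _).symm
  have g3 : ∀ g ∈ D.rangeᗮᗮ, D (G g) = g := fun g hg => (sub_eq_zero.1 (inner_self_eq_zero (𝕜 := ℝ)
    |>.1 (D.rangeᗮᗮ.sub_mem hg (D.range.le_orthogonal_orthogonal ⟨_, rfl⟩) _ (g2 g)))).symm
  have b2 : ∀ w, B (D w) = Nᗮ.starProjection (j w) := fun w => by
    have : j (G (D w)) - j w ∈ N := hN ▸ ⟨G (D w) - w, by
      show D _ = 0
      rw [map_sub, g3 (D w) (D.range.le_orthogonal_orthogonal ⟨_, rfl⟩), sub_self], map_sub _ _ _⟩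
    rw [← sub_eq_zero]
    refine (map_sub Nᗮ.starProjection _ _).symm.trans ?_
    exact Submodule.starProjection_orthogonal_apply_eq_zero this
  have b3 : ∀ g ∈ D.rangeᗮ, B g = 0 := fun g hg => by
    have h0 : D (G g) = 0 := inner_self_eq_zero (𝕜 := ℝ) |>.1 (by
      have := D.rangeᗮ.sub_mem hg (g2 g)
      rw [sub_sub_cancel] at this
      exact this _ ⟨_, rfl⟩)
    have : j (G g) ∈ N := hN ▸ ⟨G g, h0, rfl⟩
    exact Submodule.starProjection_orthogonal_apply_eq_zero this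
  obtain ⟨J, ψ, φ, c, o1, o2, s1, s2, s3, s4⟩ := svd B ((hc.comp_clm G).clm_comp Nᗮ.starProjection)
  have p1 : ∀ n, φ n ∈ Nᗮ := fun n => s1 n ▸ Nᗮ.smul_mem _ (Nᗮ.starProjection_apply_mem _)
  have p2 : ∀ n, ψ n ∈ D.rangeᗮᗮ := fun n g hg => by
    rw [real_inner_comm, s2, b3 g hg, inner_zero_right, mul_zero]
  obtain ⟨φ', f1, f2⟩ := complete o2 N p1 fun f hf => by
    rw [← N.orthogonal_orthogonal, ← Submodule.starProjection_apply_eq_zero_iff]
    refine hd.eq_zero_of_inner_left ℝ fun w => ?_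
    rw [Submodule.inner_starProjection_left_eq_right, ← b2, real_inner_comm, s4 f hf]
  obtain ⟨ψ', q1, q2⟩ := complete o1 N' (hN' ▸ p2) fun g hg => by
    obtain ⟨w, w1, w2⟩ := b1 g
    rw [s3 g hg, ← map_zero j] at w1
    have := g2 g
    rwa [← w2, hi w1, map_zero, sub_zero, ← hN'] at this
  refine ⟨J, c, φ', ψ', f1, q1, fun n => ⟨?_, fun w => ?_⟩⟩
  · obtain ⟨w, w1, w2⟩ := b1 (ψ n)
    exact ⟨c n • w, by rw [map_smul, w1, f2, s1], by rw [map_smul, w2, g3 _ (p2 n), q2]⟩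
  · rw [q2, f2, s2, b2, real_inner_smul_left, ← Submodule.inner_starProjection_left_eq_right,
      Submodule.starProjection_eq_self_iff.2 (p1 n)]

end abs

variable {X : Type} [MetricSpace X] [CompactSpace X] [MeasurableSpace X] [BorelSpace X] {M : CM X}
  {V W : Type} [NormedAddCommGroup V] [InnerProductSpace ℝ V] [FiniteDimensional ℝ V]
  [NormedAddCommGroup W] [InnerProductSpace ℝ W] [FiniteDimensional ℝ W]
  {E : Bun M V} {F : Bun M W}

theorem app_smul (P : Op E F) (c : ℝ) {s : X → V} (hs : s ∈ E.Sm) : P.app (c • s) = c • P.app s :=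
  funext fun x => by
    rw [← P.sym_jet (E.Sm.smul_mem c hs), E.jet_smul c hs, Pi.smul_apply, map_smul, P.sym_jet hs]
    rfl

theorem sob_smul {k : ℕ} {f : LL2 M V} (h : E.SobX k f) (c : ℝ) : E.SobX k (c • f : LL2 M V) :=
  fun a => by
    have := FiniteDimensional.complete ℝ V
    refine sob_congr (sob_clm (c • ContinuousLinearMap.id ℝ V) (h a)) ?_
    rw [show (fun x => (c • ContinuousLinearMap.id ℝ V) (E.lo a f x)) = E.lo a (c • (f : X → V))
      from (E.lo_smul a c _).symm]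
    exact (E.ae_lo.1 (Lp.coeFn_smul c f) a).symm

/-- regularity of the singular vectors -/
theorem boot {P : Op E F} {P' : Op F E} (h : P.Gar) (h' : P'.Gar) {w : E.H1} {w' : F.H1} {c : ℝ}
    (e : P.clm w = c • F.J w') (e' : P'.clm w' = c • E.J w) :
    ∃ s ∈ E.Sm, (E.J w : X → V) =ᵐ[M.mu] s ∧ ∀ x, P'.app (P.app s) x = c ^ 2 • s x := by
  have k : ∀ k, E.SobX k (E.J w) ∧ F.SobX k (F.J w') := fun k => by
    induction k with
    | zero => exact ⟨fun a => E.ll_lo a (Lp.memLp _), fun a => F.ll_lo a (Lp.memLp _)⟩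
    | succ k ih =>
      exact ⟨P.reg h w k (e ▸ sob_smul ih.2 c), P'.reg h' w' k (e' ▸ sob_smul ih.1 c)⟩
  obtain ⟨s, hs, r⟩ := E.sm_of_sob fun n => (k n).1
  obtain ⟨t, ht, r'⟩ := F.sm_of_sob fun n => (k n).2
  have a : P.app s = c • t := F.eq_of_ae (P.app_mem hs) (F.Sm.smul_mem c ht)
    (((E.rep_of_J hs r).clm_ae hs P).symm.trans
      (e ▸ (Lp.coeFn_smul c _).trans (r'.const_smul c)))
  have a' : P'.app t = c • s := E.eq_of_ae (P'.app_mem ht) (E.Sm.smul_mem c hs)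
    (((F.rep_of_J ht r').clm_ae ht P').symm.trans
      (e' ▸ (Lp.coeFn_smul c _).trans (r.const_smul c)))
  exact ⟨s, hs, r, fun x => by rw [a, app_smul P' c ht, a', smul_smul, ← pow_two]; rfl⟩

theorem eb {P : Op E F} {P' : Op F E} (h : P.Gar) (h' : P'.Gar) {k : ℕ} {J : Type} {c : J → ℝ}
    (φ : HilbertBasis (Fin k ⊕ J) ℝ (LL2 M V))
    (h1 : ∀ i, φ (.inl i) ∈ P.clm.ker.map E.J.toLinearMap)
    (h2 : ∀ n, ∃ w w', E.J w = φ (.inr n) ∧ P.clm w = c n • F.J w' ∧ P'.clm w' = c n • E.J w) :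
    Nonempty (Eb P P' (Sum.elim (fun _ : Fin k => 0) fun n => c n ^ 2)) := by
  have : ∀ n, ∃ s ∈ E.Sm, (φ n : X → V) =ᵐ[M.mu] s ∧
      ∀ x, P'.app (P.app s) x = Sum.elim (fun _ : Fin k => (0 : ℝ)) (fun n => c n ^ 2) n • s x := by
    rintro (i | n)
    · obtain ⟨w, hw, e⟩ := h1 i
      obtain ⟨s, hs, r, a⟩ := boot (c := 0) (w := w) (w' := 0) h h'
        (hw.trans (zero_smul _ _).symm) (by rw [zero_smul, map_zero])
      exact ⟨s, hs, e ▸ r, by simpa using a⟩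
    · obtain ⟨w, w', e, a, a'⟩ := h2 n
      exact e ▸ boot h h' a a'
  choose s s1 s2 s3 using this
  exact ⟨⟨φ, s, s1, s2, s3⟩⟩

end Spec

open Spec in
theorem spec : SPEC_statement := by
  intro X _ _ _ _ M V W _ _ _ _ _ _ E F hd P hP
  have := FiniteDimensional.complete ℝ V
  have := FiniteDimensional.complete ℝ W
  have hA := P.isAdj_adj
  have h := hP.gar
  have h' := (CLA X M V W E F hd P _ hA hP).gar
  obtain ⟨-, cl, -, -, f1, f2, ix⟩ := fred X M V W E F P _ hA h h'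
  obtain ⟨G, -, g2, -, -⟩ := P247W.exists_green P.clm cl
  obtain ⟨⟨q1⟩, -⟩ := Fred.eqv BAS gar REG h
  obtain ⟨⟨q2⟩, -⟩ := Fred.eqv BAS gar REG h'
  have := q1.finiteDimensional
  have := q2.finiteDimensional
  obtain ⟨J, c, φ, ψ, p1, p2, p3⟩ := svd' E.J P.clm (rel X M V W E F) E.J_inj
    (E.dense_sm.mono (by
      rintro f ⟨s, hs, e⟩
      exact ⟨E.jw hs, Lp.ext ((E.rep_jw hs).J_ae.trans e.symm)⟩))
    G g2 _ rfl _ (Fred.orth BAS adj ws hA h').symm
  have k : ∀ n, ∃ w w', E.J w = φ (.inr n) ∧ F.J w' = ψ (.inr n) ∧ P.clm w = c n • F.J w' ∧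
      P.adj.clm w' = c n • E.J w := fun n => by
    obtain ⟨⟨w, w1, w2⟩, a⟩ := p3 n
    obtain ⟨w', v1, v2⟩ := ws X M W V F E P.adj P hA.symm h' (ψ (.inr n)) (c n • φ (.inr n))
      fun t ht => by
        have := a (E.jw ht)
        rw [L2.inner_def, L2.inner_def] at this
        refine (integral_congr_ae ?_).trans (this.trans (integral_congr_ae ?_))
        · filter_upwards [(E.rep_jw ht).clm_ae ht P] with x hx using by rw [hx]
        · filter_upwards [(E.rep_jw ht).J_ae] with x hx using by rw [hx]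
    exact ⟨w, w', w1, v1, v1 ▸ w2, w1 ▸ v2⟩
  refine ⟨J, _, _, fun n => c n ^ 2, fun n => sq_nonneg _, eb h h' φ p1 fun n => ?_,
    eb h' h ψ p2 fun n => ?_, by rw [ix, q1.finrank_eq, q2.finrank_eq]⟩
  · obtain ⟨w, w', a, -, b⟩ := k n
    exact ⟨w, w', a, b⟩
  · obtain ⟨w, w', -, a, b, d⟩ := k n
    exact ⟨w', w, a, d, b⟩

end Vale.Agent.P247J
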