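import Vale.Agent.P247J.Noq
import Vale.Agent.P247J.Heat
import Vale.Agent.P247J.Gauge
import Vale.Agent.P247J.Spec
import Vale.Agent.P247J.Lit
import Vale.Agent.P247J.Dir
import Vale.Agent.P247J.Ops
import Vale.Agent.P247J.Alg
import Vale.Agent.P247J.Lc1
import Vale.Agent.P247J.Lc2
import Vale.Agent.P247I.Even
import Vale.Agent.P247A.Spec2

/-!
# P247J: the formula of Noether and `b⁻ = 19`
-/

namespace Vale.Agent.P247J

theorem noq : NOQ_statement :=
  noq_of lce lcd alg (dir_of (lit spec (gauge heat))) ops

theorem no0 : P247X.NO0_statement := no0_of P247I.even noq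

theorem no19 : P247A.NO19_statement := fun X _ μ h w hw => (no0 X μ h w hw).1

end Vale.Agent.P247J
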