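import Vale.Agent.P247J.Sta

/-!
# P247J: approximate solutions of the heat equation
-/

open scoped Topology RealInnerProductSpace
open Set Filter

namespace Vale.Agent.P247J

theorem bes' {H : Type} [NormedAddCommGroup H] [InnerProductSpace ℝ H] {ι : Type}
    (φ : HilbertBasis ι ℝ H) {lam c : ι → ℝ} {u r : ℝ → H} {C : ℝ} {a : ι → ℝ → ℝ}
    (h0 : ∀ n, 0 ≤ lam n) (ha : ∀ n, ∀ s ∈ Ioc (0 : ℝ) 1, a n s = ⟪φ n, u s⟫)
    (hd : ∀ n, ∀ s ∈ Ioc (0 : ℝ) 1, HasDerivAt (a n) (⟪φ n, r s⟫ - 2 * s * lam n * a n s) s)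
    (hl : ∀ n, Tendsto (a n) (𝓝[>] 0) (𝓝 (c n)))
    (hb : ∀ s ∈ Ioc (0 : ℝ) 1, ‖r s‖ ≤ C * s ^ 2 ∧ ‖u s‖ ≤ C / s ^ 2) {s : ℝ}
    (hs : s ∈ Ioc (0 : ℝ) 1) : ∃ S, HasSum (fun n => Real.exp (-(2 * lam n * s ^ 2)) * c n ^ 2) S ∧
      |S - ‖u s‖ ^ 2| ≤ 3 * C ^ 2 * s := by
  obtain ⟨s0, s1⟩ := hs
  have C0 : 0 ≤ C := by simpa using (norm_nonneg _).trans (hb 1 ⟨one_pos, le_rfl⟩).1
  let δ := fun n => a n s - Real.exp (-(lam n * s ^ 2)) * c n
  have key : ∀ J : Finset ι, ∑ n ∈ J, δ n ^ 2 ≤ (C * s ^ 3) ^ 2 := fun J => by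
    set D := √(∑ n ∈ J, δ n ^ 2)
    have hD : D ^ 2 = ∑ n ∈ J, δ n ^ 2 := Real.sq_sqrt (by positivity)
    have D0 : 0 ≤ D := Real.sqrt_nonneg _
    let F := fun t => ∑ n ∈ J, δ n * (Real.exp (lam n * (t ^ 2 - s ^ 2)) * a n t)
    have d : ∀ t ∈ Ioc 0 s, HasDerivAt F
        (∑ n ∈ J, δ n * Real.exp (lam n * (t ^ 2 - s ^ 2)) * ⟪φ n, r t⟫) t := fun t ht =>
      HasDerivAt.fun_sum fun n _ => by
        refine (((((hasDerivAt_pow 2 t).sub_const (s ^ 2)).const_mul (lam n)).exp.mul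
          (hd n t ⟨ht.1, ht.2.trans s1⟩)).const_mul (δ n)).congr_deriv ?_
        simp
        ring
    have b : ∀ t ∈ Ioc 0 s, ‖∑ n ∈ J, δ n * Real.exp (lam n * (t ^ 2 - s ^ 2)) * ⟪φ n, r t⟫‖ ≤
        D * (C * s ^ 2) := fun t ht => by
      have p := pow_le_pow_left₀ ht.1.le ht.2 2
      refine abs_le_of_sq_le_sq ((Finset.sum_mul_sq_le_sq_mul_sq _ _ _).trans ?_) (by positivity)
      rw [mul_pow, hD]
      refine mul_le_mul (Finset.sum_le_sum fun n _ => ?_) (le_trans ?_ (pow_le_pow_left₀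
        (norm_nonneg _) ((hb t ⟨ht.1, ht.2.trans s1⟩).1.trans (by gcongr)) 2)) (by positivity)
        (by positivity)
      · rw [mul_pow]
        exact mul_le_of_le_one_right (sq_nonneg _) (pow_le_one₀ (Real.exp_pos _).le
          (Real.exp_le_one_iff.2 (mul_nonpos_of_nonneg_of_nonpos (h0 n) (by linarith))))
      · simpa using φ.orthonormal.sum_inner_products_le (r t) (s := J)
    have t : Tendsto (fun t => F s - F t) (𝓝[>] 0) (𝓝 (D ^ 2)) := by
      convert (tendsto_finsetSum J fun n _ => ((((by fun_prop : Continuous fun t : ℝ =>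
        Real.exp (lam n * (t ^ 2 - s ^ 2))).tendsto 0).mono_left nhdsWithin_le_nhds).mul
          (hl n)).const_mul (δ n)).const_sub (F s) using 2
      simp [F, hD, ← Finset.sum_sub_distrib, ← mul_sub, pow_two (δ _), δ]
    have k : D ^ 2 ≤ D * (C * s ^ 2) * s := le_of_tendsto t (by
      filter_upwards [Ioc_mem_nhdsGT s0] with t ht
      refine ((le_abs_self _).trans (norm_image_sub_le_of_norm_deriv_le_segment'
        (fun x hx => (d x ⟨ht.1.trans_le hx.1, hx.2⟩).hasDerivWithinAt)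
        (fun x hx => b x ⟨ht.1.trans_le hx.1, hx.2.le⟩) s ⟨ht.2, le_rfl⟩)).trans ?_
      gcongr
      linarith [ht.1])
    rw [← hD]
    rcases D0.eq_or_lt with h | h
    · rw [← h]; simpa using sq_nonneg (C * s ^ 3)
    · exact pow_le_pow_left₀ D0 (le_of_mul_le_mul_left (by linarith) h) 2
  let d : lp (fun _ : ι => ℝ) 2 := ⟨δ, memℓp_gen' (C := (C * s ^ 3) ^ 2) (by simpa using key)⟩
  have n : ‖φ.repr.symm d‖ ≤ C * s ^ 3 := by
    rw [LinearIsometryEquiv.norm_map]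
    exact lp.norm_le_of_forall_sum_le (by simp) (by positivity) (by simpa [d] using key)
  refine ⟨‖u s - φ.repr.symm d‖ ^ 2, ?_, ?_⟩
  · convert! φ.hasSum_inner_mul_inner (u s - φ.repr.symm d) (u s - φ.repr.symm d) using 1
    · funext n
      rw [real_inner_comm, inner_sub_right, ← ha n s ⟨s0, s1⟩, ← φ.repr_apply_apply,
        LinearIsometryEquiv.apply_symm_apply, show -(2 * lam n * s ^ 2) =
          -(lam n * s ^ 2) + -(lam n * s ^ 2) by ring, Real.exp_add]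
      simp only [d, δ]
      ring
    · exact (real_inner_self_eq_norm_sq _).symm
  · have h1 := (abs_real_inner_le_norm (u s) (φ.repr.symm d)).trans
      (mul_le_mul (hb s ⟨s0, s1⟩).2 n (norm_nonneg _) (by positivity))
    have h2 := pow_le_pow_left₀ (norm_nonneg _) n 2
    have h3 : (C * s ^ 3) ^ 2 ≤ C ^ 2 * s := by
      rw [mul_pow, ← pow_mul]
      exact mul_le_mul_of_nonneg_left (pow_le_of_le_one s0.le s1 (by simp)) (sq_nonneg C)
    rw [show C / s ^ 2 * (C * s ^ 3) = C ^ 2 * s by field_simp, abs_le] at h1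
    rw [norm_sub_sq_real, abs_le]
    constructor <;> nlinarith [sq_nonneg ‖φ.repr.symm d‖]

theorem bes : BES_statement := fun _ _ _ _ φ _ _ _ _ _ h0 hd hl hb _ hs =>
  bes' φ h0 (fun _ _ _ => rfl) hd hl hb hs

end Vale.Agent.P247J
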