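import Vale.Agent.P247J.Pf

/-!
# P247J: asymptotic expansions up to order five
-/

set_option linter.all false

open scoped ContDiff Topology Nat
open Set Filter

noncomputable section

namespace Vale.Agent.P247J.Heat

open Vale.Agent.P204.T4 Vale.Agent.P247E
open Vale.Agent.P247.H74 (e)

variable {Λ E F G : Type} [NormedAddCommGroup E] [NormedSpace ℝ E] [NormedAddCommGroup F]
  [NormedSpace ℝ F] [NormedAddCommGroup G] [NormedSpace ℝ G]

/-- families of order `s ^ m`, with polynomial growth -/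
def OO (m : ℕ) (Φ : Λ → ℝ → V4 → E) : Prop := ∃ (C : ℝ) (M : ℕ), 0 ≤ C ∧
  ∀ p, ∀ s ∈ Ioc (0 : ℝ) 1, ∀ y, ‖Φ p s y‖ ≤ C * s ^ m * (1 + ‖y‖) ^ M

theorem one_le_w (y : V4) : 1 ≤ 1 + ‖y‖ := by linarith [norm_nonneg y]

namespace OO

variable {m k : ℕ} {Φ Ψ : Λ → ℝ → V4 → E}

theorem congr (h : OO m Φ) (e : ∀ p, ∀ s ∈ Ioc (0 : ℝ) 1, ∀ y, Ψ p s y = Φ p s y) : OO m Ψ := by
  obtain ⟨C, M, c0, h⟩ := h
  exact ⟨C, M, c0, fun p s hs y => e p s hs y ▸ h p s hs y⟩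

theorem zero (m : ℕ) : OO m fun (_ : Λ) (_ : ℝ) (_ : V4) => (0 : E) :=
  ⟨0, 0, le_rfl, fun p s hs y => by simp⟩

theorem add (h : OO m Φ) (h' : OO m Ψ) : OO m fun p s y => Φ p s y + Ψ p s y := by
  obtain ⟨C, M, c0, h⟩ := h
  obtain ⟨D, N, d0, k⟩ := h'
  refine ⟨C + D, max M N, by positivity, fun p s hs y => (norm_add_le _ _).trans ?_⟩
  have s0 := hs.1
  rw [add_mul, add_mul]
  exact add_le_add
    ((h p s hs y).trans (mul_le_mul_of_nonneg_left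
      (pow_le_pow_right₀ (one_le_w y) (le_max_left _ _)) (by positivity)))
    ((k p s hs y).trans (mul_le_mul_of_nonneg_left
      (pow_le_pow_right₀ (one_le_w y) (le_max_right _ _)) (by positivity)))

theorem bil (B : E →L[ℝ] F →L[ℝ] G) (h : OO m Φ) {Ψ : Λ → ℝ → V4 → F} (h' : OO k Ψ) :
    OO (m + k) fun p s y => B (Φ p s y) (Ψ p s y) := by
  obtain ⟨C, M, c0, h⟩ := h
  obtain ⟨D, N, d0, k'⟩ := h'
  refine ⟨‖B‖ * C * D, M + N, by positivity, fun p s hs y => (B.le_opNorm₂ _ _).trans ?_⟩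
  have s0 := hs.1
  calc _ ≤ ‖B‖ * (C * s ^ m * (1 + ‖y‖) ^ M) * (D * s ^ k * (1 + ‖y‖) ^ N) := by
        gcongr
        exacts [h p s hs y, k' p s hs y]
    _ = _ := by ring

theorem clm (L : E →L[ℝ] F) (h : OO m Φ) : OO m fun p s y => L (Φ p s y) := by
  obtain ⟨C, M, c0, h⟩ := h
  refine ⟨‖L‖ * C, M, by positivity, fun p s hs y => (L.le_opNorm _).trans ?_⟩
  rw [mul_assoc, mul_assoc, ← mul_assoc C]
  exact mul_le_mul_of_nonneg_left (h p s hs y) (norm_nonneg _)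

theorem pow (h : OO m Φ) (k : ℕ) : OO (k + m) fun p s y => s ^ k • Φ p s y := by
  obtain ⟨C, M, c0, h⟩ := h
  refine ⟨C, M, c0, fun p s hs y => ?_⟩
  have s0 := hs.1
  rw [norm_smul, norm_pow, Real.norm_of_nonneg s0.le]
  calc _ ≤ s ^ k * (C * s ^ m * (1 + ‖y‖) ^ M) := by gcongr; exact h p s hs y
    _ = _ := by ring

theorem mono (h : OO m Φ) (hk : k ≤ m) : OO k Φ := by
  obtain ⟨C, M, c0, h⟩ := h
  refine ⟨C, M, c0, fun p s hs y => (h p s hs y).trans ?_⟩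
  have := pow_le_pow_of_le_one hs.1.le hs.2 hk
  gcongr

end OO

theorem PF.oo {f : Λ → V4 → E} (h : PF f) : OO 0 fun p _ y => f p y := by
  obtain ⟨n, h⟩ := h
  obtain ⟨C, c0, h⟩ := h.bd
  exact ⟨C, n, c0, fun p s _ y => by simpa using h p y⟩

theorem PF.oo' {f : Λ → V4 → E} (h : PF f) (k : ℕ) (hk : 5 ≤ k) :
    OO 5 fun p s y => s ^ k • f p y := (h.oo.pow k).mono hk

/-- the sum of the expansion -/
def ev (f0 f1 f2 f3 f4 : Λ → V4 → E) (p : Λ) (s : ℝ) (y : V4) : E :=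
  f0 p y + s • f1 p y + s ^ 2 • f2 p y + s ^ 3 • f3 p y + s ^ 4 • f4 p y

/-- `Φ = f0 + s f1 + ... + s ^ 4 f4 + O (s ^ 5)` -/
structure Exp (Φ : Λ → ℝ → V4 → E) (f0 f1 f2 f3 f4 : Λ → V4 → E) : Prop where
  p0 : PF f0
  p1 : PF f1
  p2 : PF f2
  p3 : PF f3
  p4 : PF f4
  rem : OO 5 fun p s y => Φ p s y - ev f0 f1 f2 f3 f4 p s y

namespace Exp

variable {Φ Ψ : Λ → ℝ → V4 → E} {f0 f1 f2 f3 f4 g0 g1 g2 g3 g4 : Λ → V4 → E}

theorem poly (p0 : PF f0) (p1 : PF f1) (p2 : PF f2) (p3 : PF f3) (p4 : PF f4) :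
    Exp (ev f0 f1 f2 f3 f4) f0 f1 f2 f3 f4 :=
  ⟨p0, p1, p2, p3, p4, (OO.zero 5).congr fun p s _ y => sub_self _⟩

theorem congr (h : Exp Φ f0 f1 f2 f3 f4) (e : ∀ p, ∀ s ∈ Ioc (0 : ℝ) 1, ∀ y, Ψ p s y = Φ p s y) :
    Exp Ψ f0 f1 f2 f3 f4 :=
  ⟨h.p0, h.p1, h.p2, h.p3, h.p4, h.rem.congr fun p s hs y => by rw [e p s hs y]⟩

theorem congr' (h : Exp Φ f0 f1 f2 f3 f4) (e0 : ∀ p y, g0 p y = f0 p y)
    (e1 : ∀ p y, g1 p y = f1 p y) (e2 : ∀ p y, g2 p y = f2 p y) (e3 : ∀ p y, g3 p y = f3 p y)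
    (e4 : ∀ p y, g4 p y = f4 p y) : Exp Φ g0 g1 g2 g3 g4 :=
  ⟨h.p0.congr e0, h.p1.congr e1, h.p2.congr e2, h.p3.congr e3, h.p4.congr e4,
    h.rem.congr fun p s hs y => by simp only [ev, e0, e1, e2, e3, e4]⟩

theorem oo_ev (h : Exp Φ f0 f1 f2 f3 f4) : OO 0 (ev f0 f1 f2 f3 f4) :=
  (((h.p0.oo.add (((h.p1.oo.pow 1).mono (Nat.zero_le _)).congr fun p s _ y => by
    rw [pow_one])).add ((h.p2.oo.pow 2).mono (Nat.zero_le _))).add
    ((h.p3.oo.pow 3).mono (Nat.zero_le _))).add ((h.p4.oo.pow 4).mono (Nat.zero_le _))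

theorem oo (h : Exp Φ f0 f1 f2 f3 f4) : OO 0 Φ :=
  ((h.rem.mono (Nat.zero_le _)).add h.oo_ev).congr fun p s _ y => (sub_add_cancel _ _).symm

theorem of_oo (h : OO 5 Φ) : Exp Φ (fun _ _ => 0) (fun _ _ => 0) (fun _ _ => 0) (fun _ _ => 0)
    fun _ _ => 0 :=
  ⟨PF.zero, PF.zero, PF.zero, PF.zero, PF.zero, h.congr fun p s _ y => by simp [ev]⟩

theorem cst (p0 : PF f0) : Exp (fun p _ y => f0 p y) f0 (fun _ _ => 0) (fun _ _ => 0)
    (fun _ _ => 0) fun _ _ => 0 :=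
  ⟨p0, PF.zero, PF.zero, PF.zero, PF.zero, (OO.zero 5).congr fun p s _ y => by simp [ev]⟩

theorem add (h : Exp Φ f0 f1 f2 f3 f4) (k : Exp Ψ g0 g1 g2 g3 g4) :
    Exp (fun p s y => Φ p s y + Ψ p s y) (fun p y => f0 p y + g0 p y) (fun p y => f1 p y + g1 p y)
      (fun p y => f2 p y + g2 p y) (fun p y => f3 p y + g3 p y) fun p y => f4 p y + g4 p y :=
  ⟨h.p0.add k.p0, h.p1.add k.p1, h.p2.add k.p2, h.p3.add k.p3, h.p4.add k.p4,
    (h.rem.add k.rem).congr fun p s _ y => by simp only [ev]; module⟩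

theorem add_oo (h : Exp Φ f0 f1 f2 f3 f4) (k : OO 5 Ψ) :
    Exp (fun p s y => Φ p s y + Ψ p s y) f0 f1 f2 f3 f4 :=
  (h.add (of_oo k)).congr' (by simp) (by simp) (by simp) (by simp) (by simp)

theorem clm (L : E →L[ℝ] F) (h : Exp Φ f0 f1 f2 f3 f4) :
    Exp (fun p s y => L (Φ p s y)) (fun p y => L (f0 p y)) (fun p y => L (f1 p y))
      (fun p y => L (f2 p y)) (fun p y => L (f3 p y)) fun p y => L (f4 p y) :=
  ⟨h.p0.clm L, h.p1.clm L, h.p2.clm L, h.p3.clm L, h.p4.clm L,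
    (h.rem.clm L).congr fun p s _ y => by simp only [ev, map_sub, map_add, map_smul]⟩

theorem csmul (c : ℝ) (h : Exp Φ f0 f1 f2 f3 f4) :
    Exp (fun p s y => c • Φ p s y) (fun p y => c • f0 p y) (fun p y => c • f1 p y)
      (fun p y => c • f2 p y) (fun p y => c • f3 p y) fun p y => c • f4 p y :=
  h.clm (c • ContinuousLinearMap.id ℝ E)

theorem sum {ι : Type} (s : Finset ι) {Φ : ι → Λ → ℝ → V4 → E} {f0 f1 f2 f3 f4 : ι → Λ → V4 → E}
    (h : ∀ k, Exp (Φ k) (f0 k) (f1 k) (f2 k) (f3 k) (f4 k)) :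
    Exp (fun p t y => ∑ k ∈ s, Φ k p t y) (fun p y => ∑ k ∈ s, f0 k p y)
      (fun p y => ∑ k ∈ s, f1 k p y) (fun p y => ∑ k ∈ s, f2 k p y) (fun p y => ∑ k ∈ s, f3 k p y)
      fun p y => ∑ k ∈ s, f4 k p y := by
  classical
  induction s using Finset.induction_on with
  | empty => simpa using of_oo (OO.zero 5)
  | insert a s ha ih => simpa only [Finset.sum_insert ha] using (h a).add ih

theorem shift (h : Exp Φ f0 f1 f2 f3 f4) :
    Exp (fun p s y => s • Φ p s y) (fun _ _ => 0) f0 f1 f2 f3 :=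
  ⟨PF.zero, h.p0, h.p1, h.p2, h.p3, (((h.rem.pow 1).mono (by norm_num)).add
    (h.p4.oo' 5 le_rfl)).congr fun p s _ y => by simp only [ev]; module⟩

theorem bil (B : E →L[ℝ] F →L[ℝ] G) (h : Exp Φ f0 f1 f2 f3 f4) {Ψ : Λ → ℝ → V4 → F}
    {g0 g1 g2 g3 g4 : Λ → V4 → F} (k : Exp Ψ g0 g1 g2 g3 g4) :
    Exp (fun p s y => B (Φ p s y) (Ψ p s y)) (fun p y => B (f0 p y) (g0 p y))
      (fun p y => B (f0 p y) (g1 p y) + B (f1 p y) (g0 p y))
      (fun p y => B (f0 p y) (g2 p y) + B (f1 p y) (g1 p y) + B (f2 p y) (g0 p y))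
      (fun p y => B (f0 p y) (g3 p y) + B (f1 p y) (g2 p y) + B (f2 p y) (g1 p y) +
        B (f3 p y) (g0 p y))
      fun p y => B (f0 p y) (g4 p y) + B (f1 p y) (g3 p y) + B (f2 p y) (g2 p y) +
        B (f3 p y) (g1 p y) + B (f4 p y) (g0 p y) := by
  refine ⟨h.p0.bil B k.p0, (h.p0.bil B k.p1).add (h.p1.bil B k.p0),
    ((h.p0.bil B k.p2).add (h.p1.bil B k.p1)).add (h.p2.bil B k.p0),
    (((h.p0.bil B k.p3).add (h.p1.bil B k.p2)).add (h.p2.bil B k.p1)).add (h.p3.bil B k.p0),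
    ((((h.p0.bil B k.p4).add (h.p1.bil B k.p3)).add (h.p2.bil B k.p2)).add
      (h.p3.bil B k.p1)).add (h.p4.bil B k.p0), ?_⟩
  refine ((((((h.rem.bil B k.oo).add (h.oo_ev.bil B k.rem)).add
    (((((h.p1.bil B k.p4).add (h.p2.bil B k.p3)).add (h.p3.bil B k.p2)).add
      (h.p4.bil B k.p1)).oo' 5 le_rfl)).add
    ((((h.p2.bil B k.p4).add (h.p3.bil B k.p3)).add (h.p4.bil B k.p2)).oo' 6 (by norm_num))).add
    (((h.p3.bil B k.p4).add (h.p4.bil B k.p3)).oo' 7 (by norm_num))).add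
    ((h.p4.bil B k.p4).oo' 8 (by norm_num))).congr fun p s _ y => ?_
  simp only [ev, map_sub, map_add, map_smul, ContinuousLinearMap.add_apply,
    ContinuousLinearMap.sub_apply, ContinuousLinearMap.smul_apply]
  module

theorem smul {c : Λ → ℝ → V4 → ℝ} {u0 u1 u2 u3 u4 : Λ → V4 → ℝ} (h : Exp c u0 u1 u2 u3 u4)
    (k : Exp Ψ g0 g1 g2 g3 g4) :
    Exp (fun p s y => c p s y • Ψ p s y) (fun p y => u0 p y • g0 p y)
      (fun p y => u0 p y • g1 p y + u1 p y • g0 p y)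
      (fun p y => u0 p y • g2 p y + u1 p y • g1 p y + u2 p y • g0 p y)
      (fun p y => u0 p y • g3 p y + u1 p y • g2 p y + u2 p y • g1 p y + u3 p y • g0 p y)
      fun p y => u0 p y • g4 p y + u1 p y • g3 p y + u2 p y • g2 p y + u3 p y • g1 p y +
        u4 p y • g0 p y := h.bil (ContinuousLinearMap.lsmul ℝ ℝ) k

theorem oo5 (h : Exp Φ f0 f1 f2 f3 f4) (e0 : ∀ p y, f0 p y = 0) (e1 : ∀ p y, f1 p y = 0)
    (e2 : ∀ p y, f2 p y = 0) (e3 : ∀ p y, f3 p y = 0) :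
    OO 5 fun p s y => Φ p s y - s ^ 4 • f4 p y :=
  h.rem.congr fun p s _ y => by simp [ev, e0, e1, e2, e3]

end Exp

/-! ## Taylor expansions -/

/-- the Taylor coefficients at the origin -/
def tc (k : ℕ) (f : Λ → V4 → E) (p : Λ) (y : V4) : E :=
  (k ! : ℝ)⁻¹ • iteratedFDeriv ℝ k (f p) 0 fun _ => y

theorem tc_zero (f : Λ → V4 → E) (p : Λ) (y : V4) : tc 0 f p y = f p 0 := by simp [tc]

theorem tc_one (f : Λ → V4 → E) (p : Λ) (y : V4) : tc 1 f p y = fderiv ℝ (f p) 0 y := by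
  simp [tc, iteratedFDeriv_one_apply]

theorem tc_mem [FiniteDimensional ℝ E] {W : Submodule ℝ E} {f : Λ → V4 → E} (hf : Tame f)
    (h : ∀ p x, f p x ∈ W) (k : ℕ) (p : Λ) (y : V4) : tc k f p y ∈ W := by
  obtain ⟨π, h1, h2⟩ := exists_proj W
  rw [tc, show f p = π ∘ f p from funext fun y => (h2 _ (h p y)).symm,
    π.iteratedFDeriv_comp_left (hf.sm p).contDiffAt (by exact_mod_cast le_top)]
  exact W.smul_mem _ (h1 _)

theorem tc_eq_zero {f : Λ → V4 → E} {c : E} (h : ∀ p, f p =ᶠ[𝓝 0] fun _ => c) (k : ℕ) (hk : k ≠ 0)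
    (p : Λ) (y : V4) : tc k f p y = 0 := by
  rw [tc, ((h p).iteratedFDeriv ℝ k).eq_of_nhds, iteratedFDeriv_const_of_ne hk]
  simp

theorem _root_.Vale.Agent.P247J.Tame.pa {f : Λ → V4 → E} (h : Tame f) (i : Fin 4) :
    Tame fun p => pa i (f p) := by
  refine ⟨fun p => pa_sm (h.sm p) i, fun k => ?_⟩
  obtain ⟨C, hC⟩ := h.bd (k + 1)
  refine ⟨‖ContinuousLinearMap.apply ℝ E (e i)‖ * C, fun p x => ?_⟩
  refine ((ContinuousLinearMap.apply ℝ E (e i)).norm_iteratedFDeriv_comp_left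
    (f := fderiv ℝ (f p)) (N := ∞) ((h.sm p).fderiv_right (m := ∞) (by simp)).contDiffAt
    (by exact_mod_cast le_top)).trans ?_
  rw [norm_iteratedFDeriv_fderiv]
  exact mul_le_mul_of_nonneg_left (hC p x) (norm_nonneg _)

theorem _root_.Vale.Agent.P247J.Tame.pf {f : Λ → V4 → E} (h : Tame f) (k : ℕ) : PF (tc k f) := by
  obtain ⟨C, hC⟩ := h.bd k
  exact PF.csmul ⟨_, PD.multi k (fun p => iteratedFDeriv ℝ k (f p) 0) C fun p => hC p 0⟩ _

theorem _root_.Vale.Agent.P247J.Tame.exp [CompleteSpace E] {f : Λ → V4 → E} (h : Tame f) :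
    Exp (fun p s y => f p (s • y)) (tc 0 f) (tc 1 f) (tc 2 f) (tc 3 f) (tc 4 f) := by
  refine ⟨h.pf 0, h.pf 1, h.pf 2, h.pf 3, h.pf 4, ?_⟩
  obtain ⟨C, hC⟩ := h.bd 5
  refine ⟨max C 0, 5, le_max_right _ _, fun p s hs y => ?_⟩
  have s0 := hs.1
  have t := map_add_eq_sum_add_integral_iteratedFDeriv (f := f p) (x := 0) (y := s • y) (n := 4)
    fun t _ => (h.sm p).contDiffAt.of_le (by
      rw [← Nat.cast_succ]; exact WithTop.coe_le_coe.2 le_top)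
  have u : ∀ k, (k ! : ℝ)⁻¹ • iteratedFDeriv ℝ k (f p) 0 (fun _ => s • y) = s ^ k • tc k f p y :=
    fun k => by
      rw [tc, smul_comm, (iteratedFDeriv ℝ k (f p) 0).map_smul_univ (fun _ => s) fun _ => y]
      simp
  simp only [u, Finset.sum_range_succ, Finset.range_zero, Finset.sum_empty, zero_add, pow_zero,
    one_smul, pow_one] at t
  show ‖f p (s • y) - ev _ _ _ _ _ p s y‖ ≤ _
  rw [t, ev, add_sub_cancel_left, norm_smul]
  have b := intervalIntegral.norm_integral_le_of_norm_le_const (a := 0) (b := 1)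
    (f := fun t : ℝ => (1 - t) ^ 4 • iteratedFDeriv ℝ (4 + 1) (f p) (t • s • y) fun _ => s • y)
    (C := max C 0 * s ^ 5 * (1 + ‖y‖) ^ 5) fun t ht => by
      rw [uIoc_of_le zero_le_one] at ht
      rw [norm_smul, norm_pow, Real.norm_of_nonneg (by linarith [ht.2])]
      refine (mul_le_of_le_one_left (norm_nonneg _) (pow_le_one₀ (by linarith [ht.2])
        (by linarith [ht.1]))).trans (((iteratedFDeriv ℝ (4 + 1) (f p) _).le_opNorm _).trans ?_)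
      rw [Finset.prod_const, Finset.card_univ, Fintype.card_fin, norm_smul,
        Real.norm_of_nonneg s0.le, mul_pow, mul_assoc]
      gcongr
      · exact (hC p _).trans (le_max_left _ _)
      · linarith
  rw [sub_zero, abs_one, mul_one] at b
  refine (mul_le_of_le_one_left (norm_nonneg _) ?_).trans b
  norm_num [Nat.factorial]

end Vale.Agent.P247J.Heat
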