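import Vale.Agent.P247J.Rec

/-!
# P247J: Gaussian integrals
-/

set_option linter.all false

open scoped ContDiff Topology
open Set Filter MeasureTheory

noncomputable section

namespace Vale.Agent.P247J.Heat

open Vale.Agent.P204.T4 Vale.Agent.P247E
open Vale.Agent.P247.H74 (e)

variable {E : Type} [NormedAddCommGroup E] [NormedSpace ℝ E]

theorem g0_pos (y : V4) : 0 < g0 y := Real.exp_pos _

theorem g0_sm : ContDiff ℝ ∞ g0 :=
  ((ContDiff.sum fun i _ => (sm_co i).pow 2).neg.div_const 4).exp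

theorem g0_le (y : V4) : g0 y ≤ 1 :=
  Real.exp_le_one_iff.2 (by have : 0 ≤ ∑ i, y i ^ 2 := by positivity
                            linarith)

theorem int_exp : Integrable fun y : V4 => Real.exp (-(∑ i, y i ^ 2) / 8) := by
  have := Integrable.fintype_prod (μ := fun _ : Fin 4 => (volume : Measure ℝ))
    (f := fun _ (x : ℝ) => Real.exp (-(1 / 8) * x ^ 2))
    fun _ => integrable_exp_neg_mul_sq (by norm_num)
  refine this.congr (Eventually.of_forall fun y => ?_)
  simp only [← Real.exp_sum, Fin.sum_univ_four]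
  congr 1
  ring

theorem norm_sq_le (y : V4) : ‖y‖ ^ 2 ≤ ∑ i, y i ^ 2 := by
  have h : ‖y‖ ≤ √(∑ i, y i ^ 2) := (pi_norm_le_iff_of_nonneg (Real.sqrt_nonneg _)).2 fun i =>
    Real.abs_le_sqrt (Finset.single_le_sum (f := fun i => y i ^ 2) (fun _ _ => sq_nonneg _)
      (Finset.mem_univ i))
  exact (pow_le_pow_left₀ (norm_nonneg _) h 2).trans (Real.sq_sqrt (by positivity)).le

theorem int_w0 (M : ℕ) : Integrable fun y : V4 => (1 + ‖y‖) ^ M * g0 y := by
  refine (int_exp.const_mul (Real.exp (2 * M ^ 2))).mono'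
    (((continuous_const.add continuous_norm).pow M).mul g0_sm.continuous).aestronglyMeasurable
    (Eventually.of_forall fun y => ?_)
  have := g0_pos y
  rw [Real.norm_of_nonneg (by positivity), g0, ← Real.exp_add]
  calc _ ≤ Real.exp ‖y‖ ^ M * Real.exp (-(∑ i, y i ^ 2) / 4) := by
        gcongr
        linarith [Real.add_one_le_exp ‖y‖]
    _ ≤ _ := by
        rw [← Real.exp_nat_mul, ← Real.exp_add, Real.exp_le_exp]
        nlinarith [norm_sq_le y, sq_nonneg (‖y‖ - 4 * M)]

theorem int_g0 : Integrable g0 := by simpa using int_w0 0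

theorem c0_pos : 0 < ∫ z, g0 z := integral_exp_pos int_g0

theorem gs_pos (y : V4) : 0 < gs y := mul_pos (inv_pos.2 c0_pos) (g0_pos y)

theorem gs_sm : ContDiff ℝ ∞ gs := contDiff_const.mul g0_sm

theorem int_gs : ∫ y, gs y = 1 := by
  simp only [gs, integral_const_mul]
  exact inv_mul_cancel₀ c0_pos.ne'

theorem int_w (M : ℕ) : Integrable fun y : V4 => (1 + ‖y‖) ^ M * gs y :=
  ((int_w0 M).const_mul (∫ z, g0 z)⁻¹).congr (Eventually.of_forall fun y => by
    simp only [gs]; ring)

theorem int_w2 (M : ℕ) : Integrable fun y : V4 => (1 + ‖y‖) ^ M * gs y ^ 2 := by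
  refine ((int_w M).const_mul (∫ z, g0 z)⁻¹).mono'
    (((continuous_const.add continuous_norm).pow M).mul
      (gs_sm.continuous.pow 2)).aestronglyMeasurable (Eventually.of_forall fun y => ?_)
  have h1 := gs_pos y
  have h2 : gs y ≤ (∫ z, g0 z)⁻¹ := mul_le_of_le_one_right (inv_pos.2 c0_pos).le (g0_le y)
  rw [Real.norm_of_nonneg (by positivity), pow_two, mul_left_comm]
  calc _ = gs y * ((1 + ‖y‖) ^ M * gs y) := by ring
    _ ≤ _ := mul_le_mul_of_nonneg_right h2 (by positivity)

theorem pa_gs (i : Fin 4) (y : V4) : pa i gs y = -(y i / 2) * gs y := by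
  have h : ∀ l, HasFDerivAt (fun y : V4 => y l)
      (ContinuousLinearMap.proj (R := ℝ) (φ := fun _ => ℝ) l) y := fun l => hasFDerivAt_apply l y
  have h1 := ((((HasFDerivAt.fun_sum (u := Finset.univ) fun l _ => (h l).pow 2).neg).mul_const
    (4⁻¹ : ℝ)).exp).const_mul (∫ z, g0 z)⁻¹
  have h2 : fderiv ℝ gs y = _ := h1.fderiv
  rw [pa, h2]
  simp [e, Pi.single_apply, gs, g0, div_eq_mul_inv]
  ring

theorem pa_gs_smul {f : V4 → E} (hf : ContDiff ℝ ∞ f) (i : Fin 4) :
    pa i (fun y => gs y • f y) = fun y => gs y • dh i f y := funext fun y => by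
  simp only [pa_smul gs_sm hf, pa_gs, dh]
  module

/-- integrability against the square of the Gaussian -/
theorem int_of_bd {f : V4 → ℝ} (hf : Continuous f) {C : ℝ} {M : ℕ}
    (h : ∀ y, ‖f y‖ ≤ C * (1 + ‖y‖) ^ M) : Integrable (fun y => gs y ^ 2 * f y) ∧
    |∫ y, gs y ^ 2 * f y| ≤ C * ∫ y, (1 + ‖y‖) ^ M * gs y ^ 2 := by
  have b : ∀ y, ‖gs y ^ 2 * f y‖ ≤ C * ((1 + ‖y‖) ^ M * gs y ^ 2) := fun y => by
    rw [norm_mul, Real.norm_of_nonneg (sq_nonneg _), ← mul_assoc, mul_comm]
    exact mul_le_mul_of_nonneg_right (h y) (sq_nonneg _)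
  refine ⟨((int_w2 M).const_mul C).mono' ((gs_sm.continuous.pow 2).mul hf).aestronglyMeasurable
    (Eventually.of_forall b), ?_⟩
  rw [← integral_const_mul]
  exact norm_integral_le_of_norm_le ((int_w2 M).const_mul C) (Eventually.of_forall b)

theorem PF.int {Λ : Type} {f : Λ → V4 → ℝ} (h : PF f) (p : Λ) :
    Integrable fun y => gs y ^ 2 * f p y := by
  obtain ⟨C, -, b⟩ := h.choose_spec.bd
  exact (int_of_bd (h.sm p).continuous (b p)).1

theorem mom (i j : Fin 4) : ∫ y, gs y ^ 2 * (y i * y j) = if i = j then kap else 0 := by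
  have p1 : PF fun (_ : Unit) (_ : V4) => (1 : ℝ) := PF.cst 1
  have i0 : Integrable fun y => gs y ^ 2 := by simpa using p1.int ()
  have i1 : Integrable fun y : V4 => gs y ^ 2 * y i := by simpa using (p1.co i).int ()
  have i2 : Integrable fun y : V4 => gs y ^ 2 * (y i * y j) := by
    simpa using ((p1.co j).co i).int ()
  have d : ∀ y, fderiv ℝ (fun y => gs y ^ 2) y (e j) = -(y j * gs y ^ 2) := fun y => by
    have := congrFun (pa_smul gs_sm gs_sm j) y
    simp only [smul_eq_mul, pa_gs, ← pow_two] at this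
    exact this.trans (by ring)
  have d' : ∀ y, fderiv ℝ (fun y : V4 => y i) y (e j) = if i = j then 1 else 0 := fun y =>
    congrFun (pa_co i j) y
  have h := integral_mul_fderiv_eq_neg_fderiv_mul_of_integrable (μ := (volume : Measure V4))
    (f := fun y : V4 => y i) (g := fun y => gs y ^ 2) (v := e j)
    (by simp only [d']; exact i0.const_mul _)
    (by simp only [d]; exact i2.neg.congr (Eventually.of_forall fun y => by simp; ring))
    (i1.congr (Eventually.of_forall fun y => mul_comm _ _))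
    (fun y _ => dif (sm_co i) y) fun y _ => dif (gs_sm.pow 2) y
  simp only [d, d', integral_const_mul, mul_neg, integral_neg, neg_inj] at h
  rw [kap, show (fun y : V4 => gs y ^ 2 * (y i * y j)) = fun y => y i * (y j * gs y ^ 2) from
    funext fun y => by ring, h]
  split_ifs <;> simp

/-- the second moments -/
theorem int_quad (B : V4 →L[ℝ] V4 →L[ℝ] ℝ) :
    ∫ y, gs y ^ 2 * B y y = kap * ∑ i, B (e i) (e i) := by
  have p1 : PF fun (_ : Unit) (_ : V4) => (1 : ℝ) := PF.cst 1
  have i2 : ∀ i j, Integrable fun y : V4 => gs y ^ 2 * (y i * y j) * B (e i) (e j) := fun i j => by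
    simpa using (((p1.co j).co i).int ()).mul_const (B (e i) (e j))
  have : ∀ y, gs y ^ 2 * B y y = ∑ i, ∑ j, gs y ^ 2 * (y i * y j) * B (e i) (e j) := fun y => by
    rw [clm_vec B y]
    simp only [ContinuousLinearMap.add_apply, ContinuousLinearMap.smul_apply, clm_vec (B _) y,
      Fin.sum_univ_four, smul_eq_mul]
    ring
  simp only [this]
  rw [integral_finset_sum _ fun i _ => integrable_finset_sum _ fun j _ => i2 i j]
  simp only [integral_finset_sum _ fun j _ => i2 _ j, integral_mul_const, mom, ite_mul, zero_mul,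
    Finset.sum_ite_eq, Finset.mem_univ, if_true, Finset.mul_sum]

theorem int_scale (f : V4 → ℝ) {s : ℝ} (hs : 0 < s) : ∫ x, f (s⁻¹ • x) = s ^ 4 * ∫ y, f y := by
  rw [Measure.integral_comp_inv_smul_of_nonneg volume f hs.le]
  simp

theorem pa_scale {f : V4 → E} (hf : ContDiff ℝ ∞ f) (c : ℝ) (i : Fin 4) :
    pa i (fun x => f (c • x)) = fun x => c • pa i f (c • x) := funext fun x => by
  have := ((dif hf (c • x)).hasFDerivAt.comp x ((hasFDerivAt_id x).const_smul c)).fderiv
  rw [pa, show (fun x => f (c • x)) = f ∘ HSMul.hSMul c from rfl, this]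
  simp [pa]

/-- differentiation under the integral sign -/
theorem der_int {G G' : ℝ → V4 → ℝ} {K : Set V4} (hK : IsCompact K)
    (h0 : ∀ s x, x ∉ K → G s x = 0) (h0' : ∀ s x, x ∉ K → G' s x = 0)
    (hc : ∀ s, 0 < s → Continuous (G s))
    (hc' : ContinuousOn (fun q : ℝ × V4 => G' q.1 q.2) (Ioi 0 ×ˢ univ))
    (hd : ∀ s, 0 < s → ∀ x, HasDerivAt (fun s => G s x) (G' s x) s) {s : ℝ} (hs : 0 < s) :
    HasDerivAt (fun s => ∫ x, G s x) (∫ x, G' s x) s := by
  obtain ⟨C, hC⟩ := ((isCompact_Icc (a := s / 2) (b := 2 * s)).prod hK).exists_bound_of_continuousOn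
    (hc'.mono (prod_mono (fun t ht => lt_of_lt_of_le (half_pos hs) ht.1) (subset_univ _)))
  have c' : Continuous (G' s) := hc'.comp_continuous (continuous_const.prodMk continuous_id)
    fun x => ⟨hs, trivial⟩
  have n : Icc (s / 2) (2 * s) ∈ 𝓝 s := Icc_mem_nhds (by linarith) (by linarith)
  refine (hasDerivAt_integral_of_dominated_loc_of_deriv_le (bound := K.indicator fun _ => C) n
    ((eventually_gt_nhds hs).mono fun t ht => (hc t ht).aestronglyMeasurable)
    ((hc s hs).integrable_of_hasCompactSupport (HasCompactSupport.intro hK (h0 s)))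
    c'.aestronglyMeasurable (Eventually.of_forall fun x t ht => ?_)
    ((integrableOn_const hK.measure_lt_top.ne).integrable_indicator hK.measurableSet)
    (Eventually.of_forall fun x t ht => hd t (lt_of_lt_of_le (half_pos hs) ht.1) x)).2
  by_cases hx : x ∈ K
  · rw [indicator_of_mem hx]; exact hC (t, x) ⟨ht, hx⟩
  · rw [indicator_of_notMem hx, h0' t x hx, norm_zero]

end Vale.Agent.P247J.Heat
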