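import Vale.Agent.P247J.Sta

/-!
# P247J, row GAUGE: affine changes of coordinates and changes of gauge
-/

set_option linter.all false

open scoped ContDiff Topology
open Set MeasureTheory Filter

noncomputable section

namespace Vale.Agent.P247J

open Vale.Agent.P204.GX Vale.Agent.P204.T4 Vale.Agent.P247E
open Vale.Agent.P247.H74 (e)

namespace Gauge

variable {𝒜 : Type} [NormedRing 𝒜] [NormedAlgebra ℝ 𝒜]

/-- the covariant derivative in an algebra -/
def cA (A : Fin 4 → V4 → 𝒜) (i : Fin 4) (f : V4 → 𝒜) (y : V4) : 𝒜 :=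
  fderiv ℝ f y (e i) + A i y * f y

theorem lapA_eq (a : Fin 4 → Fin 4 → V4 → ℝ) (h : Fin 4 → V4 → ℝ) (A : Fin 4 → V4 → 𝒜)
    (E f : V4 → 𝒜) (y : V4) : lapA a h A E f y =
    -∑ i, ∑ j, a i j y • cA A i (cA A j f) y + ∑ i, h i y • cA A i f y + E y * f y := rfl

theorem pd_sm {B : Type} [NormedAddCommGroup B] [NormedSpace ℝ B] {f : V4 → B}
    (hf : ContDiff ℝ ∞ f) (v : V4) : ContDiff ℝ ∞ fun y => fderiv ℝ f y v :=
  (hf.fderiv_right (m := ∞) le_rfl).clm_apply contDiff_const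

theorem dif {B : Type} [NormedAddCommGroup B] [NormedSpace ℝ B] {f : V4 → B}
    (hf : ContDiff ℝ ∞ f) (y : V4) : DifferentiableAt ℝ f y := hf.differentiable (by simp) y

variable {A : Fin 4 → V4 → 𝒜}

theorem cA_sm (hA : ∀ i, ContDiff ℝ ∞ (A i)) {f : V4 → 𝒜} (hf : ContDiff ℝ ∞ f) (i : Fin 4) :
    ContDiff ℝ ∞ (cA A i f) := (pd_sm hf _).add ((hA i).mul hf)

theorem cA_sum (c : Fin 4 → ℝ) {f : Fin 4 → V4 → 𝒜} (hf : ∀ j, ContDiff ℝ ∞ (f j)) (i : Fin 4)
    (y : V4) : cA A i (fun y => ∑ j, c j • f j y) y = ∑ j, c j • cA A i (f j) y := by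
  have h : HasFDerivAt (fun y => ∑ j, c j • f j y) (∑ j, c j • fderiv ℝ (f j) y) y :=
    HasFDerivAt.fun_sum fun j _ => (dif (hf j) y).hasFDerivAt.fun_const_smul (c j)
  simp only [cA, h.fderiv, ContinuousLinearMap.sum_apply, ContinuousLinearMap.smul_apply,
    Finset.mul_sum, mul_smul_comm, smul_add, Finset.sum_add_distrib]

theorem pd_mul {f g : V4 → 𝒜} (hf : ContDiff ℝ ∞ f) (hg : ContDiff ℝ ∞ g) (y v : V4) :
    fderiv ℝ (fun y => f y * g y) y v = f y * fderiv ℝ g y v + fderiv ℝ f y v * g y := by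
  rw [((dif hf y).hasFDerivAt.fun_mul' (dif hg y).hasFDerivAt).fderiv]
  simp

theorem pd_symm {B : Type} [NormedAddCommGroup B] [NormedSpace ℝ B] {f : V4 → B}
    (hf : ContDiff ℝ ∞ f) (y u v : V4) :
    fderiv ℝ (fun y => fderiv ℝ f y v) y u = fderiv ℝ (fun y => fderiv ℝ f y u) y v := by
  have h1 := dif (hf.fderiv_right (m := ∞) le_rfl) y
  have h2 : ∀ v u, fderiv ℝ (fun y => fderiv ℝ f y v) y u = fderiv ℝ (fderiv ℝ f) y u v :=
    fun v u => by rw [fderiv_clm_apply h1 (differentiableAt_const _)]; simp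
  rw [h2, h2]
  exact (hf.contDiffAt.isSymmSndFDerivAt (by simp; exact ENat.LEInfty.out)).eq _ _

theorem cA_comm (hA : ∀ i, ContDiff ℝ ∞ (A i)) {f : V4 → 𝒜} (hf : ContDiff ℝ ∞ f) (k l : Fin 4)
    (y : V4) : cA A k (cA A l f) y - cA A l (cA A k f) y = cur A k l y * f y := by
  have h : ∀ k l, cA A k (cA A l f) y = fderiv ℝ (fun y => fderiv ℝ f y (e l)) y (e k) +
      (A l y * fderiv ℝ f y (e k) + fderiv ℝ (A l) y (e k) * f y) +
      A k y * (fderiv ℝ f y (e l) + A l y * f y) := fun k l => by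
    rw [← pd_mul (hA l) hf, ← ContinuousLinearMap.add_apply,
      ← fderiv_fun_add (dif (pd_sm hf _) y) (dif ((hA l).mul hf) y)]
    rfl
  rw [h, h, pd_symm hf y (e k) (e l), cur]
  noncomm_ring

theorem lapA_congr {a a' : Fin 4 → Fin 4 → V4 → ℝ} {h h' : Fin 4 → V4 → ℝ}
    {A' : Fin 4 → V4 → 𝒜} {E E' f : V4 → 𝒜} {y : V4} (h1 : ∀ i j, a i j y = a' i j y)
    (h2 : ∀ i, h i y = h' i y) (h3 : ∀ i, A i =ᶠ[𝓝 y] A' i) (h4 : E y = E' y) :
    lapA a h A E f y = lapA a' h' A' E' f y := by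
  have k1 : ∀ i, cA A i f =ᶠ[𝓝 y] cA A' i f := fun i => by
    filter_upwards [h3 i] with z hz
    rw [cA, cA, hz]
  have k2 : ∀ i j, cA A i (cA A j f) y = cA A' i (cA A' j f) y := fun i j => by
    rw [cA, (k1 j).fderiv_eq, (k1 j).eq_of_nhds, (h3 i).eq_of_nhds]
    rfl
  simp only [lapA_eq, h1, h2, h4, k2, fun i => (k1 i).eq_of_nhds]

theorem cA_zero {f : V4 → 𝒜} {y : V4} (h : f =ᶠ[𝓝 y] fun _ => 0) (i : Fin 4) :
    cA A i f =ᶠ[𝓝 y] fun _ => 0 := by
  filter_upwards [h.eventuallyEq_nhds] with z hz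
  simp [cA, hz.fderiv_eq, hz.eq_of_nhds]

theorem lapA_zero (a : Fin 4 → Fin 4 → V4 → ℝ) (h : Fin 4 → V4 → ℝ) (E : V4 → 𝒜) {f : V4 → 𝒜}
    {y : V4} (hf : f =ᶠ[𝓝 y] fun _ => 0) : lapA a h A E f y = 0 := by
  simp [lapA_eq, fun i => (cA_zero (A := A) hf i).eq_of_nhds, hf.eq_of_nhds,
    fun i j => (cA_zero (A := A) (cA_zero (A := A) hf j) i).eq_of_nhds]

/-! ### the affine maps -/

/-- the normal coordinates -/
def Ph (N : M4) (p y : V4) : V4 := app N (y - p)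

/-- the inverse of `Ph` -/
def Ps (N' : M4) (p x : V4) : V4 := p + app N' x

/-- a matrix as a continuous linear map -/
def cl (N : M4) : V4 →L[ℝ] V4 := LinearMap.toContinuousLinearMap (appL N)

theorem cl_e (N : M4) (k : Fin 4) : cl N (e k) = ∑ i, N i k • e i := by
  funext j
  show app N (e k) j = _
  simp [app, e, Pi.single_apply, Finset.sum_apply]

theorem hd_Ph (N : M4) (p y : V4) : HasFDerivAt (Ph N p) (cl N) y := by
  have h := (cl N).hasFDerivAt.comp y ((hasFDerivAt_id y).sub_const p)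
  rw [ContinuousLinearMap.comp_id] at h
  exact h

theorem hd_Ps (N : M4) (p y : V4) : HasFDerivAt (Ps N p) (cl N) y :=
  (cl N).hasFDerivAt.const_add p

theorem sm_Ph (N : M4) (p : V4) : ContDiff ℝ ∞ (Ph N p) :=
  (cl N).contDiff.comp (contDiff_id.sub contDiff_const)

theorem sm_Ps (N : M4) (p : V4) : ContDiff ℝ ∞ (Ps N p) := contDiff_const.add (cl N).contDiff

theorem delta {N N' : M4} (h : ∀ v, app N (app N' v) = v) (i j : Fin 4) :
    ∑ k, N i k * N' k j = if i = j then 1 else 0 := by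
  simpa [app, e, Pi.single_apply] using congrFun (h (e j)) i

/-- the data of a change of coordinates and of gauge -/
structure TD (𝒜 : Type) [NormedRing 𝒜] [NormedAlgebra ℝ 𝒜] where
  p : V4
  N : M4
  N' : M4
  G : V4 → 𝒜
  G' : V4 → 𝒜
  hN : ∀ v, app N (app N' v) = v
  hN' : ∀ v, app N' (app N v) = v
  det : 0 < det4 N
  sm : ContDiff ℝ ∞ G
  sm' : ContDiff ℝ ∞ G'
  GG' : ∀ x, G x * G' x = 1
  G0 : G 0 = 1

namespace TD

variable (t : TD 𝒜)

theorem Ps_Ph (y : V4) : Ps t.N' t.p (Ph t.N t.p y) = y := by rw [Ps, Ph, t.hN', add_sub_cancel]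

theorem Ph_Ps (x : V4) : Ph t.N t.p (Ps t.N' t.p x) = x := by
  rw [Ps, Ph, add_sub_cancel_left, t.hN]

theorem Ps_zero : Ps t.N' t.p 0 = t.p := by
  rw [Ps, show app t.N' 0 = 0 from (cl t.N').map_zero, add_zero]

theorem Ph_p : Ph t.N t.p t.p = 0 := by
  rw [Ph, sub_self]
  exact (cl t.N).map_zero

/-- the transformed connection -/
def tA (A : Fin 4 → V4 → 𝒜) (i : Fin 4) (x : V4) : 𝒜 :=
  t.G' x * (∑ k, t.N' k i • A k (Ps t.N' t.p x)) * t.G x + t.G' x * fderiv ℝ t.G x (e i)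

/-- the transformed principal part -/
def ta (a : Fin 4 → Fin 4 → V4 → ℝ) (i j : Fin 4) (x : V4) : ℝ :=
  ∑ k, ∑ l, t.N i k * t.N j l * a k l (Ps t.N' t.p x)

/-- the transformed first order part -/
def tH (h : Fin 4 → V4 → ℝ) (i : Fin 4) (x : V4) : ℝ := ∑ k, t.N i k * h k (Ps t.N' t.p x)

/-- the transformed potential -/
def tE (E : V4 → 𝒜) (x : V4) : 𝒜 := t.G' x * E (Ps t.N' t.p x) * t.G x

/-- the transformed density -/
def tρ (ρ : V4 → ℝ) (x : V4) : ℝ := (det4 t.N)⁻¹ * ρ (Ps t.N' t.p x)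

/-- the transformation of functions -/
def T (u : V4 → 𝒜) (y : V4) : 𝒜 := t.G (Ph t.N t.p y) * u (Ph t.N t.p y)

theorem T_sm {u : V4 → 𝒜} (hu : ContDiff ℝ ∞ u) : ContDiff ℝ ∞ (t.T u) :=
  (t.sm.mul hu).comp (sm_Ph _ _)

theorem tA_sm (hA : ∀ i, ContDiff ℝ ∞ (A i)) (i : Fin 4) : ContDiff ℝ ∞ (t.tA A i) :=
  ((t.sm'.mul (ContDiff.sum fun k _ => ((hA k).comp (sm_Ps _ _)).const_smul _)).mul t.sm).add
    (t.sm'.mul (pd_sm t.sm _))

theorem cA_T {u : V4 → 𝒜} (hu : ContDiff ℝ ∞ u) (k : Fin 4) :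
    cA A k (t.T u) = t.T fun x => ∑ i, t.N i k • cA (t.tA A) i u x := by
  funext y
  have h1 : fderiv ℝ (t.T u) y (e k) =
      ∑ i, t.N i k • fderiv ℝ (fun x => t.G x * u x) (Ph t.N t.p y) (e i) := by
    have h := ((dif (t.sm.mul hu) (Ph t.N t.p y)).hasFDerivAt.comp y (hd_Ph t.N t.p y)).fderiv
    refine (congrArg (fun L : V4 →L[ℝ] 𝒜 => L (e k)) h).trans ?_
    simp only [ContinuousLinearMap.comp_apply, cl_e, map_sum, map_smul]
  have h2 : A k y = ∑ i, t.N i k • ∑ l, t.N' l i • A l y := by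
    simp only [Finset.smul_sum, smul_smul]
    rw [Finset.sum_comm]
    simp only [← Finset.sum_smul, mul_comm (t.N _ k), delta t.hN']
    simp
  rw [cA, h1, h2, T, T, Finset.sum_mul, Finset.mul_sum, ← Finset.sum_add_distrib]
  refine Finset.sum_congr rfl fun i _ => ?_
  rw [mul_smul_comm, smul_mul_assoc, ← smul_add, pd_mul t.sm hu, cA, tA, t.Ps_Ph]
  simp only [mul_add, add_mul, ← mul_assoc, t.GG', one_mul]
  congr 1
  abel

theorem cA_cA_T (hA : ∀ i, ContDiff ℝ ∞ (A i)) {u : V4 → 𝒜} (hu : ContDiff ℝ ∞ u) (k l : Fin 4) :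
    cA A k (cA A l (t.T u)) = t.T fun x => ∑ i, ∑ j, (t.N i k * t.N j l) •
      cA (t.tA A) i (cA (t.tA A) j u) x := by
  have h := fun j => cA_sm (t.tA_sm hA) hu j
  rw [t.cA_T hu, t.cA_T (ContDiff.sum fun j _ => (h j).const_smul _)]
  simp only [cA_sum _ h, Finset.smul_sum, smul_smul]

theorem lapA_T (hA : ∀ i, ContDiff ℝ ∞ (A i)) {u : V4 → 𝒜} (hu : ContDiff ℝ ∞ u)
    (a : Fin 4 → Fin 4 → V4 → ℝ) (h : Fin 4 → V4 → ℝ) (E : V4 → 𝒜) :
    lapA a h A E (t.T u) = t.T (lapA (t.ta a) (t.tH h) (t.tA A) (t.tE E) u) := by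
  funext y
  simp only [lapA_eq, t.cA_cA_T hA hu]
  simp only [t.cA_T hu, T, lapA_eq, ta, tH, tE, t.Ps_Ph, mul_add, mul_neg, Finset.mul_sum,
    mul_smul_comm, Finset.smul_sum, Finset.sum_smul, smul_smul, ← mul_assoc, t.GG', one_mul]
  congr 2
  · congr 1
    rw [Finset.sum_congr rfl fun k _ => Finset.sum_comm, Finset.sum_comm]
    refine Finset.sum_congr rfl fun i _ => ?_
    rw [Finset.sum_congr rfl fun k _ => Finset.sum_comm, Finset.sum_comm]
    refine Finset.sum_congr rfl fun j _ => Finset.sum_congr rfl fun k _ =>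
      Finset.sum_congr rfl fun l _ => ?_
    congr 1
    ring
  · rw [Finset.sum_comm]
    simp only [mul_comm]

theorem cur_T (hA : ∀ i, ContDiff ℝ ∞ (A i)) (i j : Fin 4) :
    cur (t.tA A) i j 0 = frc t.N' (fun k l => cur A k l t.p) i j := by
  have h0 : ContDiff ℝ ∞ fun _ : V4 => (1 : 𝒜) := contDiff_const
  have h1 : ∀ k l, cur A k l t.p = ∑ i, ∑ j, (t.N i k * t.N j l) • cur (t.tA A) i j 0 := by
    intro k l
    have h2 := cA_comm hA (t.T_sm h0) k l t.p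
    rw [t.cA_cA_T hA h0, t.cA_cA_T hA h0] at h2
    simp only [T, t.Ph_p, t.G0, one_mul, mul_one] at h2
    rw [← h2, Finset.sum_comm (f := fun i j => (t.N i l * t.N j k) • _), ← Finset.sum_sub_distrib]
    refine Finset.sum_congr rfl fun i _ => ?_
    rw [← Finset.sum_sub_distrib]
    refine Finset.sum_congr rfl fun j _ => ?_
    rw [mul_comm (t.N j l), ← smul_sub, cA_comm (t.tA_sm hA) h0, mul_one]
  have h3 : ∀ a b, ∑ k, ∑ l, t.N' k i * t.N' l j * (t.N a k * t.N b l) =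
      (if a = i then 1 else 0) * if b = j then 1 else 0 := fun a b => by
    rw [← delta t.hN, ← delta t.hN, Finset.sum_mul_sum]
    exact Finset.sum_congr rfl fun k _ => Finset.sum_congr rfl fun l _ => by ring
  simp only [frc, h1, Finset.smul_sum, smul_smul]
  rw [Finset.sum_congr rfl fun k _ => Finset.sum_comm, Finset.sum_comm,
    Finset.sum_congr rfl fun a _ => (Finset.sum_congr rfl fun k _ => Finset.sum_comm).trans
      Finset.sum_comm]
  simp only [← Finset.sum_smul, h3]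
  simp

theorem cov (g : V4 → ℝ) : ∫ y, g y = ∫ x, (det4 t.N)⁻¹ * g (Ps t.N' t.p x) := by
  have h := integral_image_eq_integral_abs_det_fderiv_smul volume MeasurableSet.univ
    (fun x _ => (hd_Ps t.N' t.p x).hasFDerivWithinAt)
    (fun x _ y _ h => by rw [← t.Ph_Ps x, h, t.Ph_Ps]) g
  have h1 : Ps t.N' t.p '' univ = univ := eq_univ_of_forall fun y => ⟨_, trivial, t.Ps_Ph y⟩
  have h2 : ∀ N : M4, (cl N).det = det4 N := fun N => by
    rw [det4_eq_det, ← LinearMap.det_toLin']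
    rfl
  have h3 : (cl t.N).det * (cl t.N').det = 1 := by
    have : (cl t.N : V4 →ₗ[ℝ] V4) ∘ₗ (cl t.N' : V4 →ₗ[ℝ] V4) = LinearMap.id := LinearMap.ext t.hN
    rw [ContinuousLinearMap.det, ContinuousLinearMap.det, ← LinearMap.det_comp, this,
      LinearMap.det_id]
  rw [h2] at h3
  rw [h1, Measure.restrict_univ, eq_inv_of_mul_eq_one_right h3, abs_of_pos (inv_pos.2 t.det)] at h
  exact h

end TD

end Gauge

end Vale.Agent.P247J
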