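import Vale.Agent.P247J.Gau

/-!
# P247J: the coefficients of the operator and the formal solution
-/

set_option linter.all false

open scoped ContDiff Topology
open Set Filter MeasureTheory

noncomputable section

namespace Vale.Agent.P247J.Heat

open Vale.Agent.P204.T4 Vale.Agent.P247E
open Vale.Agent.P247.H74 (e)

section cut

variable {Λ E : Type} [NormedAddCommGroup E] [NormedSpace ℝ E]

theorem sml {c : V4 → ℝ} {f : V4 → E} (hc : ContDiff ℝ ∞ c) (hf : ContDiff ℝ ∞ f) :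
    ContDiff ℝ ∞ fun y => c y • f y := hc.smul hf

theorem scl {f : V4 → E} (hf : ContDiff ℝ ∞ f) (s : ℝ) : ContDiff ℝ ∞ fun y => f (s • y) :=
  hf.comp (contDiff_const_smul s)

/-- the cut-off function -/
def cut : ContDiffBump (0 : V4) := ⟨1, 3 / 2, by norm_num, by norm_num⟩

theorem cut_tame (Λ : Type) : Tame fun _ : Λ => (cut : V4 → ℝ) := by
  refine ⟨fun _ => cut.contDiff, fun k => ?_⟩
  obtain ⟨C, hC⟩ := ((cut.contDiff (n := ⊤)).continuous_iteratedFDeriv (m := k)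
    (by exact_mod_cast le_top)).bounded_above_of_compact_support
    (cut.hasCompactSupport.iteratedFDeriv (𝕜 := ℝ) k)
  exact ⟨C, fun _ => hC⟩

theorem cut_zero {x : V4} (h : 3 / 2 ≤ ‖x‖) : cut x = 0 :=
  cut.zero_of_le_dist (by simpa [cut] using h)

theorem pa_ev {f : V4 → E} {c : E} (h : f =ᶠ[𝓝 0] fun _ => c) (i : Fin 4) :
    pa i f =ᶠ[𝓝 0] fun _ => 0 := (h.fderiv (𝕜 := ℝ)).mono fun y k => by simp [pa, k]

theorem exp_const [CompleteSpace E] {f : Λ → V4 → E} (h : Tame f) {c : E}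
    (k : ∀ p, f p =ᶠ[𝓝 0] fun _ => c) : OO 5 fun p s y => f p (s • y) - c :=
  h.exp.rem.congr fun p s _ y => by
    simp [ev, tc_zero, tc_eq_zero k, (k p).eq_of_nhds]

theorem ev_sm {q0 q1 q2 q3 q4 : Λ → V4 → E} (p0 : PF q0) (p1 : PF q1) (p2 : PF q2) (p3 : PF q3)
    (p4 : PF q4) (p : Λ) (s : ℝ) : ContDiff ℝ ∞ (ev q0 q1 q2 q3 q4 p s) :=
  ((((p0.sm p).add ((p1.sm p).const_smul s)).add ((p2.sm p).const_smul _)).add
    ((p3.sm p).const_smul _)).add ((p4.sm p).const_smul _)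

theorem dh_ev {q0 q1 q2 q3 q4 : Λ → V4 → E} (p0 : PF q0) (p1 : PF q1) (p2 : PF q2) (p3 : PF q3)
    (p4 : PF q4) (p : Λ) (s : ℝ) (i : Fin 4) : dh i (ev q0 q1 q2 q3 q4 p s) =
      ev (fun p => dh i (q0 p)) (fun p => dh i (q1 p)) (fun p => dh i (q2 p))
        (fun p => dh i (q3 p)) (fun p => dh i (q4 p)) p s := by
  have s1 := (p1.sm p).const_smul s
  have s2 := (p2.sm p).const_smul (s ^ 2)
  have s3 := (p3.sm p).const_smul (s ^ 3)
  have s4 := (p4.sm p).const_smul (s ^ 4)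
  unfold ev
  rw [dh_add ((((p0.sm p).add s1).add s2).add s3) s4, dh_add (((p0.sm p).add s1).add s2) s3,
    dh_add ((p0.sm p).add s1) s2, dh_add (p0.sm p) s1, dh_csmul _ (p1.sm p), dh_csmul _ (p2.sm p),
    dh_csmul _ (p3.sm p), dh_csmul _ (p4.sm p)]

/-- multiplication by the rescaled cut-off function -/
def ct (Φ : Λ → ℝ → V4 → E) (p : Λ) (s : ℝ) (y : V4) : E := cut (s • y) • Φ p s y

theorem cut_sm (s : ℝ) : ContDiff ℝ ∞ fun y : V4 => cut (s • y) :=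
  cut.contDiff.comp (contDiff_const_smul s)

theorem Exp.ct {Φ : Λ → ℝ → V4 → E} {f0 f1 f2 f3 f4 : Λ → V4 → E} (h : Exp Φ f0 f1 f2 f3 f4) :
    Exp (ct Φ) f0 f1 f2 f3 f4 :=
  (h.add_oo ((exp_const (c := 1) (cut_tame Λ) fun _ => cut.eventuallyEq_one).bil
    (ContinuousLinearMap.lsmul ℝ ℝ) h.oo)).congr fun p s _ y => by
    simp [Heat.ct, sub_smul]

theorem exp_ct {q0 q1 q2 q3 q4 : Λ → V4 → E} (p0 : PF q0) (p1 : PF q1) (p2 : PF q2) (p3 : PF q3)
    (p4 : PF q4) : (∀ i, Exp (fun p s => dh i (ct (ev q0 q1 q2 q3 q4) p s)) (fun p => dh i (q0 p))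
      (fun p => dh i (q1 p)) (fun p => dh i (q2 p)) (fun p => dh i (q3 p)) fun p => dh i (q4 p)) ∧
    ∀ i j, Exp (fun p s => dh i (dh j (ct (ev q0 q1 q2 q3 q4) p s)))
      (fun p => dh i (dh j (q0 p))) (fun p => dh i (dh j (q1 p))) (fun p => dh i (dh j (q2 p)))
      (fun p => dh i (dh j (q3 p))) fun p => dh i (dh j (q4 p)) := by
  have e0 := Exp.poly p0 p1 p2 p3 p4
  have e1 := fun i => Exp.poly (p0.dh i) (p1.dh i) (p2.dh i) (p3.dh i) (p4.dh i)
  have e2 := fun i j => Exp.poly ((p0.dh j).dh i) ((p1.dh j).dh i) ((p2.dh j).dh i)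
    ((p3.dh j).dh i) ((p4.dh j).dh i)
  have s0 := ev_sm p0 p1 p2 p3 p4
  have s1 := fun i => ev_sm (p0.dh i) (p1.dh i) (p2.dh i) (p3.dh i) (p4.dh i)
  have c1 := fun i => (((exp_const ((cut_tame Λ).pa i) fun _ =>
    pa_ev cut.eventuallyEq_one i).pow 1).mono (k := 5) (by norm_num))
  have c2 := fun i j => (((exp_const (((cut_tame Λ).pa j).pa i) fun _ =>
    pa_ev (pa_ev cut.eventuallyEq_one j) i).pow 2).mono (k := 5) (by norm_num))
  have sc : ∀ (s : ℝ) i, ContDiff ℝ ∞ fun y => s • pa i cut (s • y) := fun s i =>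
    ((pa_sm cut.contDiff i).comp (contDiff_const_smul s)).const_smul s
  have d1 : ∀ p s i, dh i (ct (ev q0 q1 q2 q3 q4) p s) = fun y => cut (s • y) •
      ev (fun p => dh i (q0 p)) (fun p => dh i (q1 p)) (fun p => dh i (q2 p))
        (fun p => dh i (q3 p)) (fun p => dh i (q4 p)) p s y +
      (s • pa i cut (s • y)) • ev q0 q1 q2 q3 q4 p s y := fun p s i => by
    unfold ct
    rw [dh_smul (cut_sm s) (s0 p s), pa_scale cut.contDiff, dh_ev p0 p1 p2 p3 p4]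
  refine ⟨fun i => ((e1 i).ct.add_oo ((c1 i).bil (ContinuousLinearMap.lsmul ℝ ℝ) e0.oo)).congr
    fun p s _ y => by simp [d1, ct], fun i j => ((((e2 i j).ct.add_oo ((c1 i).bil
    (ContinuousLinearMap.lsmul ℝ ℝ) (e1 j).oo)).add_oo ((c1 j).bil (ContinuousLinearMap.lsmul ℝ ℝ)
    (e1 i).oo)).add_oo ((c2 i j).bil (ContinuousLinearMap.lsmul ℝ ℝ) e0.oo)).congr
    fun p s _ y => ?_⟩
  rw [d1, dh_add (sml (cut_sm s) (s1 j p s)) (sml (sc s j) (s0 p s)),
    dh_smul (cut_sm s) (s1 j p s), dh_smul (sc s j) (s0 p s), pa_scale cut.contDiff,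
    dh_ev p0 p1 p2 p3 p4, dh_ev (p0.dh j) (p1.dh j) (p2.dh j) (p3.dh j) (p4.dh j),
    pa_csmul s (scl (pa_sm cut.contDiff j) s),
    pa_scale (pa_sm cut.contDiff j)]
  simp only [ct, ContinuousLinearMap.lsmul_apply, sub_zero, pow_one, smul_smul, pow_two, add_assoc]

/-- the time derivative of the term of order `k` -/
def nn (k : ℝ) (q : Λ → V4 → E) (p : Λ) (y : V4) : E := (k - 4) • q p y - ∑ i, y i • dh i (q p) y

theorem PF.nn {q : Λ → V4 → E} (h : PF q) (k : ℝ) : PF (nn k q) :=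
  (h.csmul _).sub (PF.sum _ fun i => (h.dh i).co i)

theorem nn_eq {q : Λ → V4 → E} (h : PF q) (k : ℝ) (p : Λ) (y : V4) :
    nn k q p y = tj k (q p) y + (2 : ℝ) • ∑ i, dh i (dh i (q p)) y := by
  have : ∀ i, dh i (dh i (q p)) y = pa i (pa i (q p)) y - (1 / 2 : ℝ) • q p y - y i • pa i (q p) y
      + (y i ^ 2 / 4) • q p y := fun i => by
    have h1 : dh i (q p) = fun y => pa i (q p) y + (-(1 / 2) : ℝ) • y i • q p y :=
      funext fun y => by simp only [dh]; module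
    rw [dh, h1, pa_add (pa_sm (h.sm p) i) ((sml (sm_co i) (h.sm p)).const_smul _),
      pa_csmul _ (sml (sm_co i) (h.sm p)), pa_smul (sm_co i) (h.sm p), pa_co]
    simp only [if_true]
    module
  simp only [this]
  simp only [nn, tj, eu, la, dh, Fin.sum_univ_four]
  module

end cut

variable {Λ 𝒜 : Type} [NormedRing 𝒜] [NormedAlgebra ℝ 𝒜] [StarRing 𝒜] {σ : 𝒜 →L[ℝ] ℝ}
  (D : LD σ Λ)

/-- the first order coefficients -/
def Bc (i : Fin 4) (p : Λ) (x : V4) : 𝒜 :=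
  (-2 : ℝ) • ∑ j, D.a p i j x • D.A p j x + D.h p i x • (1 : 𝒜)

/-- the zero order coefficient -/
def Cc (p : Λ) (x : V4) : 𝒜 :=
  (-1 : ℝ) • ∑ i, ∑ j, D.a p i j x • (pa i (D.A p j) x + D.A p i x * D.A p j x) +
    ∑ i, D.h p i x • D.A p i x + D.E p x

theorem lap_eq (p : Λ) {f : V4 → 𝒜} (hf : ContDiff ℝ ∞ f) (x : V4) :
    lapA (D.a p) (D.h p) (D.A p) (D.E p) f x = -∑ i, ∑ j, D.a p i j x • pa i (pa j f) x +
      ∑ i, Bc D i p x * pa i f x + Cc D p x * f x := by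
  have c : ∀ j, cd (fun i y => ContinuousLinearMap.mul ℝ 𝒜 (D.A p i y)) j f =
      fun y => pa j f y + ContinuousLinearMap.mul ℝ 𝒜 (D.A p j y) (f y) := fun j => rfl
  have c2 : ∀ i j, cd (fun i y => ContinuousLinearMap.mul ℝ 𝒜 (D.A p i y)) i
      (cd (fun i y => ContinuousLinearMap.mul ℝ 𝒜 (D.A p i y)) j f) x = pa i (pa j f) x +
        (pa i (D.A p j) x * f x + D.A p j x * pa i f x) +
        D.A p i x * (pa j f x + D.A p j x * f x) := fun i j => by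
    have := congrFun (pa_add (g := fun y => ContinuousLinearMap.mul ℝ 𝒜 (D.A p j y) (f y))
      (pa_sm hf j) (((D.tA j).sm p).mul hf) i) x
    rw [pa_bil (ContinuousLinearMap.mul ℝ 𝒜) ((D.tA j).sm p) hf i] at this
    rw [c j]
    exact congrArg (· + _) this
  simp only [lapA, lap, c2]
  simp only [c, Bc, Cc, ContinuousLinearMap.mul_apply', Fin.sum_univ_four, D.a_symm p 1 0,
    D.a_symm p 2 0, D.a_symm p 3 0, D.a_symm p 2 1, D.a_symm p 3 1, D.a_symm p 3 2, mul_add,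
    add_mul, smul_mul_assoc, one_mul, mul_assoc]
  module

theorem lap_sm (p : Λ) {f : V4 → 𝒜} (hf : ContDiff ℝ ∞ f) :
    ContDiff ℝ ∞ (lapA (D.a p) (D.h p) (D.A p) (D.E p) f) := by
  have c : ∀ i {g : V4 → 𝒜}, ContDiff ℝ ∞ g →
      ContDiff ℝ ∞ (cd (fun i y => ContinuousLinearMap.mul ℝ 𝒜 (D.A p i y)) i g) :=
    fun i g hg => (pa_sm hg i).add (((D.tA i).sm p).mul hg)
  exact ((ContDiff.sum fun i _ => ContDiff.sum fun j _ => ((D.ta i j).sm p).smul
    (c i (c j hf))).neg.add (ContDiff.sum fun i _ => ((D.th i).sm p).smul (c i hf))).add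
    ((D.tE.sm p).mul hf)

theorem lap_zero (p : Λ) {f : V4 → 𝒜} {x : V4} (h : f =ᶠ[𝓝 x] fun _ => 0) :
    lapA (D.a p) (D.h p) (D.A p) (D.E p) f x = 0 := by
  have c : ∀ i {g : V4 → 𝒜}, (g =ᶠ[𝓝 x] fun _ => 0) →
      cd (fun i y => ContinuousLinearMap.mul ℝ 𝒜 (D.A p i y)) i g =ᶠ[𝓝 x] fun _ => 0 :=
    fun i g hg => by
      filter_upwards [hg, hg.fderiv (𝕜 := ℝ)] with y h1 h2
      simp [cd, h1, h2]
  simp [lapA, lap, (c _ (c _ h)).eq_of_nhds, (c _ h).eq_of_nhds, h.eq_of_nhds]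

/-- the linear part of the connection -/
def al (p : Λ) (l : Fin 4) : V4 →L[ℝ] 𝒜 := fderiv ℝ (D.A p l) 0

variable [FiniteDimensional ℝ 𝒜] [CompleteSpace 𝒜] (hσ : Str σ)
include hσ

theorem A_mem (p : Λ) (i : Fin 4) (x : V4) : D.A p i x ∈ F1 σ := by
  have := hσ.st (D.A p i x)
  rw [D.A_skew, map_neg] at this
  show σ _ = 0
  linarith

/-- the formal solution -/
theorem exists_formal : ∃ q0 q1 q2 q3 q4 : Λ → V4 → 𝒜, (q0 = fun _ _ => 1) ∧ PF q1 ∧ PF q2 ∧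
    PF q3 ∧ PF q4 ∧ (∀ p y, q1 p y ∈ F0 𝒜) ∧ (∀ p y, q2 p y - e2 (al D p) (D.E p 0) y ∈ F0 𝒜) ∧
    (∀ p y, q2 p y ∈ F1 σ) ∧ (∀ p y, q3 p y ∈ F1 σ) ∧
    (∀ p y, σ (q4 p y) = s4 (al D p) (D.E p 0) σ y) ∧
    OO 5 fun p s y => ct (ev (nn 0 q0) (nn 1 q1) (nn 2 q2) (nn 3 q3) (nn 4 q4)) p s y + (2 : ℝ) •
      ((-1 : ℝ) • ∑ i, ∑ j, D.a p i j (s • y) • dh i (dh j (ct (ev q0 q1 q2 q3 q4) p s)) y +
        s • ∑ i, Bc D i p (s • y) * dh i (ct (ev q0 q1 q2 q3 q4) p s) y +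
        s • s • (Cc D p (s • y) * ct (ev q0 q1 q2 q3 q4) p s y)) := by
  have Ea := fun i j => (D.ta i j).exp.congr' (g0 := fun _ _ => if i = j then 1 else 0)
    (fun p y => by rw [tc_zero, D.a_zero]) (fun _ _ => rfl) (fun _ _ => rfl) (fun _ _ => rfl)
    fun _ _ => rfl
  have EA := fun i => (D.tA i).exp.congr' (g0 := fun _ _ => 0) (g1 := fun p y => al D p i y)
    (fun p y => by rw [tc_zero, D.A_zero]) (fun p y => by rw [tc_one, al]) (fun _ _ => rfl)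
    (fun _ _ => rfl) fun _ _ => rfl
  have Eh := fun i => (D.th i).exp
  have EB := fun i => ((Exp.sum Finset.univ fun j => (Ea i j).smul (EA j)).csmul (-2)).add
    ((Eh i).clm ((ContinuousLinearMap.id ℝ ℝ).smulRight (1 : 𝒜)))
  have EC := (((Exp.sum Finset.univ fun i => Exp.sum Finset.univ fun j => (Ea i j).smul
    (((D.tA j).pa i).exp.add ((EA i).bil (ContinuousLinearMap.mul ℝ 𝒜) (EA j)))).csmul (-1)).add
    (Exp.sum Finset.univ fun i => (Eh i).smul (EA i))).add D.tE.exp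
  have mA := fun i => tc_mem (D.tA i) fun p => A_mem D hσ p i
  have mal : ∀ p l y, al D p l y ∈ F1 σ := fun p l y => by simpa only [tc_one, al] using mA l 1 p y
  have mE := tc_mem (W := F1 σ) D.tE D.E_tr
  have md := fun i j => tc_mem ((D.tA j).pa i) fun p =>
    pa_mem ((D.tA j).sm p) (A_mem D hσ p j) i
  have one : ∀ c : ℝ, ((ContinuousLinearMap.id ℝ ℝ).smulRight (1 : 𝒜)) c ∈ F0 𝒜 := fun c =>
    Submodule.smul_mem _ _ one_mem0
  have z : ∀ {a : 𝒜}, a ∈ F1 σ ↔ σ a = 0 := Iff.rfl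
  simp only [z] at mA mal mE md
  obtain ⟨q0, q1, q2, q3, q4, h0, p1, p2, p3, p4, m1, m2, m2', m3, m4, t1, t2, t3, t4⟩ :=
    exists_q hσ (al := al D) (E0 := fun p => D.E p 0) (fun i j => (Ea i j).p1)
      (fun i j => (Ea i j).p2) (fun i j => (Ea i j).p3) (fun i j => (Ea i j).p4)
      (fun i => (EB i).p0) (fun i => (EB i).p1) (fun i => (EB i).p2) (fun i => (EB i).p3)
      EC.p0 EC.p1 EC.p2 (fun l => (EA l).p1) (D.tE.exp.p0.congr fun p y => (tc_zero _ p y).symm)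
      (fun i p y => by simpa using one _) (fun i p y => by simpa using one _)
      (fun i p y => by simp [z, mA, mal, hσ.one, apply_ite σ]) (fun i p y => by simp [z, mA, mal, hσ.one, apply_ite σ])
      (fun p y => by simp [tc_zero, pa, al, sub_eq_add_neg, add_comm])
      (fun p y => by simp [z, mal, mE, md, apply_ite σ])
      (fun p y => by simp [mA, mal, mE, md, apply_ite σ]) mal fun p => D.E_tr p 0
  have p0 : PF q0 := h0 ▸ PF.cst 1
  obtain ⟨x1, x2⟩ := exp_ct p0 p1 p2 p3 p4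
  have EZ := (Exp.poly (p0.nn 0) (p1.nn 1) (p2.nn 2) (p3.nn 3) (p4.nn 4)).ct.add
    (((((Exp.sum Finset.univ fun i => Exp.sum Finset.univ fun j => (Ea i j).smul (x2 i j)).csmul
      (-1)).add (Exp.sum Finset.univ fun i => (EB i).bil (ContinuousLinearMap.mul ℝ 𝒜)
      (x1 i)).shift).add (EC.bil (ContinuousLinearMap.mul ℝ 𝒜)
      (Exp.poly p0 p1 p2 p3 p4).ct).shift.shift).csmul 2)
  have t0 : ∀ p y, tj 0 (q0 p) y = 0 := fun p y => by rw [h0, tj_const, zero_smul]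
  refine ⟨q0, q1, q2, q3, q4, h0, p1, p2, p3, p4, m1, m2, m2', m3, m4,
    (EZ.congr' (g0 := fun _ _ => 0) (g1 := fun _ _ => 0) (g2 := fun _ _ => 0) (g3 := fun _ _ => 0)
      (g4 := fun _ _ => 0) (fun p y => ?_) (fun p y => ?_) (fun p y => ?_) (fun p y => ?_)
      fun p y => ?_).rem.congr fun p s _ y => by
        simp only [ev, smul_zero, add_zero, sub_zero]; rfl⟩
  all_goals
    simp only [nn_eq p0, nn_eq p1, nn_eq p2, nn_eq p3, nn_eq p4, t0, t1, t2, t3, t4, xx, yy,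
      ContinuousLinearMap.mul_apply', Finset.sum_add_distrib, ite_smul, one_smul, zero_smul,
      Finset.sum_ite_eq, Finset.mem_univ, if_true]
    module

end Vale.Agent.P247J.Heat
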