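import Vale.Agent.P247J.Sta
import Vale.Agent.P247P.Hod
import Vale.Agent.P247A.Dic4
import Vale.Agent.P247M.MarkN

/-!
# P247J: the rows `NOQ` and `NO0`
-/

set_option linter.all false

open scoped ContDiff Topology Quaternion
open Set MeasureTheory

noncomputable section

namespace Vale.Agent.P247J

open Vale.Agent.P204.GX Vale.Agent.P204.T4 Vale.Agent.P247E
open Vale.Agent.P247.H74 (e)
open Vale.Agent.P247.H647 (Sp)
open Vale.Agent.P247I (tm ph ph')

namespace Noq

theorem cur_swap (A : Fin 4 → V4 → ℍ) (i j : Fin 4) (y : V4) : cur A i j y = -cur A j i y := by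
  simp only [cur]
  abel

theorem der_re {f : V4 → ℍ} (h : ContDiff ℝ ∞ f) (k : ∀ y, (f y).re = 0) (y v : V4) :
    (fderiv ℝ f y v).re = 0 := by
  let R : ℍ →L[ℝ] ℝ := LinearMap.toContinuousLinearMap (QuaternionAlgebra.reₗ _ _ _)
  have h1 := (R.hasFDerivAt.comp y (h.differentiable (by simp) y).hasFDerivAt).fderiv
  rw [show R ∘ f = fun _ => 0 from funext k, fderiv_const_apply] at h1
  exact (congrArg (fun T : V4 →L[ℝ] ℝ => T v) h1).symm

theorem cur_re {A : Fin 4 → V4 → ℍ} (h : ∀ k, ContDiff ℝ ∞ (A k)) (k : ∀ k y, (A k y).re = 0)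
    (i j : Fin 4) (y : V4) : (cur A i j y).re = 0 := by
  simp [cur, der_re (h _) (k _)]
  ring

theorem frc_swap (n : M4) {F : Fin 4 → Fin 4 → ℍ} (h : ∀ i j, F i j = -F j i) (i j : Fin 4) :
    frc n F i j = -frc n F j i := by
  rw [frc, frc, Finset.sum_comm, ← Finset.sum_neg_distrib]
  refine Finset.sum_congr rfl fun k _ => ?_
  rw [← Finset.sum_neg_distrib]
  exact Finset.sum_congr rfl fun l _ => by rw [h l k, smul_neg, mul_comm]

theorem frc_re (n : M4) {F : Fin 4 → Fin 4 → ℍ} (h : ∀ i j, (F i j).re = 0) (i j : Fin 4) :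
    (frc n F i j).re = 0 := by
  simp [frc, Fin.sum_univ_four, h]

theorem frc_zero (n : M4) (y : V4) :
    (frc n fun i j => cur (0 : Fin 4 → V4 → ℍ) i j y) = 0 := by
  funext i j
  simp [frc, cur]

theorem vq_be (n' : V4 → M4) (k : Fin 4) (y : V4) : vq (be n' uq k y) = fun d => n' y k d := by
  funext d
  fin_cases d <;> simp only [vq, be, Fin.sum_univ_four, Quaternion.re_add, Quaternion.imI_add,
    Quaternion.imJ_add, Quaternion.imK_add, Quaternion.re_smul, Quaternion.imI_smul,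
    Quaternion.imJ_smul, Quaternion.imK_smul] <;> simp [uq, qv, e]

theorem vq_be' (n' : V4 → M4) (k : Fin 4) (y : V4) :
    vq (be n' (fun d => star (uq d)) k y) = cq fun d => n' y k d := by
  funext d
  fin_cases d <;> simp only [vq, be, Fin.sum_univ_four, Quaternion.re_add, Quaternion.imI_add,
    Quaternion.imJ_add, Quaternion.imK_add, Quaternion.re_smul, Quaternion.imI_smul,
    Quaternion.imJ_smul, Quaternion.imK_smul, Quaternion.re_star, Quaternion.imI_star,
    Quaternion.imJ_star, Quaternion.imK_star] <;> simp [uq, qv, e, cq]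

theorem det_pos {X : Type} [MetricSpace X] (Q : QM X) (a : Q.A) (y : V4) :
    0 < det4 (Q.n a y) := by
  have h := Q.m_det a y
  have k : det4 (Rq (Q.p a y)) = (∑ c, Q.p a y c ^ 2) ^ 2 := by
    simp [det4, mn, Rq, Fin.sum_univ_four]
    ring
  rwa [Q.m_eq, det4_mm, k, Q.p_unit, one_pow, one_mul] at h

end Noq

open Noq in
/-- **the formula of Noether** -/
theorem noq_of (h1 : LCE_statement) (h2 : LCD_statement) (h3 : ALG_statement)
    (h4 : DIR_statement) (h5 : OPS_statement) : NOQ_statement := by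
  intro X _ _ _ _ _ Q L H hH
  obtain ⟨B₁, B₂, b1, b2, h5⟩ := h5
  choose ap am lc using fun a => h1 _ _ (Q.n_smooth a) (Q.n'_smooth a) (Q.n_n' a) (Q.n'_n a)
  have k := fun a => h2 _ _ (Q.n_smooth a) (Q.n'_smooth a) (Q.n_n' a) (Q.n'_n a) (det_pos Q a)
    _ _ (lc a)
  choose Γ w1 w2 using fun a => (k a).1
  have al := fun a y => h3 _ _ (frc_swap _ fun i j => cur_swap _ i j y)
    (frc_swap _ fun i j => cur_swap _ i j y)
    (frc_re _ fun i j => cur_re (lc a).p_sm (lc a).p_im i j y)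
    (frc_re _ fun i j => cur_re (lc a).m_sm (lc a).m_im i j y) ((k a).2 y)
  obtain ⟨⟨P₁, p1⟩, ⟨P₂, p2⟩, P₃, p3⟩ := h5 X Q L ap am lc
  have ss : (fun d => star (star (uq d))) = uq := funext fun d => star_star _
  have w3 : ∀ a, WD (Q.n' a) (fun y => det4 (Q.n a y)) (fun d => star (star (uq d))) (ap a) (am a)
    (Γ a) := fun a => by rw [ss]; exact w1 a
  have sc := fun a y => (al a y).1
  have sc' : ∀ a y, ∃ c : ℝ, sq (fun d => star (uq d)) (frc (Q.n' a y) fun i j => cur (am a) i j y)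
      = c ∧ sq (fun d => star (star (uq d))) (frc (Q.n' a y) fun i j => cur (ap a) i j y) = c :=
    fun a y => by rw [ss]; exact (sc a y).imp fun c h => h.symm
  obtain ⟨-, c1, i1⟩ := h4 X Q L B₁ _ _ P₁ _ am ap ap Γ w2 w3 (fun a => (lc a).p_sm)
    (fun a => (lc a).p_im) sc' (fun a => (p1 a).1) fun a => (p1 a).2
  obtain ⟨f2, c2, i2⟩ := h4 X Q L B₁ _ _ P₂ _ am ap 0 Γ w2 w3 (fun a k => contDiff_const)
    (fun a k y => rfl) sc' (fun a => (p2 a).1) fun a => (p2 a).2
  obtain ⟨f3, -, i3⟩ := h4 X Q L B₂ _ _ P₃ _ ap am am Γ w1 w2 (fun a => (lc a).m_sm)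
    (fun a => (lc a).m_im) sc (fun a => (p3 a).1) fun a => (p3 a).2
  have it : ∀ a {f : V4 → ℝ}, Continuous f →
      Integrable fun y => Q.zl a y * rho Q.toCM a y * (kap * f y) := fun a f hf =>
    (((Q.contDiff_zl a).continuous.mul (contDiff_rho a).continuous).mul
      (continuous_const.mul hf)).integrable_of_hasCompactSupport
      (Q.hasCompactSupport_zl a).mul_right.mul_right
  have e1 : (P₃.ind : ℝ) = P₁.ind + 4 * P₂.ind := by
    rw [i1, i2, i3, Finset.mul_sum, ← Finset.sum_add_distrib]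
    refine Finset.sum_congr rfl fun a _ => ?_
    rw [← integral_const_mul, ← integral_add (it a (c1 a)) ((it a (c2 a)).const_mul 4)]
    congr 1
    funext y
    rw [(al a y).2, Pi.zero_apply, frc_zero]
    ring
  have e2 := (ZER X _ _ _ _ _).2 rfl P₂ P₁ f2 (funext fun a => (p1 a).1.trans (p2 a).1.symm)
  have e3 := (ZER X _ _ _ _ _).2 rfl P₃ H f3 (by
    funext a i y
    ext1 w
    rw [hH, (p3 a).1, QR.Mi, b2, vq_be]
    simp only [Q.b_apply])
  have dc := Q.dirac_cliff (LBc.triv Q.toCM)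
  have da := (Q.dirac (LBc.triv Q.toCM)).isAdj_adj
  have e4 := (ZER X _ _ _ _ _).2 rfl P₂ (Hx.Ds Q).neg f2 (by
    funext a i y
    ext1 w
    refine (congrArg Neg.neg (Hx.Ds_Mi Q a i y w)).trans ?_
    rw [neg_neg, (p2 a).1, QR.Mi, b1, vq_be']
    simp only [Q.b_apply])
  rw [Op.neg_ind, P247I.ell.ind_adj rfl da dc] at e4
  have e5 : P₃.ind = P₁.ind + 4 * P₂.ind := by exact_mod_cast e1
  omega

open Vale.Agent.P247X Vale.Agent.P247A Vale.Agent.P247.SCY in
/-- `b⁻ = 19` -/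
theorem no0_of (hE : EVEN_statement) (hN : NOQ_statement) : NO0_statement := by
  intro X i μ h w hw
  obtain ⟨n, G, c, hG, hc, hg, hs, -, h1, h2⟩ := P247M.markN hE h.vol h.bp hw
  obtain ⟨d, hd, Q, b1, -, k, b3⟩ := dict3' X μ h.vol w hw
  obtain ⟨c', k⟩ := k n c ⟨hc, hs, by
    rw [show (Matrix.of fun i j => HS.pair μ (c i) (c j)) = (Int.castRingHom ℝ).mapMatrix G from
      Matrix.ext hg, ← RingHom.map_det]
    exact (hG.unit.map _).ne_zero⟩
  have a1 : @CompactSpace X d.toPseudoMetricSpace.toUniformSpace.toTopologicalSpace :=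
    hd ▸ i.cpt
  have a2 : @ConnectedSpace X d.toPseudoMetricSpace.toUniformSpace.toTopologicalSpace :=
    hd ▸ i.conn
  have a3 : @BorelSpace X d.toPseudoMetricSpace.toUniformSpace.toTopologicalSpace
    i.toMeasurableSpace := hd ▸ i.borel
  have e1 := @hN X d a1 a2 i.toMeasurableSpace a3 Q (.triv _) _
    (@P247P.Hm_Mi X d a1 _ a3 Q)
  have e2 := @P247P.cnt0 X d a1 _ a3 Q a2 (b1 h.b1) n c' k
  have e3 := (@SOLV X d a1 a2 i.toMeasurableSpace a3 Q (.triv _) (b1 h.b1) (b3.2 h.bp) _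
    (@Hx.isHod X d Q _ a3 a1)).2
  refine ⟨by_contra fun k => ?_, fun k => ?_⟩
  · have := h2 19 k
    omega
  · have := h1 20 k
    omega

end Vale.Agent.P247J
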