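import Vale.Agent.P247J.Sta

/-!
# P247J: the spinor space as a quaternionic bimodule
-/

set_option linter.all false

open scoped ContDiff Topology Quaternion RealInnerProductSpace
open Set Filter

noncomputable section

namespace Vale.Agent.P247J

open Vale.Agent.P204.GX Vale.Agent.P204.T4 Vale.Agent.P247E
open Vale.Agent.P247.H74 (e)
open Vale.Agent.P247.H647 (Sp)
open Vale.Agent.P247I (tm ph ph' ph_apply ph'_apply)

namespace Ops

@[simp] theorem qv_re (t : V4) : (qv t).re = t 0 := rfl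
@[simp] theorem qv_imI (t : V4) : (qv t).imI = -t 1 := rfl
@[simp] theorem qv_imJ (t : V4) : (qv t).imJ = -t 2 := rfl
@[simp] theorem qv_imK (t : V4) : (qv t).imK = -t 3 := rfl

/-- `qv` as a linear map -/
def qvL : V4 →L[ℝ] ℍ := LinearMap.toContinuousLinearMap
  { toFun := qv
    map_add' := fun s t => by ext <;> simp <;> ring
    map_smul' := fun c t => by ext <;> simp }

/-- `vq` as a linear map -/
def vqL : ℍ →L[ℝ] V4 := LinearMap.toContinuousLinearMap
  { toFun := vq
    map_add' := fun s t => by funext i; fin_cases i <;> simp [vq] <;> ring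
    map_smul' := fun c t => by funext i; fin_cases i <;> simp [vq] }

theorem qvL_apply (t : V4) : qvL t = qv t := rfl

theorem vqL_apply (q : ℍ) : vqL q = vq q := rfl

theorem qv_vq (q : ℍ) : qv (vq q) = q := by ext <;> simp [vq]

theorem vq_qv (t : V4) : vq (qv t) = t := by funext i; fin_cases i <;> simp [vq]

theorem qv_Rq (p t : V4) : qv (app (Rq p) t) = qv p * qv t := by
  ext <;> simp [app_eq, Rq] <;> ring

theorem qv_cq (p : V4) : qv (cq p) = star (qv p) := by ext <;> simp [cq]

theorem star_mul_qv {p : V4} (h : ∑ c, p c ^ 2 = 1) : star (qv p) * qv p = 1 := by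
  rw [Fin.sum_univ_four] at h
  ext <;> simp <;> linarith

theorem mul_star_qv {p : V4} (h : ∑ c, p c ^ 2 = 1) : qv p * star (qv p) = 1 := by
  rw [Fin.sum_univ_four] at h
  ext <;> simp <;> linarith

theorem sum_Rq (p : V4) (d : Fin 4) : ∑ c, Rq p c d • uq c = qv p * uq d := by
  fin_cases d <;> ext <;> simp [Fin.sum_univ_four, uq, Rq, e]

/-- the quaternion of a spinor -/
def tq : Sp →L[ℝ] ℍ := qvL.comp vecL

theorem tq_apply (v : Sp) : tq v = qv (vec v) := rfl

theorem tq_inj {v w : Sp} (h : tq v = tq w) : v = w := by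
  have := congrArg vq h
  rw [tq_apply, tq_apply, vq_qv, vq_qv] at this
  exact Hx.vec_inj this

theorem tq_spn (t : V4) : tq (spn t) = qv t := by rw [tq_apply, vec_spn]

theorem tq_sgm (t : V4) (v : Sp) : tq (sgm t v) = qv t * tq v := by
  rw [tq_apply, vec_sgm, qv_Rq, tq_apply]

theorem tq_ph (z v : Sp) : tq (ph z v) = tq v * tq z := by
  ext <;> simp [tq_apply, vec_eq, ph_apply] <;> ring

theorem tq_ph' (z v : Sp) : tq (ph' z v) = tq v * star (tq z) := by
  ext <;> simp [tq_apply, vec_eq, ph'_apply] <;> ring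

theorem inner_tq (v w : Sp) : ⟪v, w⟫ = (tq v * star (tq w)).re := by
  simp [Hx.inner_vec, tq_apply, Fin.sum_univ_four]

theorem star_of {S T : Sp →L[ℝ] Sp} {a b : ℍ} (hS : ∀ v, tq (S v) = a * tq v * b)
    (hT : ∀ v, tq (T v) = star a * tq v * star b) : star S = T := by
  rw [ContinuousLinearMap.star_eq_adjoint]
  refine ((ContinuousLinearMap.eq_adjoint_iff T S).2 fun x y => ?_).symm
  rw [inner_tq, inner_tq, hS, hT]
  simp
  ring

/-- coordinates on the spinor space -/
def eqv : Sp ≃ₗ[ℝ] V4 :=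
  { (vecL : Sp →ₗ[ℝ] V4) with
    invFun := spn
    left_inv := spn_vec
    right_inv := vec_spn }

theorem trace_of {T : Sp →L[ℝ] Sp} {a b : ℍ} (hT : ∀ v, tq (T v) = a * tq v * b) :
    LinearMap.trace ℝ Sp (T : Sp →ₗ[ℝ] Sp) = 4 * a.re * b.re := by
  rw [LinearMap.trace_eq_matrix_trace ℝ (Module.Basis.ofEquivFun eqv), Matrix.trace]
  have h : ∀ i, (LinearMap.toMatrix (Module.Basis.ofEquivFun eqv) (Module.Basis.ofEquivFun eqv)
      (T : Sp →ₗ[ℝ] Sp)).diag i = vq (a * uq i * b) i := fun i => by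
    rw [Matrix.diag_apply, LinearMap.toMatrix_apply, Module.Basis.ofEquivFun_repr_apply,
      Module.Basis.coe_ofEquivFun]
    have h1 : vec (T (spn (e i))) = vq (a * uq i * b) := by
      rw [uq, ← tq_spn, ← hT, tq_apply, vq_qv]
    exact congrFun h1 i
  simp only [h, Fin.sum_univ_four]
  simp [vq, uq, e]
  ring

/-- left multiplication -/
def lm : ℍ →L[ℝ] Sp →L[ℝ] Sp := reL.comp (sgmL.comp vqL)

/-- right multiplication -/
def rm : ℍ →L[ℝ] Sp →L[ℝ] Sp := ph.comp (spnL.comp vqL)

/-- right multiplication by the conjugate -/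
def rm' : ℍ →L[ℝ] Sp →L[ℝ] Sp := ph'.comp (spnL.comp vqL)

/-- left multiplication by the conjugate -/
def lm' : ℍ →L[ℝ] Sp →L[ℝ] Sp := reL.comp (sgmL.comp (P247I.cqL.comp vqL))

theorem tq_lm (q : ℍ) (v : Sp) : tq (lm q v) = q * tq v := by
  show tq (sgm (vq q) v) = _
  rw [tq_sgm, qv_vq]

theorem tq_rm (q : ℍ) (v : Sp) : tq (rm q v) = tq v * q := by
  show tq (ph (spn (vq q)) v) = _
  rw [tq_ph, tq_spn, qv_vq]

theorem tq_rm' (q : ℍ) (v : Sp) : tq (rm' q v) = tq v * star q := by
  show tq (ph' (spn (vq q)) v) = _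
  rw [tq_ph', tq_spn, qv_vq]

theorem tq_lm' (q : ℍ) (v : Sp) : tq (lm' q v) = star q * tq v := by
  show tq (sgm (cq (vq q)) v) = _
  rw [tq_sgm, qv_cq, qv_vq]

/-- the bimodule -/
def bi1 : QR Sp where
  l := lm
  r := rm
  l_one := ContinuousLinearMap.ext fun v => tq_inj (by simp [tq_lm])
  r_one := ContinuousLinearMap.ext fun v => tq_inj (by simp [tq_rm])
  l_mul a b := ContinuousLinearMap.ext fun v => tq_inj (by simp [tq_lm, mul_assoc])
  r_mul a b := ContinuousLinearMap.ext fun v => tq_inj (by simp [tq_rm, mul_assoc])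
  comm a b := ContinuousLinearMap.ext fun v => tq_inj (by simp [tq_lm, tq_rm, mul_assoc])
  l_star a := star_of (a := a) (b := 1) (by simp [tq_lm]) (by simp [tq_lm])
  r_star a := star_of (a := 1) (b := a) (by simp [tq_rm]) (by simp [tq_rm])
  tr a b := trace_of fun v => by simp [tq_lm, tq_rm, mul_assoc]

/-- the conjugate bimodule -/
def bi2 : QR Sp where
  l := rm'
  r := lm'
  l_one := ContinuousLinearMap.ext fun v => tq_inj (by simp [tq_rm'])
  r_one := ContinuousLinearMap.ext fun v => tq_inj (by simp [tq_lm'])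
  l_mul a b := ContinuousLinearMap.ext fun v => tq_inj (by simp [tq_rm', mul_assoc])
  r_mul a b := ContinuousLinearMap.ext fun v => tq_inj (by simp [tq_lm', mul_assoc])
  comm a b := ContinuousLinearMap.ext fun v => tq_inj (by simp [tq_lm', tq_rm', mul_assoc])
  l_star a := star_of (a := 1) (b := star a) (by simp [tq_rm']) (by simp [tq_rm'])
  r_star a := star_of (a := star a) (b := 1) (by simp [tq_lm']) (by simp [tq_lm'])
  tr a b := (trace_of (a := star b) (b := star a) fun v => by
    simp [tq_lm', tq_rm', mul_assoc]).trans (by simp; ring)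

/-- symmetric in the first two arguments and skew in the last two -/
theorem braid {ι : Type} {T : ι → ℍ} (hT : Function.Surjective T) {μ δ : ι → ℍ}
    (hμ : ∀ v, (μ v).re = 0) (hδ : ∀ v, (δ v).re = 0)
    (h : ∀ v w, μ v * T w - T w * δ v = μ w * T v - T v * δ w) (v : ι) : μ v = 0 ∧ δ v = 0 := by
  let c : ι → ι → ι → ℝ := fun v w z => ((μ v * T w - T w * δ v) * star (T z)).re
  have c1 : ∀ v w z, c v w z = c w v z := fun v w z => by simp only [c, h v w]
  have c2 : ∀ v w z, c v w z = -c v z w := fun v w z => by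
    simp [c, hμ v, hδ v]; ring
  have c0 : ∀ w z, c v w z = 0 := fun w z => by
    linarith [c1 v w z, c2 w v z, c1 w z v, c2 z w v, c1 z v w, c2 v z w]
  have k : ∀ s t : ℍ, ((μ v * s - s * δ v) * star t).re = 0 := fun s t => by
    obtain ⟨w, rfl⟩ := hT s
    obtain ⟨z, rfl⟩ := hT t
    exact c0 w z
  have a1 := k 1 (uq 1)
  have a2 := k 1 (uq 2)
  have a3 := k 1 (uq 3)
  have a4 := k (uq 1) (uq 2)
  have a5 := k (uq 1) (uq 3)
  have a6 := k (uq 2) (uq 3)
  simp [uq, e] at a1 a2 a3 a4 a5 a6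
  constructor <;> ext <;> simp [hμ v, hδ v] <;> linarith

theorem frame_l {p : V4} (h : ∑ c, p c ^ 2 = 1) (N : Fin 4 → ℍ) :
    ∑ c, star (uq c) * (qv p * ∑ d, Rq p c d • N d) = ∑ d, star (uq d) * N d := by
  simp only [Finset.mul_sum]
  rw [Finset.sum_comm]
  refine Finset.sum_congr rfl fun d _ => ?_
  have : ∀ c, star (uq c) * (qv p * Rq p c d • N d) = star (Rq p c d • uq c) * (qv p * N d) :=
    fun c => by simp
  simp only [this]
  rw [← Finset.sum_mul, ← star_sum, sum_Rq, star_mul, mul_assoc, ← mul_assoc (star (qv p)),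
    star_mul_qv h, one_mul]

theorem frame_r (p : V4) (N : Fin 4 → ℍ) :
    ∑ c, (qv p * ∑ d, Rq p c d • N d) * star (uq c) =
      qv p * ((∑ d, N d * star (uq d)) * star (qv p)) := by
  simp only [Finset.mul_sum, Finset.sum_mul]
  rw [Finset.sum_comm]
  refine Finset.sum_congr rfl fun d _ => ?_
  have : ∀ c, (qv p * Rq p c d • N d) * star (uq c) = (qv p * N d) * star (Rq p c d • uq c) :=
    fun c => by simp
  simp only [this]
  rw [← Finset.mul_sum, ← star_sum, sum_Rq, star_mul]
  simp only [mul_assoc]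

end Ops

end Vale.Agent.P247J
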