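import Vale.Agent.P247J.Ops1

/-!
# P247J: the transformation law of the Levi-Civita connection
-/

set_option linter.all false

open scoped ContDiff Topology Quaternion RealInnerProductSpace
open Set Filter

noncomputable section

namespace Vale.Agent.P247J

open Vale.Agent.P204.GX Vale.Agent.P204.T4 Vale.Agent.P247E
open Vale.Agent.P247.H74 (e)

namespace Ops

/-- the coframe as a linear map -/
def TL (n : V4 → M4) (y : V4) : V4 →L[ℝ] ℍ :=
  ∑ l, (ContinuousLinearMap.proj l : V4 →L[ℝ] ℝ).smulRight (th n l y)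

/-- the value of a one-form -/
def cvl (α : Fin 4 → V4 → ℍ) (y v : V4) : ℍ := ∑ k, v k • α k y

theorem TL_apply (n : V4 → M4) (y v : V4) : TL n y v = ∑ l, v l • th n l y := by
  simp [TL]

theorem TL_eq (n : V4 → M4) (y v : V4) : TL n y v = qv (app (n y) v) := by
  rw [TL_apply]
  ext <;> simp [Fin.sum_univ_four, th, app_eq] <;> ring

theorem sm_th {n : V4 → M4} (hn : ContDiff ℝ ∞ n) (l : Fin 4) : ContDiff ℝ ∞ (th n l) :=
  qvL.contDiff.comp (contDiff_pi.2 fun c => contDiff_pi.1 (contDiff_pi.1 hn c) l)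

theorem sm_TL {n : V4 → M4} (hn : ContDiff ℝ ∞ n) : ContDiff ℝ ∞ (TL n) :=
  ContDiff.sum fun l _ => contDiff_const.smulRight (sm_th hn l)

theorem fd_TL {n : V4 → M4} (hn : ContDiff ℝ ∞ n) (y v w : V4) :
    fderiv ℝ (TL n) y v w = ∑ l, w l • fderiv ℝ (th n l) y v := by
  have h1 : HasFDerivAt (fun z => TL n z w) _ y :=
    (((sm_TL hn).differentiable (by simp) y).hasFDerivAt.clm_apply (hasFDerivAt_const w y))
  have h2 : HasFDerivAt (fun z => TL n z w) (∑ l, w l • fderiv ℝ (th n l) y) y := by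
    simp only [TL_apply]
    exact HasFDerivAt.fun_sum fun l _ =>
      (((sm_th hn l).differentiable (by simp) y).hasFDerivAt.const_smul (w l))
  have := congrArg (fun T : V4 →L[ℝ] ℍ => T v) (h1.unique h2)
  simpa using this

theorem cvl_re {α : Fin 4 → V4 → ℍ} (h : ∀ k y, (α k y).re = 0) (y v : V4) :
    (cvl α y v).re = 0 := by
  simp [cvl, Fin.sum_univ_four, h]

theorem tf' {n : V4 → M4} {ap am : Fin 4 → V4 → ℍ} (hn : ContDiff ℝ ∞ n) (h : IsLC n ap am)
    (y v w : V4) :
    fderiv ℝ (TL n) y v w + (cvl am y v * TL n y w - TL n y w * cvl ap y v) =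
      fderiv ℝ (TL n) y w v + (cvl am y w * TL n y v - TL n y v * cvl ap y w) := by
  have k : ∀ v w : V4,
      fderiv ℝ (TL n) y v w + (cvl am y v * TL n y w - TL n y w * cvl ap y v) =
      ∑ k, ∑ l, (v k * w l) • (fderiv ℝ (th n l) y (e k) +
        (am k y * th n l y - th n l y * ap k y)) := fun v w => by
    rw [fd_TL hn, TL_apply]
    simp only [fun l => clm_vec (fderiv ℝ (th n l) y) v, cvl, Fin.sum_univ_four, smul_add,
      smul_sub, add_mul, mul_add, smul_mul_assoc, mul_smul_comm, smul_smul]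
    simp only [mul_comm (w _) (v _)]
    abel
  rw [k, k, Finset.sum_comm]
  refine Finset.sum_congr rfl fun l _ => Finset.sum_congr rfl fun k _ => ?_
  rw [h.tf, mul_comm]

/-- the conjugation as a linear map -/
def stL : ℍ →L[ℝ] ℍ := qvL.comp (P247I.cqL.comp vqL)

theorem stL_apply (q : ℍ) : stL q = star q := by
  show qv (cq (vq q)) = _
  rw [qv_cq, qv_vq]

/-- the transformation law -/
theorem law {na nb : V4 → M4} {pa ma pb mb : Fin 4 → V4 → ℍ} (hna : ContDiff ℝ ∞ na)
    (hnb : ContDiff ℝ ∞ nb) (ha : IsLC na pa ma) (hb : IsLC nb pb mb) {τ : V4 → V4} {q : V4 → ℍ}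
    {y : V4} (hs : Function.Surjective (TL na y)) (hτ : ContDiffAt ℝ ∞ τ y)
    (hq : DifferentiableAt ℝ q y) (h1 : ∀ᶠ z in 𝓝 y, star (q z) * q z = 1)
    (h2 : ∀ᶠ z in 𝓝 y, ∀ w, TL nb (τ z) (fderiv ℝ τ z w) = q z * TL na z w) (v : V4) :
    cvl mb (τ y) (fderiv ℝ τ y v) * q y + fderiv ℝ q y v = q y * cvl ma y v ∧
      cvl pb (τ y) (fderiv ℝ τ y v) = cvl pa y v := by
  have dτ := (hτ.differentiableAt (by simp)).hasFDerivAt
  have d2 := ((hτ.fderiv_right (m := ∞) (by simp)).differentiableAt (by simp)).hasFDerivAt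
  have sy := (hτ.isSymmSndFDerivAt (by simp; exact WithTop.coe_le_coe.2 le_top)).eq
  have da := ((sm_TL hna).differentiable (by simp) y).hasFDerivAt
  have db := ((sm_TL hnb).differentiable (by simp) (τ y)).hasFDerivAt
  have u1 := h1.self_of_nhds
  have u2 := h2.self_of_nhds
  have k : ∀ v w, TL nb (τ y) (fderiv ℝ (fderiv ℝ τ) y v w) +
      fderiv ℝ (TL nb) (τ y) (fderiv ℝ τ y v) (fderiv ℝ τ y w) =
      q y * fderiv ℝ (TL na) y v w + fderiv ℝ q y v * TL na y w := fun v w => by
    have a1 := (db.comp y dτ).clm_apply (d2.clm_apply (hasFDerivAt_const w y))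
    have a2 := hq.hasFDerivAt.mul' (da.clm_apply (hasFDerivAt_const w y))
    have a3 := a2.congr_of_eventuallyEq (f₁ := fun z => TL nb (τ z) (fderiv ℝ τ z w))
      (h2.mono fun z hz => hz w)
    have := congrArg (fun T : V4 →L[ℝ] ℍ => T v) (a1.unique a3)
    simpa [add_comm] using this
  have im : ∀ v, (star (q y) * fderiv ℝ q y v).re = 0 := fun v => by
    have a0 : HasFDerivAt (fun z => star (q z)) (stL.comp (fderiv ℝ q y)) y := by
      simpa only [Function.comp_def, stL_apply] using stL.hasFDerivAt.comp y hq.hasFDerivAt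
    have a1 := a0.mul' hq.hasFDerivAt
    have a2 := (hasFDerivAt_const (𝕜 := ℝ) (1 : ℍ) y).congr_of_eventuallyEq
      (f₁ := fun z => star (q z) * q z) h1
    have := congrArg (fun T : V4 →L[ℝ] ℍ => (T v).re) (a1.unique a2)
    simp [stL_apply] at this ⊢
    linarith
  have br := braid (T := TL na y) hs
    (μ := fun v => star (q y) * (cvl mb (τ y) (fderiv ℝ τ y v) * q y + fderiv ℝ q y v) -
      cvl ma y v) (δ := fun v => cvl pb (τ y) (fderiv ℝ τ y v) - cvl pa y v)
    (fun v => by
      have a1 := cvl_re hb.m_im (τ y) (fderiv ℝ τ y v)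
      rw [mul_add, Quaternion.re_sub, Quaternion.re_add, im, cvl_re ha.m_im]
      simp [a1]; ring)
    (fun v => by rw [Quaternion.re_sub, cvl_re hb.p_im, cvl_re ha.p_im, sub_zero])
    (fun v w => by
      have a1 := tf' hna ha y v w
      have a2 := tf' hnb hb (τ y) (fderiv ℝ τ y v) (fderiv ℝ τ y w)
      have a3 := k v w
      have a4 := k w v
      rw [u2, u2] at a2
      rw [sy v w] at a3
      have c : ∀ s t : ℍ, q y * s = q y * t → s = t := fun s t h => by
        rw [← one_mul s, ← one_mul t, ← u1, mul_assoc, h, mul_assoc]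
      have u3 : ∀ t, q y * (star (q y) * t) = t := fun t => by
        rw [← mul_assoc, Quaternion.self_mul_star, ← Quaternion.star_mul_self, u1, one_mul]
      apply c
      simp only [mul_sub, sub_mul, mul_add, add_mul, mul_assoc, u3] at a2 ⊢
      have a5 := congrArg (fun t => q y * t) a1
      simp only [mul_sub, mul_add] at a5
      linear_combination (norm := abel1) a2 - a5 - a3 + a4) v
  refine ⟨?_, sub_eq_zero.1 br.2⟩
  rw [← sub_eq_zero.1 br.1, ← mul_assoc, Quaternion.self_mul_star, ← Quaternion.star_mul_self, u1,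
    one_mul]

end Ops

end Vale.Agent.P247J
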