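import Vale.Agent.P247J.Sta

/-!
# P247J: bounded families of polynomials, the operators `j + N - 2 Δ`
-/

set_option linter.all false

open scoped ContDiff Topology
open Set Filter

noncomputable section

namespace Vale.Agent.P247J.Heat

open Vale.Agent.P204.T4 Vale.Agent.P247E
open Vale.Agent.P247.H74 (e)

variable {Λ E F G : Type} [NormedAddCommGroup E] [NormedSpace ℝ E] [NormedAddCommGroup F]
  [NormedSpace ℝ F] [NormedAddCommGroup G] [NormedSpace ℝ G]

/-- partial derivatives -/
def pa (i : Fin 4) (f : V4 → E) (y : V4) : E := fderiv ℝ f y (e i)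

theorem pa_sm {f : V4 → E} (h : ContDiff ℝ ∞ f) (i : Fin 4) : ContDiff ℝ ∞ (pa i f) :=
  (h.fderiv_right (m := ∞) (by simp)).clm_apply contDiff_const

theorem dif {f : V4 → E} (h : ContDiff ℝ ∞ f) (y : V4) : DifferentiableAt ℝ f y :=
  h.differentiable (by simp) y

theorem pa_add {f g : V4 → E} (hf : ContDiff ℝ ∞ f) (hg : ContDiff ℝ ∞ g) (i : Fin 4) :
    pa i (fun y => f y + g y) = fun y => pa i f y + pa i g y := funext fun y => by
  simp only [pa, fderiv_fun_add (dif hf y) (dif hg y), ContinuousLinearMap.add_apply]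

theorem pa_const (c : E) (i : Fin 4) : pa i (fun _ => c) = fun _ => 0 := funext fun y => by
  simp [pa]

theorem pa_clm (L : E →L[ℝ] F) {f : V4 → E} (hf : ContDiff ℝ ∞ f) (i : Fin 4) :
    pa i (fun y => L (f y)) = fun y => L (pa i f y) := funext fun y => by
  have := (L.hasFDerivAt.comp y (dif hf y).hasFDerivAt).fderiv
  simp only [pa]
  rw [show (fun y => L (f y)) = L ∘ f from rfl, this]
  rfl

theorem pa_bil (B : E →L[ℝ] F →L[ℝ] G) {f : V4 → E} {g : V4 → F} (hf : ContDiff ℝ ∞ f)
    (hg : ContDiff ℝ ∞ g) (i : Fin 4) : pa i (fun y => B (f y) (g y)) =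
      fun y => B (pa i f y) (g y) + B (f y) (pa i g y) := funext fun y => by
  simp only [pa]
  rw [(B.hasFDerivAt_of_bilinear (dif hf y).hasFDerivAt (dif hg y).hasFDerivAt).fderiv]
  simp [add_comm]

theorem pa_smul {φ : V4 → ℝ} {f : V4 → E} (hφ : ContDiff ℝ ∞ φ) (hf : ContDiff ℝ ∞ f) (i : Fin 4) :
    pa i (fun y => φ y • f y) = fun y => pa i φ y • f y + φ y • pa i f y :=
  pa_bil (ContinuousLinearMap.lsmul ℝ ℝ) hφ hf i

theorem pa_csmul (c : ℝ) {f : V4 → E} (hf : ContDiff ℝ ∞ f) (i : Fin 4) :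
    pa i (fun y => c • f y) = fun y => c • pa i f y :=
  pa_clm (c • ContinuousLinearMap.id ℝ E) hf i

theorem sm_co (l : Fin 4) : ContDiff ℝ ∞ fun y : V4 => y l := contDiff_apply ℝ ℝ l

theorem pa_co (l i : Fin 4) : pa i (fun y : V4 => y l) = fun _ => if l = i then 1 else 0 :=
  funext fun y => by
    rw [pa, show (fun y : V4 => y l) = ContinuousLinearMap.proj (R := ℝ) (φ := fun _ => ℝ) l from
      rfl, ContinuousLinearMap.fderiv]
    simp [e, Pi.single_apply]

theorem pa_lin (L : V4 →L[ℝ] E) (i : Fin 4) : pa i L = fun _ => L (e i) := funext fun y => by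
  rw [pa, L.fderiv]

theorem pa_sum {ι : Type} (s : Finset ι) {f : ι → V4 → E} (hf : ∀ k, ContDiff ℝ ∞ (f k))
    (i : Fin 4) : pa i (fun y => ∑ k ∈ s, f k y) = fun y => ∑ k ∈ s, pa i (f k) y :=
  funext fun y => by
    simp only [pa, fderiv_fun_sum fun k _ => dif (hf k) y, ContinuousLinearMap.sum_apply]

/-- the Euler operator -/
def eu (f : V4 → E) (y : V4) : E := ∑ i, y i • pa i f y

/-- the Laplacian -/
def la (f : V4 → E) (y : V4) : E := ∑ i, pa i (pa i f) y

/-- `j + N - 2 Δ` -/
def tj (j : ℝ) (f : V4 → E) (y : V4) : E := j • f y + eu f y - (2 : ℝ) • la f y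

theorem tj_add (j : ℝ) {f g : V4 → E} (hf : ContDiff ℝ ∞ f) (hg : ContDiff ℝ ∞ g) (y : V4) :
    tj j (fun y => f y + g y) y = tj j f y + tj j g y := by
  simp only [tj, eu, la, pa_add hf hg, pa_add (pa_sm hf _) (pa_sm hg _), smul_add,
    Finset.sum_add_distrib]
  abel

theorem tj_clm (j : ℝ) (L : E →L[ℝ] F) {f : V4 → E} (hf : ContDiff ℝ ∞ f) (y : V4) :
    tj j (fun y => L (f y)) y = L (tj j f y) := by
  simp only [tj, eu, la, pa_clm L hf, pa_clm L (pa_sm hf _), map_sub, map_add, map_smul, map_sum]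

theorem tj_csmul (j c : ℝ) {f : V4 → E} (hf : ContDiff ℝ ∞ f) (y : V4) :
    tj j (fun y => c • f y) y = c • tj j f y := tj_clm j (c • ContinuousLinearMap.id ℝ E) hf y

theorem tj_const (j : ℝ) (c : E) (y : V4) : tj j (fun _ => c) y = j • c := by
  simp [tj, eu, la, pa_const]

theorem tj_bil (j k : ℝ) (B : E →L[ℝ] F →L[ℝ] G) {f : V4 → E} {g : V4 → F} (hf : ContDiff ℝ ∞ f)
    (hg : ContDiff ℝ ∞ g) (y : V4) : tj (j + k) (fun y => B (f y) (g y)) y =
      B (tj j f y) (g y) + B (f y) (tj k g y) - (4 : ℝ) • ∑ i, B (pa i f y) (pa i g y) := by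
  have s : ∀ {f : V4 → E} {g : V4 → F}, ContDiff ℝ ∞ f → ContDiff ℝ ∞ g →
      ContDiff ℝ ∞ fun y => B (f y) (g y) := fun hf hg => (B.contDiff.comp hf).clm_apply hg
  simp only [tj, eu, la, pa_bil B hf hg, pa_add (s (pa_sm hf _) hg) (s hf (pa_sm hg _)),
    pa_bil B (pa_sm hf _) hg, pa_bil B hf (pa_sm hg _), map_add, map_sub, map_smul, map_sum,
    ContinuousLinearMap.add_apply, ContinuousLinearMap.sub_apply, ContinuousLinearMap.smul_apply,
    ContinuousLinearMap.sum_apply, Fin.sum_univ_four]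
  module

/-- families of polynomials of degree `< n` with bounded coefficients -/
inductive PD : ℕ → (Λ → V4 → E) → Prop
  | zero (n : ℕ) : PD n fun _ _ => 0
  | const (n : ℕ) (w : Λ → E) (C : ℝ) (h : ∀ p, ‖w p‖ ≤ C) : PD (n + 1) fun p _ => w p
  | mul (n : ℕ) (i : Fin 4) (f : Λ → V4 → E) : PD n f → PD (n + 1) fun p y => y i • f p y
  | add (n : ℕ) (f g : Λ → V4 → E) : PD n f → PD n g → PD n fun p y => f p y + g p y

namespace PD

variable {n : ℕ} {f : Λ → V4 → E}

theorem sm (h : PD n f) (p : Λ) : ContDiff ℝ ∞ (f p) := by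
  induction h with
  | zero => exact contDiff_const
  | const => exact contDiff_const
  | mul _ i _ _ ih => exact (sm_co i).smul ih
  | add _ _ _ _ _ i1 i2 => exact i1.add i2

theorem succ (h : PD n f) : PD (n + 1) f := by
  induction h with
  | zero => exact zero _
  | const _ w C h => exact const _ w C h
  | mul _ i _ _ ih => exact mul _ i _ ih
  | add _ _ _ _ _ i1 i2 => exact add _ _ _ i1 i2

theorem mono {m : ℕ} (h : PD n f) (hm : n ≤ m) : PD m f := by
  induction hm with
  | refl => exact h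
  | step _ ih => exact ih.succ

theorem eq0 (h : PD n f) (h0 : n = 0) : f = fun _ _ => 0 := by
  induction h with
  | zero => rfl
  | const => omega
  | mul => omega
  | add _ _ _ _ _ i1 i2 => rw [i1 h0, i2 h0]; simp

theorem congr {g : Λ → V4 → E} (h : PD n f) (e : ∀ p y, g p y = f p y) : PD n g := by
  rwa [show g = f from funext fun p => funext (e p)]

theorem mul' (i : Fin 4) (h : PD (n - 1) f) : PD n fun p y => y i • f p y := by
  cases n with
  | zero => exact (zero 0).congr fun p y => by rw [h.eq0 rfl, smul_zero]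
  | succ n => exact mul n i f h

theorem clm (h : PD n f) (L : Λ → E →L[ℝ] F) (C : ℝ) (hL : ∀ p, ‖L p‖ ≤ C) :
    PD n fun p y => L p (f p y) := by
  induction h with
  | zero => exact (zero _).congr fun p y => map_zero _
  | const _ w D h =>
    exact const _ _ (C * D) fun p => ((L p).le_opNorm _).trans (mul_le_mul (hL p) (h p)
      (norm_nonneg _) ((norm_nonneg _).trans (hL p)))
  | mul _ i _ _ ih => exact (mul _ i _ ih).congr fun p y => map_smul _ _ _
  | add _ _ _ _ _ i1 i2 => exact (add _ _ _ i1 i2).congr fun p y => map_add _ _ _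

theorem csmul (h : PD n f) (c : ℝ) : PD n fun p y => c • f p y :=
  h.clm (fun _ => c • ContinuousLinearMap.id ℝ E) _ fun _ => le_rfl

theorem sum {ι : Type} (s : Finset ι) {g : ι → Λ → V4 → E} (h : ∀ k, PD n (g k)) :
    PD n fun p y => ∑ k ∈ s, g k p y := by
  classical
  induction s using Finset.induction_on with
  | empty => exact (zero n).congr fun p y => Finset.sum_empty
  | insert a s ha ih => exact (add _ _ _ (h a) ih).congr fun p y => Finset.sum_insert ha

theorem pa (h : PD n f) (i : Fin 4) : PD (n - 1) fun p => pa i (f p) := by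
  induction h with
  | zero => exact (zero _).congr fun p y => by rw [pa_const]
  | const => exact (zero _).congr fun p y => by rw [pa_const]
  | mul _ l g hg ih =>
    exact (add _ _ _ (hg.csmul (if l = i then 1 else 0)) (ih.mul' l)).congr fun p y => by
      rw [pa_smul (sm_co l) (hg.sm p), pa_co]
  | add _ _ _ h1 h2 i1 i2 =>
    exact (add _ _ _ i1 i2).congr fun p y => by rw [pa_add (h1.sm p) (h2.sm p)]

theorem eu (h : PD n f) : PD (n - 1) fun p y => eu (f p) y - ((n : ℝ) - 1) • f p y := by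
  induction h with
  | zero => exact (zero _).congr fun p y => by simp [Heat.eu, pa_const]
  | const m w C h =>
    cases m with
    | zero => exact (zero _).congr fun p y => by simp [Heat.eu, pa_const]
    | succ m =>
      exact ((const m w C h).csmul (-(m + 1 : ℝ))).congr fun p y => by
        simp only [Heat.eu, pa_const, smul_zero, Finset.sum_const_zero]
        push_cast
        module
  | mul m l g hg ih =>
    exact (ih.mul' l).congr fun p y => by
      simp only [Heat.eu, pa_smul (sm_co l) (hg.sm p), pa_co, smul_add, Finset.sum_add_distrib,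
        ite_smul, one_smul, zero_smul, smul_ite, smul_zero, Finset.sum_ite_eq, Finset.mem_univ,
        if_true, smul_sub, Finset.smul_sum, smul_comm (y l)]
      push_cast
      module
  | add _ _ _ h1 h2 i1 i2 =>
    exact (add _ _ _ i1 i2).congr fun p y => by
      simp only [Heat.eu, pa_add (h1.sm p) (h2.sm p), smul_add, Finset.sum_add_distrib]
      abel

theorem tj_sub (j : ℝ) (h : PD (n + 1) f) :
    PD n fun p y => tj j (f p) y - (j + n) • f p y :=
  (add _ _ _ h.eu ((sum Finset.univ fun i => ((h.pa i).pa i).mono (m := n) (by omega)).csmul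
    (-2))).congr fun p y => by
    simp only [tj, la]
    push_cast
    module

theorem solve {j : ℝ} (hj : 0 < j) (h : PD n f) :
    ∃ u : Λ → V4 → E, PD n u ∧ ∀ p y, tj j (u p) y = f p y := by
  induction n generalizing f with
  | zero => exact ⟨_, zero 0, fun p y => by rw [tj_const, h.eq0 rfl, smul_zero]⟩
  | succ n ih =>
    have c : (j + n) ≠ 0 := by positivity
    obtain ⟨u, hu, e⟩ := ih ((h.tj_sub j).csmul (-(j + n)⁻¹))
    refine ⟨_, add _ _ _ (h.csmul (j + n)⁻¹) hu.succ, fun p y => ?_⟩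
    rw [tj_add j ((h.csmul _).sm p) (hu.sm p), e, tj_csmul _ _ (h.sm p), smul_sub, smul_smul,
      neg_mul, inv_mul_cancel₀ c]
    module

theorem uniq {j : ℝ} (hj : 0 < j) (h : PD n f) (h0 : ∀ p y, tj j (f p) y = 0) :
    f = fun _ _ => 0 := by
  induction n with
  | zero => exact h.eq0 rfl
  | succ n ih =>
    have c : (j + n) ≠ 0 := by positivity
    refine ih (((h.tj_sub j).csmul (-(j + n)⁻¹)).congr fun p y => ?_)
    rw [h0, zero_sub, smul_neg, smul_smul, neg_mul, inv_mul_cancel₀ c]
    module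

theorem bd (h : PD n f) : ∃ C, 0 ≤ C ∧ ∀ p y, ‖f p y‖ ≤ C * (1 + ‖y‖) ^ n := by
  induction h with
  | zero => exact ⟨0, le_rfl, fun p y => by simp⟩
  | const m w C h =>
    exact ⟨max C 0, le_max_right _ _, fun p y => ((h p).trans (le_max_left _ _)).trans
      (le_mul_of_one_le_right (le_max_right _ _) (one_le_pow₀ (by linarith [norm_nonneg y])))⟩
  | mul m i g _ ih =>
    obtain ⟨C, c0, h⟩ := ih
    refine ⟨C, c0, fun p y => ?_⟩
    rw [norm_smul, pow_succ, ← mul_assoc, mul_comm]
    exact mul_le_mul (h p y) ((norm_le_pi_norm y i).trans (by linarith)) (norm_nonneg _)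
      (by positivity)
  | add _ _ _ _ _ i1 i2 =>
    obtain ⟨C, c0, h⟩ := i1
    obtain ⟨D, d0, k⟩ := i2
    exact ⟨C + D, by positivity, fun p y => (norm_add_le _ _).trans
      (by rw [add_mul]; exact add_le_add (h p y) (k p y))⟩

theorem bil (B : E →L[ℝ] F →L[ℝ] G) (h : PD n f) {m : ℕ} {g : Λ → V4 → F} (k : PD m g) :
    PD (n + m) fun p y => B (f p y) (g p y) := by
  induction h with
  | zero => exact (zero _).congr fun p y => by simp
  | const n w C h =>
    exact (k.clm (fun p => B (w p)) (‖B‖ * C) fun p => (B.le_opNorm _).trans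
      (mul_le_mul_of_nonneg_left (h p) (norm_nonneg _))).mono (by omega)
  | mul n i _ _ ih => exact ((mul _ i _ ih).congr fun p y => by simp).mono (by omega)
  | add _ _ _ _ _ i1 i2 => exact (add _ _ _ i1 i2).congr fun p y => by simp

theorem multi (k : ℕ) (T : Λ → ContinuousMultilinearMap ℝ (fun _ : Fin k => V4) E) (C : ℝ)
    (h : ∀ p, ‖T p‖ ≤ C) : PD (k + 1) fun p y => T p fun _ => y := by
  induction k generalizing C with
  | zero =>
    exact (const 0 (fun p => T p 0) C fun p => by
      rw [ContinuousMultilinearMap.fin0_apply_norm]; exact h p).congr fun p y => by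
      congr 1; exact Subsingleton.elim _ _
  | succ k ih =>
    refine (sum Finset.univ fun i => mul _ i _ (ih (fun p => (T p).curryLeft (e i)) (C * ‖e i‖)
      fun p => ((T p).curryLeft.le_opNorm _).trans (mul_le_mul_of_nonneg_right
        (by rw [ContinuousMultilinearMap.curryLeft_norm]; exact h p) (norm_nonneg _)))).congr
      fun p y => ?_
    have : T p (fun _ => y) = (T p).curryLeft y fun _ => y := by
      rw [ContinuousMultilinearMap.curryLeft_apply]
      congr 1
      funext i
      refine Fin.cases rfl (fun _ => rfl) i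
    rw [this, clm_vec (T p).curryLeft y]
    simp

end PD

/-- bounded families of polynomials -/
def PF (f : Λ → V4 → E) : Prop := ∃ n, PD n f

namespace PF

variable {f g : Λ → V4 → E}

theorem sm (h : PF f) (p : Λ) : ContDiff ℝ ∞ (f p) := h.choose_spec.sm p

theorem congr (h : PF f) (e : ∀ p y, g p y = f p y) : PF g := ⟨_, h.choose_spec.congr e⟩

theorem zero : PF fun (_ : Λ) (_ : V4) => (0 : E) := ⟨0, PD.zero 0⟩

theorem cst (c : E) : PF fun (_ : Λ) (_ : V4) => c := ⟨1, PD.const 0 _ ‖c‖ fun _ => le_rfl⟩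

theorem add (h : PF f) (k : PF g) : PF fun p y => f p y + g p y := by
  obtain ⟨n, h⟩ := h
  obtain ⟨m, k⟩ := k
  exact ⟨max n m, PD.add _ _ _ (h.mono (le_max_left _ _)) (k.mono (le_max_right _ _))⟩

theorem clm (h : PF f) (L : E →L[ℝ] F) : PF fun p y => L (f p y) :=
  ⟨_, h.choose_spec.clm (fun _ => L) _ fun _ => le_rfl⟩

theorem csmul (h : PF f) (c : ℝ) : PF fun p y => c • f p y := ⟨_, h.choose_spec.csmul c⟩

theorem neg (h : PF f) : PF fun p y => -f p y := (h.csmul (-1)).congr fun p y => by simp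

theorem sub (h : PF f) (k : PF g) : PF fun p y => f p y - g p y :=
  (h.add k.neg).congr fun p y => sub_eq_add_neg _ _

theorem co (h : PF f) (i : Fin 4) : PF fun p y => y i • f p y := ⟨_, PD.mul _ i _ h.choose_spec⟩

theorem pa (h : PF f) (i : Fin 4) : PF fun p => pa i (f p) := ⟨_, h.choose_spec.pa i⟩

theorem sum {ι : Type} (s : Finset ι) {g : ι → Λ → V4 → E} (h : ∀ k, PF (g k)) :
    PF fun p y => ∑ k ∈ s, g k p y := by
  classical
  induction s using Finset.induction_on with
  | empty => exact zero.congr fun p y => Finset.sum_empty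
  | insert a s ha ih => exact ((h a).add ih).congr fun p y => Finset.sum_insert ha

theorem bil (B : E →L[ℝ] F →L[ℝ] G) (h : PF f) {g : Λ → V4 → F} (k : PF g) :
    PF fun p y => B (f p y) (g p y) := ⟨_, h.choose_spec.bil B k.choose_spec⟩

theorem smul {φ : Λ → V4 → ℝ} (h : PF φ) (k : PF g) : PF fun p y => φ p y • g p y :=
  h.bil (ContinuousLinearMap.lsmul ℝ ℝ) k

theorem uniq {j : ℝ} (hj : 0 < j) (h : PF f) (k : PF g)
    (h0 : ∀ p y, tj j (f p) y = tj j (g p) y) (p : Λ) (y : V4) : f p y = g p y := by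
  have := (h.add (k.csmul (-1))).choose_spec.uniq hj fun p y => by
    rw [tj_add j (h.sm p) ((k.csmul _).sm p), tj_csmul _ _ (k.sm p), h0]; simp
  have := congrFun (congrFun this p) y
  simpa [add_neg_eq_zero] using this

end PF

theorem exists_proj [FiniteDimensional ℝ E] (W : Submodule ℝ E) :
    ∃ π : E →L[ℝ] E, (∀ a, π a ∈ W) ∧ ∀ a ∈ W, π a = a := by
  obtain ⟨g, hg⟩ := W.subtype.exists_leftInverse_of_injective W.ker_subtype
  exact ⟨LinearMap.toContinuousLinearMap (W.subtype ∘ₗ g), fun a => (g a).2, fun a ha =>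
    congrArg Subtype.val (LinearMap.congr_fun hg ⟨a, ha⟩)⟩

theorem pa_mem [FiniteDimensional ℝ E] {W : Submodule ℝ E} {f : V4 → E} (hf : ContDiff ℝ ∞ f)
    (h : ∀ y, f y ∈ W) (i : Fin 4) (y : V4) : pa i f y ∈ W := by
  obtain ⟨π, h1, h2⟩ := exists_proj W
  rw [show f = fun y => π (f y) from funext fun y => (h2 _ (h y)).symm, pa_clm π hf]
  exact h1 _

theorem PF.solve [FiniteDimensional ℝ E] {j : ℝ} (hj : 0 < j) {f : Λ → V4 → E} (h : PF f)
    (W : Submodule ℝ E) (hW : ∀ p y, f p y ∈ W) :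
    ∃ u : Λ → V4 → E, PF u ∧ (∀ p y, u p y ∈ W) ∧ ∀ p y, tj j (u p) y = f p y := by
  obtain ⟨π, h1, h2⟩ := exists_proj W
  obtain ⟨u, hu, e⟩ := h.choose_spec.solve hj
  exact ⟨_, PF.clm ⟨_, hu⟩ π, fun p y => h1 _, fun p y => by
    rw [tj_clm j π (hu.sm p), e, h2 _ (hW p y)]⟩

end Vale.Agent.P247J.Heat
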