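import Vale.Agent.P247J.Ex

/-!
# P247J: the transport equations and the filtration
-/

set_option linter.all false

open scoped ContDiff Topology
open Set Filter

noncomputable section

namespace Vale.Agent.P247J.Heat

open Vale.Agent.P204.T4 Vale.Agent.P247E
open Vale.Agent.P247.H74 (e)

section dh

variable {Λ E : Type} [NormedAddCommGroup E] [NormedSpace ℝ E]

/-- the partial derivative conjugated by the Gaussian -/
def dh (i : Fin 4) (f : V4 → E) (y : V4) : E := pa i f y - (y i / 2) • f y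

theorem dh_sm {f : V4 → E} (h : ContDiff ℝ ∞ f) (i : Fin 4) : ContDiff ℝ ∞ (dh i f) :=
  (pa_sm h i).sub (((sm_co i).div_const 2).smul h)

theorem PF.dh {f : Λ → V4 → E} (h : PF f) (i : Fin 4) : PF fun p => dh i (f p) :=
  ((h.pa i).sub ((h.co i).csmul (1 / 2))).congr fun p y => by
    simp only [Heat.dh, smul_smul]; congr 2; ring

theorem dh_mem [FiniteDimensional ℝ E] {W : Submodule ℝ E} {f : V4 → E} (hf : ContDiff ℝ ∞ f)
    (h : ∀ y, f y ∈ W) (i : Fin 4) (y : V4) : dh i f y ∈ W :=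
  W.sub_mem (pa_mem hf h i y) (W.smul_mem _ (h y))

theorem dh_add {f g : V4 → E} (hf : ContDiff ℝ ∞ f) (hg : ContDiff ℝ ∞ g) (i : Fin 4) :
    dh i (fun y => f y + g y) = fun y => dh i f y + dh i g y := funext fun y => by
  simp only [dh, pa_add hf hg]; module

theorem dh_smul {c : V4 → ℝ} {f : V4 → E} (hc : ContDiff ℝ ∞ c) (hf : ContDiff ℝ ∞ f) (i : Fin 4) :
    dh i (fun y => c y • f y) = fun y => c y • dh i f y + pa i c y • f y := funext fun y => by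
  simp only [dh, pa_smul hc hf]; module

theorem dh_csmul (c : ℝ) {f : V4 → E} (hf : ContDiff ℝ ∞ f) (i : Fin 4) :
    dh i (fun y => c • f y) = fun y => c • dh i f y := funext fun y => by
  simp only [dh, pa_csmul c hf]; module

/-- the second order terms -/
def xx (a : Fin 4 → Fin 4 → Λ → V4 → ℝ) (q : Λ → V4 → E) (p : Λ) (y : V4) : E :=
  ∑ i, ∑ j, a i j p y • dh i (dh j (q p)) y

theorem PF.xx {a : Fin 4 → Fin 4 → Λ → V4 → ℝ} {q : Λ → V4 → E} (ha : ∀ i j, PF (a i j))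
    (hq : PF q) : PF (xx a q) :=
  PF.sum _ fun i => PF.sum _ fun j => (ha i j).smul ((hq.dh j).dh i)

theorem xx_mem [FiniteDimensional ℝ E] {W : Submodule ℝ E} (a : Fin 4 → Fin 4 → Λ → V4 → ℝ)
    {q : Λ → V4 → E} (hq : PF q) (h : ∀ p y, q p y ∈ W) (p : Λ) (y : V4) : xx a q p y ∈ W :=
  W.sum_mem fun i _ => W.sum_mem fun j _ => W.smul_mem _
    (dh_mem (dh_sm (hq.sm p) j) (dh_mem (hq.sm p) (h p) j) i y)

end dh

variable {Λ 𝒜 : Type} [NormedRing 𝒜] [NormedAlgebra ℝ 𝒜]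

theorem PF.mul {f g : Λ → V4 → 𝒜} (h : PF f) (k : PF g) : PF fun p y => f p y * g p y :=
  h.bil (ContinuousLinearMap.mul ℝ 𝒜) k

/-- the first order terms -/
def yy (B : Fin 4 → Λ → V4 → 𝒜) (q : Λ → V4 → 𝒜) (p : Λ) (y : V4) : 𝒜 :=
  ∑ i, B i p y * dh i (q p) y

theorem PF.yy {B : Fin 4 → Λ → V4 → 𝒜} {q : Λ → V4 → 𝒜} (hB : ∀ i, PF (B i)) (hq : PF q) :
    PF (yy B q) := PF.sum _ fun i => (hB i).mul (hq.dh i)

/-- scalars -/
def F0 (𝒜 : Type) [NormedRing 𝒜] [NormedAlgebra ℝ 𝒜] : Submodule ℝ 𝒜 := Submodule.span ℝ {1}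

/-- elements of trace zero -/
def F1 (σ : 𝒜 →L[ℝ] ℝ) : Submodule ℝ 𝒜 := LinearMap.ker (σ : 𝒜 →ₗ[ℝ] ℝ)

theorem one_mem0 : (1 : 𝒜) ∈ F0 𝒜 := Submodule.mem_span_singleton_self _

theorem mul0 {W : Submodule ℝ 𝒜} {a b : 𝒜} (ha : a ∈ F0 𝒜) (hb : b ∈ W) : a * b ∈ W := by
  obtain ⟨c, rfl⟩ := Submodule.mem_span_singleton.1 ha
  rw [smul_mul_assoc, one_mul]; exact W.smul_mem c hb

theorem mul0' {W : Submodule ℝ 𝒜} {a b : 𝒜} (ha : a ∈ W) (hb : b ∈ F0 𝒜) : a * b ∈ W := by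
  obtain ⟨c, rfl⟩ := Submodule.mem_span_singleton.1 hb
  rw [mul_smul_comm, mul_one]; exact W.smul_mem c ha

theorem yy_mem [FiniteDimensional ℝ 𝒜] {W : Submodule ℝ 𝒜} {B : Fin 4 → Λ → V4 → 𝒜}
    {q : Λ → V4 → 𝒜} (hB : ∀ i p y, B i p y ∈ F0 𝒜) (hq : PF q) (h : ∀ p y, q p y ∈ W) (p : Λ)
    (y : V4) : yy B q p y ∈ W :=
  W.sum_mem fun i _ => mul0 (hB i p y) (dh_mem (hq.sm p) (h p) i y)

theorem yy_mem' [FiniteDimensional ℝ 𝒜] {W : Submodule ℝ 𝒜} {B : Fin 4 → Λ → V4 → 𝒜}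
    {q : Λ → V4 → 𝒜} (hB : ∀ i p y, B i p y ∈ W) (hq : PF q) (h : ∀ p y, q p y ∈ F0 𝒜) (p : Λ)
    (y : V4) : yy B q p y ∈ W :=
  W.sum_mem fun i _ => mul0' (hB i p y) (dh_mem (hq.sm p) (h p) i y)

/-- the trace form -/
def bs (σ : 𝒜 →L[ℝ] ℝ) : 𝒜 →L[ℝ] 𝒜 →L[ℝ] ℝ :=
  (ContinuousLinearMap.compL ℝ 𝒜 𝒜 ℝ σ).comp (ContinuousLinearMap.mul ℝ 𝒜)

theorem bs_apply (σ : 𝒜 →L[ℝ] ℝ) (a b : 𝒜) : bs σ a b = σ (a * b) := rfl

section explicit

variable (al : Fin 4 → V4 →L[ℝ] 𝒜) (E0 : 𝒜)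

/-- the transposed linear part -/
def tl (i : Fin 4) : V4 →L[ℝ] 𝒜 :=
  ∑ l, (ContinuousLinearMap.proj l : V4 →L[ℝ] ℝ).smulRight (al l (e i))

theorem tl_apply (i : Fin 4) (y : V4) : tl al i y = ∑ l, y l • al l (e i) := by simp [tl]

theorem tl_e (i j : Fin 4) : tl al i (e j) = al j (e i) := by
  simp [tl_apply, e, Pi.single_apply]

/-- the antisymmetric part -/
def rl (i : Fin 4) : V4 →L[ℝ] 𝒜 := (1 / 2 : ℝ) • (al i - tl al i)

/-- the symmetric part -/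
def sq2 (y : V4) : 𝒜 := ∑ l, y l • al l y

theorem sq2_sm : ContDiff ℝ ∞ (sq2 al) := ContDiff.sum fun l _ => (sm_co l).smul (al l).contDiff

theorem pa_sq2 (i : Fin 4) : pa i (sq2 al) = ⇑(al i + tl al i) := funext fun y => by
  rw [show sq2 al = fun y => ∑ l, y l • al l y from rfl,
    pa_sum _ (f := fun l y => y l • al l y) fun l => (sm_co l).smul (al l).contDiff]
  simp only [pa_smul (sm_co _) (al _).contDiff, pa_co, pa_lin, Finset.sum_add_distrib, ite_smul,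
    one_smul, zero_smul, Finset.sum_ite_eq', Finset.mem_univ, if_true,
    ContinuousLinearMap.add_apply, tl_apply]

theorem sum_tl (y : V4) : ∑ i, y i • tl al i y = sq2 al y := by
  simp only [tl_apply, sq2, clm_vec (al _) y, Finset.smul_sum, smul_comm (y _) (y _)]
  rw [Finset.sum_comm]
  exact Finset.sum_congr rfl fun i _ => Finset.sum_congr rfl fun j _ => smul_comm _ _ _

/-- the second coefficient modulo scalars -/
def e2 (y : V4) : 𝒜 := (-(1 / 2) : ℝ) • sq2 al y + -E0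

theorem e2_sm : ContDiff ℝ ∞ (e2 al E0) := ((sq2_sm al).const_smul _).add contDiff_const

theorem pa_e2 (i : Fin 4) (y : V4) :
    pa i (e2 al E0) y = (-(1 / 2) : ℝ) • (al i y + tl al i y) := by
  rw [show e2 al E0 = fun y => (-(1 / 2) : ℝ) • sq2 al y + -E0 from rfl,
    pa_add ((sq2_sm al).const_smul _) contDiff_const, pa_csmul _ (sq2_sm al), pa_sq2, pa_const]
  simp

theorem tj_e2 (y : V4) :
    tj 2 (e2 al E0) y = (-2 : ℝ) • (sq2 al y + (E0 - ∑ l, al l (e l))) := by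
  rw [show e2 al E0 = fun y => (-(1 / 2) : ℝ) • sq2 al y + -E0 from rfl,
    tj_add _ ((sq2_sm al).const_smul _) contDiff_const, tj_csmul _ _ (sq2_sm al), tj_const]
  simp only [tj, eu, la, pa_sq2, pa_lin, ContinuousLinearMap.add_apply, smul_add,
    Finset.sum_add_distrib, sum_tl, tl_e]
  rw [show ∑ i, y i • al i y = sq2 al y from rfl]
  module

theorem tj_lin (j : ℝ) (L : V4 →L[ℝ] 𝒜) (y : V4) : tj j L y = (j + 1) • L y := by
  simp only [tj, eu, la, pa_lin, pa_const, ← clm_vec L y]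
  simp [add_smul]

/-- the trace of the fourth coefficient -/
def s4 (σ : 𝒜 →L[ℝ] ℝ) (y : V4) : ℝ := (1 / 2 : ℝ) • bs σ (e2 al E0 y) (e2 al E0 y) +
  (1 / 3 : ℝ) • ∑ l, bs σ (rl al l y) (rl al l y) +
  (1 / 3 : ℝ) • ∑ l, ∑ j, bs σ (rl al l (e j)) (rl al l (e j))

variable [StarRing 𝒜]

theorem tj_s4 {σ : 𝒜 →L[ℝ] ℝ} (hσ : Str σ) (y : V4) : tj 4 (s4 al E0 σ) y =
    -2 * (∑ l, σ (al l y * tl al l y) + σ ((sq2 al y + (E0 - ∑ l, al l (e l))) * e2 al E0 y)) := by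
  have b : ∀ {f : V4 → 𝒜}, ContDiff ℝ ∞ f → ContDiff ℝ ∞ fun y => bs σ (f y) (f y) :=
    fun hf => ((bs σ).contDiff.comp hf).clm_apply hf
  have s1 := b (e2_sm al E0)
  have s2 : ContDiff ℝ ∞ fun y => ∑ l, bs σ (rl al l y) (rl al l y) :=
    ContDiff.sum fun l _ => b (rl al l).contDiff
  have t : tj 4 (fun y => ∑ l, bs σ (rl al l y) (rl al l y)) y =
      ∑ l, tj 4 (fun y => bs σ (rl al l y) (rl al l y)) y := by
    have b' := fun l => b (rl al l).contDiff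
    simp only [Fin.sum_univ_four]
    rw [tj_add _ (((b' 0).add (b' 1)).add (b' 2)) (b' 3), tj_add _ ((b' 0).add (b' 1)) (b' 2),
      tj_add _ (b' 0) (b' 1)]
  have u : ∀ {f : V4 → 𝒜}, ContDiff ℝ ∞ f → tj 4 (fun y => bs σ (f y) (f y)) y =
      2 * σ (tj 2 f y * f y) - 4 * ∑ i, σ (pa i f y * pa i f y) := fun hf => by
    rw [show (4 : ℝ) = 2 + 2 by norm_num, tj_bil _ _ _ hf hf]
    simp only [bs_apply, smul_eq_mul, hσ.comm (_ : 𝒜) (tj _ _ _)]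
    ring
  rw [show s4 al E0 σ = fun y => ((1 / 2 : ℝ) • bs σ (e2 al E0 y) (e2 al E0 y) +
      (1 / 3 : ℝ) • ∑ l, bs σ (rl al l y) (rl al l y)) +
      (1 / 3 : ℝ) • ∑ l, ∑ j, bs σ (rl al l (e j)) (rl al l (e j)) from rfl,
    tj_add _ ((s1.const_smul _).add (s2.const_smul _)) contDiff_const,
    tj_add _ (s1.const_smul _) (s2.const_smul _), tj_csmul _ _ s1, tj_csmul _ _ s2, tj_const, t,
    u (e2_sm al E0), Finset.sum_congr rfl fun l _ => u (rl al l).contDiff]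
  simp only [tj_lin, pa_lin, tj_e2, pa_e2, bs_apply, smul_eq_mul, smul_mul_assoc, mul_smul_comm,
    map_smul]
  have r : ∀ l, σ (rl al l y * rl al l y) = (1 / 4) * (σ ((al l y + tl al l y) *
      (al l y + tl al l y)) - 4 * σ (al l y * tl al l y)) := fun l => by
    simp only [rl, ContinuousLinearMap.smul_apply, ContinuousLinearMap.sub_apply, smul_mul_assoc,
      mul_smul_comm, map_smul, mul_add, add_mul, mul_sub, sub_mul, map_add, map_sub, smul_eq_mul,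
      hσ.comm (tl al l y) (al l y)]
    ring
  simp only [r, Fin.sum_univ_four]
  ring

end explicit

variable [FiniteDimensional ℝ 𝒜] [StarRing 𝒜] {σ : 𝒜 →L[ℝ] ℝ}

theorem F0_le (hσ : Str σ) {a : 𝒜} (h : a ∈ F0 𝒜) : a ∈ F1 σ := by
  simpa using mul0 (W := F1 σ) h hσ.one

/-- the solution of the transport equations -/
theorem exists_q (hσ : Str σ) {a1 a2 a3 a4 : Fin 4 → Fin 4 → Λ → V4 → ℝ}
    {B0 B1 B2 B3 : Fin 4 → Λ → V4 → 𝒜} {C0 C1 C2 : Λ → V4 → 𝒜}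
    {al : Λ → Fin 4 → V4 →L[ℝ] 𝒜} {E0 : Λ → 𝒜}
    (pa1 : ∀ i j, PF (a1 i j)) (pa2 : ∀ i j, PF (a2 i j)) (pa3 : ∀ i j, PF (a3 i j))
    (pa4 : ∀ i j, PF (a4 i j)) (pB0 : ∀ i, PF (B0 i)) (pB1 : ∀ i, PF (B1 i))
    (pB2 : ∀ i, PF (B2 i)) (pB3 : ∀ i, PF (B3 i)) (pC0 : PF C0) (pC1 : PF C1) (pC2 : PF C2)
    (pal : ∀ l, PF fun p y => al p l y) (pE : PF fun p _ => E0 p)
    (mB0 : ∀ i p y, B0 i p y ∈ F0 𝒜) (mB1 : ∀ i p y, B1 i p y + (2 : ℝ) • al p i y ∈ F0 𝒜)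
    (mB2 : ∀ i p y, B2 i p y ∈ F1 σ) (mB3 : ∀ i p y, B3 i p y ∈ F1 σ)
    (mC0 : ∀ p y, C0 p y = E0 p - ∑ l, al p l (e l)) (mC1 : ∀ p y, C1 p y ∈ F1 σ)
    (mC2 : ∀ p y, σ (C2 p y) = -∑ l, σ (al p l y * al p l y))
    (mal : ∀ p l y, al p l y ∈ F1 σ) (mE : ∀ p, E0 p ∈ F1 σ) :
    ∃ q0 q1 q2 q3 q4 : Λ → V4 → 𝒜, (q0 = fun _ _ => 1) ∧ PF q1 ∧ PF q2 ∧ PF q3 ∧ PF q4 ∧
      (∀ p y, q1 p y ∈ F0 𝒜) ∧ (∀ p y, q2 p y - e2 (al p) (E0 p) y ∈ F0 𝒜) ∧
      (∀ p y, q2 p y ∈ F1 σ) ∧ (∀ p y, q3 p y ∈ F1 σ) ∧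
      (∀ p y, σ (q4 p y) = s4 (al p) (E0 p) σ y) ∧
      (∀ p y, tj 1 (q1 p) y = (-2 : ℝ) • (-xx a1 q0 p y + yy B0 q0 p y)) ∧
      (∀ p y, tj 2 (q2 p) y = (-2 : ℝ) • (-(xx a1 q1 p y + xx a2 q0 p y) +
        (yy B0 q1 p y + yy B1 q0 p y) + C0 p y * q0 p y)) ∧
      (∀ p y, tj 3 (q3 p) y = (-2 : ℝ) • (-(xx a1 q2 p y + xx a2 q1 p y + xx a3 q0 p y) +
        (yy B0 q2 p y + yy B1 q1 p y + yy B2 q0 p y) + (C0 p y * q1 p y + C1 p y * q0 p y))) ∧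
      ∀ p y, tj 4 (q4 p) y = (-2 : ℝ) •
        (-(xx a1 q3 p y + xx a2 q2 p y + xx a3 q1 p y + xx a4 q0 p y) +
        (yy B0 q3 p y + yy B1 q2 p y + yy B2 q1 p y + yy B3 q0 p y) +
        (C0 p y * q2 p y + C1 p y * q1 p y + C2 p y * q0 p y)) := by
  set q0 : Λ → V4 → 𝒜 := fun _ _ => 1 with hq0
  have p0 : PF q0 := PF.cst 1
  have m0 : ∀ p y, q0 p y ∈ F0 𝒜 := fun _ _ => one_mem0
  have pal' : ∀ l j, PF fun p (_ : V4) => al p l (e j) := fun l j =>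
    ((pal l).pa j).congr fun p y => by rw [show (fun y => al p l y) = al p l from rfl, pa_lin]
  have pe : PF fun p => e2 (al p) (E0 p) :=
    ((PF.sum _ fun l => (pal l).co l).csmul _).add pE.neg
  have me : ∀ p y, e2 (al p) (E0 p) y ∈ F1 σ := fun p y => add_mem (Submodule.smul_mem _ _
    (Submodule.sum_mem _ fun l _ => Submodule.smul_mem _ _ (mal p l y))) (neg_mem (mE p))
  have mB1' : ∀ i p y, B1 i p y ∈ F1 σ := fun i p y => by
    simpa using sub_mem (F0_le hσ (mB1 i p y)) (Submodule.smul_mem _ (2 : ℝ) (mal p i y))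
  have mC0' : ∀ p y, C0 p y ∈ F1 σ := fun p y =>
    mC0 p y ▸ sub_mem (mE p) (Submodule.sum_mem _ fun l _ => mal p l _)
  obtain ⟨q1, p1, m1, t1⟩ := (((PF.xx pa1 p0).neg.add (PF.yy pB0 p0)).csmul (-2)).solve one_pos
    (F0 𝒜) fun p y => Submodule.smul_mem _ _ (add_mem (neg_mem (xx_mem _ p0 m0 p y))
      (yy_mem mB0 p0 m0 p y))
  obtain ⟨z2, pz, mz, tz⟩ := ((((((PF.xx pa1 p1).add (PF.xx pa2 p0)).neg.add
      (PF.yy pB0 p1)).add (PF.sum Finset.univ fun i => (((pB1 i).add ((pal i).csmul 2)).co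
      i).csmul (-(1 / 2))))).csmul (-2)).solve two_pos (F0 𝒜) fun p y =>
    Submodule.smul_mem _ _ (add_mem (add_mem (neg_mem (add_mem (xx_mem _ p1 m1 p y)
      (xx_mem _ p0 m0 p y))) (yy_mem mB0 p1 m1 p y)) (Submodule.sum_mem _ fun i _ =>
      Submodule.smul_mem _ _ (Submodule.smul_mem _ _ (mB1 i p y))))
  set q2 : Λ → V4 → 𝒜 := fun p y => e2 (al p) (E0 p) y + z2 p y with hq2
  have p2 : PF q2 := pe.add pz
  have m2 : ∀ p y, q2 p y ∈ F1 σ := fun p y => add_mem (me p y) (F0_le hσ (mz p y))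
  have m0' := fun p y => F0_le hσ (m0 p y)
  have m1' := fun p y => F0_le hσ (m1 p y)
  obtain ⟨q3, p3, m3, t3⟩ := (((((PF.xx pa1 p2).add (PF.xx pa2 p1)).add (PF.xx pa3 p0)).neg.add
      (((PF.yy pB0 p2).add (PF.yy pB1 p1)).add (PF.yy pB2 p0))).add
      ((pC0.mul p1).add (pC1.mul p0))).csmul (-2) |>.solve three_pos (F1 σ) fun p y =>
    Submodule.smul_mem _ _ (add_mem (add_mem (neg_mem (add_mem (add_mem (xx_mem _ p2 m2 p y)
      (xx_mem _ p1 m1' p y)) (xx_mem _ p0 m0' p y))) (add_mem (add_mem (yy_mem mB0 p2 m2 p y)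
      (yy_mem' mB1' p1 m1 p y)) (yy_mem' mB2 p0 m0 p y)))
      (add_mem (mul0' (mC0' p y) (m1 p y)) (mul0' (mC1 p y) (m0 p y))))
  obtain ⟨q4, p4, -, t4⟩ := ((((((PF.xx pa1 p3).add (PF.xx pa2 p2)).add (PF.xx pa3 p1)).add
      (PF.xx pa4 p0)).neg.add ((((PF.yy pB0 p3).add (PF.yy pB1 p2)).add (PF.yy pB2 p1)).add
      (PF.yy pB3 p0))).add (((pC0.mul p2).add (pC1.mul p1)).add (pC2.mul p0))).csmul (-2)
      |>.solve four_pos ⊤ fun p y => trivial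
  refine ⟨q0, q1, q2, q3, q4, rfl, p1, p2, p3, p4, m1, fun p y => by simpa [hq2] using mz p y, m2,
    m3, ?_, t1, fun p y => ?_, t3, t4⟩
  · have prl : ∀ l, PF fun p y => rl (al p) l y := fun l => (((pal l).sub (PF.sum Finset.univ
      fun k => (pal' k l).co k)).csmul (1 / 2)).congr fun p y => by simp [rl, tl_apply]
    have prl' : ∀ l j, PF fun p (_ : V4) => rl (al p) l (e j) := fun l j =>
      ((prl l).pa j).congr fun p y => by
        rw [show (fun y => rl (al p) l y) = rl (al p) l from rfl, pa_lin]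
    refine (p4.clm σ).uniq four_pos ((((pe.bil (bs σ) pe).csmul _).add ((PF.sum _ fun l =>
      (prl l).bil (bs σ) (prl l)).csmul _)).add ((PF.sum _ fun l => PF.sum _ fun j =>
      (prl' l j).bil (bs σ) (prl' l j)).csmul _)) fun p y => ?_
    refine (tj_clm 4 σ (p4.sm p) y).trans (Eq.trans ?_ (tj_s4 (al p) (E0 p) hσ y).symm)
    have k1 : σ (xx a1 q3 p y) = 0 := xx_mem _ p3 m3 p y
    have k2 : σ (xx a2 q2 p y) = 0 := xx_mem _ p2 m2 p y
    have k3 : σ (xx a3 q1 p y) = 0 := xx_mem _ p1 m1' p y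
    have k4 : σ (xx a4 q0 p y) = 0 := xx_mem _ p0 m0' p y
    have k5 : σ (yy B0 q3 p y) = 0 := yy_mem mB0 p3 m3 p y
    have k6 : σ (yy B2 q1 p y) = 0 := yy_mem' mB2 p1 m1 p y
    have k7 : σ (yy B3 q0 p y) = 0 := yy_mem' mB3 p0 m0 p y
    have k8 : σ (C1 p y * q1 p y) = 0 := mul0' (W := F1 σ) (mC1 p y) (m1 p y)
    have k9 : σ (C0 p y * z2 p y) = 0 := mul0' (W := F1 σ) (mC0' p y) (mz p y)
    have k0 : ∀ i, σ (B1 i p y * dh i (q2 p) y) = σ (al p i y * al p i y) +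
        σ (al p i y * tl (al p) i y) + σ ((y i • al p i y) * e2 (al p) (E0 p) y) := fun i => by
      have j1 : σ ((B1 i p y + (2 : ℝ) • al p i y) * dh i (q2 p) y) = 0 :=
        mul0 (W := F1 σ) (mB1 i p y) (dh_mem (p2.sm p) (m2 p) i y)
      have j2 : σ (al p i y * dh i (z2 p) y) = 0 :=
        mul0' (W := F1 σ) (mal p i y) (dh_mem (pz.sm p) (mz p) i y)
      have j3 : dh i (q2 p) y = dh i (e2 (al p) (E0 p)) y + dh i (z2 p) y :=
        congrFun (dh_add (pe.sm p) (pz.sm p) i) y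
      rw [add_mul, map_add, smul_mul_assoc, map_smul] at j1
      nth_rewrite 2 [j3] at j1
      generalize dh i (q2 p) y = D at *
      rw [mul_add, map_add, j2, dh, pa_e2] at j1
      simp only [mul_sub, mul_add, mul_smul_comm, smul_mul_assoc, map_sub, map_add, map_smul,
        smul_eq_mul] at j1 ⊢
      linarith
    have k0' : σ (yy B1 q2 p y) = ∑ i, σ (al p i y * al p i y) +
        ∑ i, σ (al p i y * tl (al p) i y) + σ (sq2 (al p) y * e2 (al p) (E0 p) y) := by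
      simp only [yy, map_sum, k0, Finset.sum_add_distrib, sq2, Finset.sum_mul]
    rw [t4]
    simp only [map_smul, map_add, map_neg, k1, k2, k3, k4, k5, k6, k7, k8, k0']
    simp only [map_add, hq0, mul_one, mC2, hq2, mul_add, k9, add_mul, ← mC0 p y, smul_eq_mul]
    ring
  · rw [hq2, tj_add _ (pe.sm p) (pz.sm p), tj_e2, tz, ← mC0 p y]
    simp only [yy, hq0, dh, pa_const, mul_one, zero_sub, mul_neg, mul_smul_comm, sq2,
      Fin.sum_univ_four]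
    module

end Vale.Agent.P247J.Heat
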