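import Vale.Agent.P247I.Tm
import Vale.Agent.P247A.SpecQ
import Vale.Agent.P247E.QSolv

/-!
# P247J: the local index theorem in dimension four, statements

Paper proof: `notes/P247/heat.md`.  The time is `t = s ^ 2`.  Each `XX_statement : Prop` is one
row; prove it taking the statements it depends on as hypotheses (or import their proofs).
-/

set_option linter.all false

open scoped ContDiff Topology ENNReal Quaternion RealInnerProductSpace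
open Set MeasureTheory Filter

noncomputable section

namespace Vale.Agent.P247J

open Vale.Agent.P204.GX Vale.Agent.P204.T4 Vale.Agent.P247E
open Vale.Agent.P247.H74 (e)
open Vale.Agent.P247.H647 (Sp)
open Vale.Agent.P247I (tm ph ph')

/-! ## Hilbert space part -/

/-- `BES`: approximate solutions of the heat equation and Bessel's inequality -/
def BES_statement : Prop := ∀ (H : Type) [NormedAddCommGroup H] [InnerProductSpace ℝ H] (ι : Type)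
  (φ : HilbertBasis ι ℝ H) (lam c : ι → ℝ) (u r : ℝ → H) (C : ℝ), (∀ n, 0 ≤ lam n) →
  (∀ n, ∀ s ∈ Ioc (0 : ℝ) 1, HasDerivAt (fun s => ⟪φ n, u s⟫)
    (⟪φ n, r s⟫ - 2 * s * lam n * ⟪φ n, u s⟫) s) →
  (∀ n, Tendsto (fun s => ⟪φ n, u s⟫) (𝓝[>] 0) (𝓝 (c n))) →
  (∀ s ∈ Ioc (0 : ℝ) 1, ‖r s‖ ≤ C * s ^ 2 ∧ ‖u s‖ ≤ C / s ^ 2) →
  ∀ s ∈ Ioc (0 : ℝ) 1, ∃ S, HasSum (fun n => Real.exp (-(2 * lam n * s ^ 2)) * c n ^ 2) S ∧
    |S - ‖u s‖ ^ 2| ≤ 3 * C ^ 2 * s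

/-- a Hilbert basis of smooth eigensections of `P' P` -/
structure Eb {X : Type} [MetricSpace X] [MeasurableSpace X] [BorelSpace X] {M : CM X} {V W : Type}
    [NormedAddCommGroup V] [InnerProductSpace ℝ V] [NormedAddCommGroup W] [InnerProductSpace ℝ W]
    {E : Bun M V} {F : Bun M W} (P : Op E F) (P' : Op F E) {ι : Type} (lam : ι → ℝ) where
  φ : HilbertBasis ι ℝ (LL2 M V)
  s : ι → X → V
  sm : ∀ n, s n ∈ E.Sm
  rep : ∀ n, (φ n : X → V) =ᵐ[M.mu] s n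
  eig : ∀ n x, P'.app (P.app (s n)) x = lam n • s n x

/-- `SPEC`: the singular value decomposition -/
def SPEC_statement : Prop := ForAll2 fun _ _ _ _ _ _ V W _ _ _ _ _ _ E F =>
  Module.finrank ℝ V = Module.finrank ℝ W → ∀ P : Op E F, P.Cliff →
  ∃ (J : Type) (k k' : ℕ) (lam : J → ℝ), (∀ j, 0 ≤ lam j) ∧
    Nonempty (Eb P P.adj (Sum.elim (fun _ : Fin k => 0) lam)) ∧
    Nonempty (Eb P.adj P (Sum.elim (fun _ : Fin k' => 0) lam)) ∧ P.ind = (k : ℤ) - k'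

/-! ## Operators of Laplace type -/

section lap

variable {V : Type} [NormedAddCommGroup V] [NormedSpace ℝ V]

/-- the covariant derivative `∂ᵢ + Aᵢ` -/
def cd (A : Fin 4 → V4 → V →L[ℝ] V) (i : Fin 4) (f : V4 → V) (y : V4) : V :=
  fderiv ℝ f y (e i) + A i y (f y)

/-- `- ∑ a i j ∇ᵢ ∇ⱼ + ∑ h i ∇ᵢ + E` -/
def lap (a : Fin 4 → Fin 4 → V4 → ℝ) (h : Fin 4 → V4 → ℝ) (A : Fin 4 → V4 → V →L[ℝ] V)
    (E : V4 → V →L[ℝ] V) (f : V4 → V) (y : V4) : V :=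
  - ∑ i, ∑ j, a i j y • cd A i (cd A j f) y + ∑ i, h i y • cd A i f y + E y (f y)

end lap

section alg

variable {𝒜 : Type} [NormedRing 𝒜] [NormedAlgebra ℝ 𝒜]

/-- `lap` on functions with values in an algebra, which acts on itself from the left -/
def lapA (a : Fin 4 → Fin 4 → V4 → ℝ) (h : Fin 4 → V4 → ℝ) (A : Fin 4 → V4 → 𝒜) (E : V4 → 𝒜)
    (f : V4 → 𝒜) : V4 → 𝒜 :=
  lap a h (fun i y => ContinuousLinearMap.mul ℝ 𝒜 (A i y))
    (fun y => ContinuousLinearMap.mul ℝ 𝒜 (E y)) f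

/-- the curvature -/
def cur (A : Fin 4 → V4 → 𝒜) (i j : Fin 4) (y : V4) : 𝒜 :=
  fderiv ℝ (A j) y (e i) - fderiv ℝ (A i) y (e j) + (A i y * A j y - A j y * A i y)

/-- components in the frame `n'` (the columns) -/
def frc {B : Type} [AddCommGroup B] [Module ℝ B] (n' : M4) (F : Fin 4 → Fin 4 → B) (i j : Fin 4) :
    B := ∑ k, ∑ l, (n' k i * n' l j) • F k l

/-- the index density -/
def dens (σ : 𝒜 →L[ℝ] ℝ) (E : 𝒜) (Ω : Fin 4 → Fin 4 → 𝒜) : ℝ :=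
  2 * σ (E * E) + (1 / 3) * ∑ i, ∑ j, σ (Ω i j * Ω i j)

/-- the unnormalised Gaussian -/
def g0 (y : V4) : ℝ := Real.exp (-(∑ i, y i ^ 2) / 4)

/-- the Gaussian -/
def gs (y : V4) : ℝ := (∫ z, g0 z)⁻¹ * g0 y

/-- the universal constant (`1 / (64 π²)`) -/
def kap : ℝ := ∫ y, gs y ^ 2

variable [StarRing 𝒜]

/-- supertraces -/
structure Str (σ : 𝒜 →L[ℝ] ℝ) : Prop where
  one : σ 1 = 0
  comm : ∀ a b, σ (a * b) = σ (b * a)
  st : ∀ a, σ (star a) = σ a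

/-- An approximate heat kernel with pole at `p`. -/
structure HK (σ : 𝒜 →L[ℝ] ℝ) (a : Fin 4 → Fin 4 → V4 → ℝ) (h : Fin 4 → V4 → ℝ)
    (A : Fin 4 → V4 → 𝒜) (E : V4 → 𝒜) (ρ : V4 → ℝ) (p : V4) (d C : ℝ) (U R : ℝ → V4 → 𝒜) :
    Prop where
  smU : ∀ s ∈ Ioc (0 : ℝ) 1, ContDiff ℝ ∞ (U s)
  smR : ∀ s ∈ Ioc (0 : ℝ) 1, ContDiff ℝ ∞ (R s)
  supp : ∃ K, IsCompact K ∧ ∀ s x, x ∉ K → U s x = 0 ∧ R s x = 0
  der : ∀ f : V4 → 𝒜 →L[ℝ] ℝ, Continuous f → ∀ s ∈ Ioc (0 : ℝ) 1,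
    HasDerivAt (fun s => ∫ x, f x (U s x))
      (∫ x, f x (R s x - (2 * s) • lapA a h A E (U s) x)) s
  lim : ∀ f : V4 → 𝒜 →L[ℝ] ℝ, Continuous f →
    Tendsto (fun s => ∫ x, ρ x * f x (U s x)) (𝓝[>] 0) (𝓝 (f p 1))
  bR : ∀ s ∈ Ioc (0 : ℝ) 1, ∫ x, ρ x * ‖R s x‖ ^ 2 ≤ (C * s ^ 2) ^ 2
  bU : ∀ s ∈ Ioc (0 : ℝ) 1, ∫ x, ρ x * ‖U s x‖ ^ 2 ≤ (C / s ^ 2) ^ 2
  tr : ∀ s ∈ Ioc (0 : ℝ) 1, |(∫ x, ρ x * σ (star (U s x) * U s x)) - d| ≤ C * s

/-- smooth families with uniform bounds on all derivatives -/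
structure Tame {Λ B : Type} [NormedAddCommGroup B] [NormedSpace ℝ B] (F : Λ → V4 → B) : Prop where
  sm : ∀ p, ContDiff ℝ ∞ (F p)
  bd : ∀ k, ∃ C, ∀ p x, ‖iteratedFDeriv ℝ k (F p) x‖ ≤ C

/-- families of operators, normalised at the origin -/
structure LD (σ : 𝒜 →L[ℝ] ℝ) (Λ : Type) where
  a : Λ → Fin 4 → Fin 4 → V4 → ℝ
  h : Λ → Fin 4 → V4 → ℝ
  A : Λ → Fin 4 → V4 → 𝒜
  E : Λ → V4 → 𝒜
  ρ : Λ → V4 → ℝ
  ta : ∀ i j, Tame fun p => a p i j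
  th : ∀ i, Tame fun p => h p i
  tA : ∀ i, Tame fun p => A p i
  tE : Tame E
  tρ : Tame ρ
  a_symm : ∀ p i j x, a p i j x = a p j i x
  a_zero : ∀ p i j, a p i j 0 = if i = j then 1 else 0
  A_zero : ∀ p i, A p i 0 = 0
  ρ_zero : ∀ p, ρ p 0 = 1
  A_skew : ∀ p i x, star (A p i x) = -A p i x
  E_symm : ∀ p x, star (E p x) = E p x
  E_tr : ∀ p x, σ (E p x) = 0

/-- an operator in a chart, `n` is an orthonormal coframe -/
structure CD (σ : 𝒜 →L[ℝ] ℝ) where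
  n : V4 → M4
  n' : V4 → M4
  h : Fin 4 → V4 → ℝ
  A : Fin 4 → V4 → 𝒜
  E : V4 → 𝒜
  n_sm : ContDiff ℝ ∞ n
  n'_sm : ContDiff ℝ ∞ n'
  n_n' : ∀ y v, app (n y) (app (n' y) v) = v
  n'_n : ∀ y v, app (n' y) (app (n y) v) = v
  n_det : ∀ y, 0 < det4 (n y)
  h_sm : ∀ i, ContDiff ℝ ∞ (h i)
  A_sm : ∀ i, ContDiff ℝ ∞ (A i)
  E_sm : ContDiff ℝ ∞ E
  A_skew : ∀ i x, star (A i x) = -A i x
  E_symm : ∀ x, star (E x) = E x
  E_tr : ∀ x, σ (E x) = 0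

/-- the inverse metric -/
def gi (n' : V4 → M4) (i j : Fin 4) (y : V4) : ℝ := ∑ d, n' y i d * n' y j d

/-- the index density in the chart -/
def CD.d {σ : 𝒜 →L[ℝ] ℝ} (D : CD σ) (y : V4) : ℝ :=
  kap * dens σ (D.E y) (frc (D.n' y) fun i j => cur D.A i j y)

end alg

/-- the standing assumptions on the algebra, as a binder -/
def ForAllA (p : ∀ (𝒜 : Type) [NormedRing 𝒜] [NormedAlgebra ℝ 𝒜] [FiniteDimensional ℝ 𝒜]
    [CompleteSpace 𝒜] [StarRing 𝒜] [StarModule ℝ 𝒜] [ContinuousStar 𝒜] (_ : 𝒜 →L[ℝ] ℝ), Prop) :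
    Prop :=
  ∀ (𝒜 : Type) [NormedRing 𝒜] [NormedAlgebra ℝ 𝒜] [FiniteDimensional ℝ 𝒜] [CompleteSpace 𝒜]
    [StarRing 𝒜] [StarModule ℝ 𝒜] [ContinuousStar 𝒜] (σ : 𝒜 →L[ℝ] ℝ), Str σ → p 𝒜 σ

/-- `HEAT`: the Gaussian parametrix -/
def HEAT_statement : Prop := ForAllA fun _ _ _ _ _ _ _ _ σ => ∀ (Λ : Type) (D : LD σ Λ),
  ∃ C, ∀ p, ∃ U R, HK σ (D.a p) (D.h p) (D.A p) (D.E p) (D.ρ p) 0
    (kap * dens σ (D.E p 0) fun i j => cur (D.A p) i j 0) C U R ∧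
    ∀ s x, 2 ≤ ‖x‖ → U s x = 0 ∧ R s x = 0

/-- `HEATC`: the parametrix in a chart (from `HEAT` by an affine change and a gauge change) -/
def HEATC_statement : Prop := ForAllA fun _ _ _ _ _ _ _ _ σ => ∀ (D : CD σ) (K : Set V4),
  IsCompact K → ∃ C, ∀ p ∈ K, ∃ U R,
    HK σ (gi D.n') D.h D.A D.E (fun y => det4 (D.n y)) p (D.d p) C U R

/-- pairs of endomorphisms -/
abbrev EE (V : Type) [NormedAddCommGroup V] [InnerProductSpace ℝ V] : Type :=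
  (V →L[ℝ] V) × (V →L[ℝ] V)

/-- the supertrace on pairs of endomorphisms -/
def str (V : Type) [NormedAddCommGroup V] [InnerProductSpace ℝ V] [FiniteDimensional ℝ V] :
    EE V →L[ℝ] ℝ :=
  LinearMap.toContinuousLinearMap
    { toFun := fun a =>
        LinearMap.trace ℝ V (a.1 : V →ₗ[ℝ] V) - LinearMap.trace ℝ V (a.2 : V →ₗ[ℝ] V)
      map_add' := fun a b => by simp; ring
      map_smul' := fun c a => by simp; ring }

/-- `LIT`: the local index theorem for operators whose squares are of Laplace type -/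
def LIT_statement : Prop := ∀ (X : Type) [MetricSpace X] [CompactSpace X] [MeasurableSpace X]
  [BorelSpace X] (M : CM X) (V : Type) [NormedAddCommGroup V] [InnerProductSpace ℝ V]
  [FiniteDimensional ℝ V] [CompleteSpace V] (E F : Bun M V) (P : Op E F), P.Cliff →
  ∀ D : M.A → CD (𝒜 := EE V) (str V), (∀ a y, det4 ((D a).n y) = rho M a y) →
  (∀ a (f : V4 → V), ContDiff ℝ ∞ f → P.adjLoc a (locOp (P.Mi a) (P.N a) f) =
    lap (gi (D a).n') (D a).h (fun i y => ((D a).A i y).1) (fun y => ((D a).E y).1) f) →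
  (∀ a (f : V4 → V), ContDiff ℝ ∞ f → locOp (P.Mi a) (P.N a) (P.adjLoc a f) =
    lap (gi (D a).n') (D a).h (fun i y => ((D a).A i y).2) (fun y => ((D a).E y).2) f) →
  (P.ind : ℝ) = ∑ a, ∫ y, M.zl a y * rho M a y * (D a).d y

/-! ## Quaternions -/

/-- the quaternion of a vector: `qv (app (Rq p) t) = qv p * qv t` -/
def qv (t : V4) : ℍ := ⟨t 0, -t 1, -t 2, -t 3⟩

/-- the vector of a quaternion -/
def vq (q : ℍ) : V4 := ![q.re, -q.imI, -q.imJ, -q.imK]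

/-- the basis -/
def uq (d : Fin 4) : ℍ := qv (e d)

/-- the coframe -/
def th (n : V4 → M4) (l : Fin 4) (y : V4) : ℍ := qv fun c => n y c l

/-- the symbol, for the basis `u` -/
def be (n' : V4 → M4) (u : Fin 4 → ℍ) (k : Fin 4) (y : V4) : ℍ := ∑ d, n' y k d • u d

/-- the Levi-Civita connection `t ↦ am t - t ap` -/
structure IsLC (n : V4 → M4) (ap am : Fin 4 → V4 → ℍ) : Prop where
  p_sm : ∀ k, ContDiff ℝ ∞ (ap k)
  m_sm : ∀ k, ContDiff ℝ ∞ (am k)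
  p_im : ∀ k y, (ap k y).re = 0
  m_im : ∀ k y, (am k y).re = 0
  tf : ∀ k l y, fderiv ℝ (th n l) y (e k) + (am k y * th n l y - th n l y * ap k y) =
    fderiv ℝ (th n k) y (e l) + (am l y * th n k y - th n k y * ap l y)

/-- the data of the Weitzenboeck formula; `α` acts on the source, `α'` on the target -/
structure WD (n' : V4 → M4) (ρ : V4 → ℝ) (u : Fin 4 → ℍ) (α α' : Fin 4 → V4 → ℍ)
    (Γ : Fin 4 → Fin 4 → Fin 4 → V4 → ℝ) : Prop where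
  n'_sm : ContDiff ℝ ∞ n'
  ρ_sm : ContDiff ℝ ∞ ρ
  ρ_ne : ∀ y, ρ y ≠ 0
  on : ∀ i j, star (u i) * u j + star (u j) * u i = if i = j then 2 else 0
  on' : ∀ i j, u i * star (u j) + u j * star (u i) = if i = j then 2 else 0
  sm : ∀ k, ContDiff ℝ ∞ (α k)
  sm' : ∀ k, ContDiff ℝ ∞ (α' k)
  im : ∀ k y, (α k y).re = 0
  im' : ∀ k y, (α' k y).re = 0
  Γ_sm : ∀ m k l, ContDiff ℝ ∞ (Γ m k l)
  Γ_symm : ∀ m k l y, Γ m k l y = Γ m l k y
  dβ : ∀ m k y, fderiv ℝ (be n' u m) y (e k) + (α' k y * be n' u m y - be n' u m y * α k y) =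
    -∑ l, Γ m k l y • be n' u l y
  dρ : ∀ l y, fderiv ℝ ρ y (e l) = (∑ k, Γ k k l y) * ρ y

/-- the first Bianchi identity -/
def Bia (F F' : Fin 4 → Fin 4 → ℍ) : Prop := ∀ i j k,
  (F' i j * uq k - uq k * F i j) + (F' j k * uq i - uq i * F j k) +
    (F' k i * uq j - uq j * F k i) = 0

/-- `LCE`: existence of the Levi-Civita connection -/
def LCE_statement : Prop := ∀ n n' : V4 → M4, ContDiff ℝ ∞ n → ContDiff ℝ ∞ n' →
  (∀ y v, app (n y) (app (n' y) v) = v) → (∀ y v, app (n' y) (app (n y) v) = v) →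
  ∃ ap am, IsLC n ap am

/-- `LCD`: Christoffel symbols, the formula of Jacobi, the Bianchi identity -/
def LCD_statement : Prop := ∀ n n' : V4 → M4, ContDiff ℝ ∞ n → ContDiff ℝ ∞ n' →
  (∀ y v, app (n y) (app (n' y) v) = v) → (∀ y v, app (n' y) (app (n y) v) = v) →
  (∀ y, 0 < det4 (n y)) → ∀ ap am, IsLC n ap am →
  (∃ Γ, WD n' (fun y => det4 (n y)) uq ap am Γ ∧
    WD n' (fun y => det4 (n y)) (fun d => star (uq d)) am ap Γ) ∧
  ∀ y, Bia (frc (n' y) fun i j => cur ap i j y) (frc (n' y) fun i j => cur am i j y)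

/-- quaternionic bimodules of rank one -/
structure QR (V : Type) [NormedAddCommGroup V] [InnerProductSpace ℝ V] [FiniteDimensional ℝ V]
    [CompleteSpace V] where
  l : ℍ →L[ℝ] V →L[ℝ] V
  r : ℍ →L[ℝ] V →L[ℝ] V
  l_one : l 1 = 1
  r_one : r 1 = 1
  l_mul : ∀ a b, l (a * b) = l a * l b
  r_mul : ∀ a b, r (a * b) = r b * r a
  comm : ∀ a b, l a * r b = r b * l a
  l_star : ∀ a, star (l a) = l (star a)
  r_star : ∀ a, star (r a) = r (star a)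
  tr : ∀ a b, LinearMap.trace ℝ V ((l a * r b : V →L[ℝ] V) : V →ₗ[ℝ] V) = 4 * a.re * b.re

section dirac

variable {V : Type} [NormedAddCommGroup V] [InnerProductSpace ℝ V] [FiniteDimensional ℝ V]
  [CompleteSpace V] (B : QR V)

/-- the twisted connection -/
def QR.con (α ξ : Fin 4 → V4 → ℍ) (k : Fin 4) (y : V4) : V →L[ℝ] V := B.l (α k y) - B.r (ξ k y)

/-- the symbol of the twisted Dirac operator -/
def QR.Mi (n' : V4 → M4) (u : Fin 4 → ℍ) (k : Fin 4) (y : V4) : V →L[ℝ] V := B.l (be n' u k y)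

/-- the zero order term of the twisted Dirac operator -/
def QR.N (n' : V4 → M4) (u : Fin 4 → ℍ) (α ξ : Fin 4 → V4 → ℍ) (y : V4) : V →L[ℝ] V :=
  ∑ k, B.Mi n' u k y * B.con α ξ k y

/-- the potential in the Weitzenboeck formula -/
def QR.pot (n' : V4 → M4) (u : Fin 4 → ℍ) (α ξ : Fin 4 → V4 → ℍ) (y : V4) : V →L[ℝ] V :=
  (-(1 / 2) : ℝ) • ∑ i, ∑ j, B.l (star (u i) * u j) *
    frc (n' y) (fun k l => cur (B.con α ξ) k l y) i j

end dirac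

/-- the first order coefficients in the Weitzenboeck formula -/
def hG (n' : V4 → M4) (Γ : Fin 4 → Fin 4 → Fin 4 → V4 → ℝ) (m : Fin 4) (y : V4) : ℝ :=
  ∑ k, ∑ l, gi n' k l y * Γ m k l y

/-- `WEI`: the adjoint and the Weitzenboeck formula -/
def WEI_statement : Prop := ∀ (V : Type) [NormedAddCommGroup V] [InnerProductSpace ℝ V]
  [FiniteDimensional ℝ V] [CompleteSpace V] (B : QR V) n' ρ u α α' Γ (ξ : Fin 4 → V4 → ℍ),
  WD n' ρ u α α' Γ → WD n' ρ (fun d => star (u d)) α' α Γ → (∀ k, ContDiff ℝ ∞ (ξ k)) →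
  (∀ k y, (ξ k y).re = 0) → ∀ f : V4 → V, ContDiff ℝ ∞ f →
  locOp (adjM (B.Mi n' u)) (adjN (B.Mi n' u) (B.N n' u α ξ) ρ)
      (locOp (B.Mi n' u) (B.N n' u α ξ) f) =
    lap (gi n') (hG n' Γ) (B.con α ξ) (B.pot n' u α ξ) f ∧
  locOp (B.Mi n' u) (B.N n' u α ξ)
      (locOp (adjM (B.Mi n' u)) (adjN (B.Mi n' u) (B.N n' u α ξ) ρ) f) =
    lap (gi n') (hG n' Γ) (B.con α' ξ) (B.pot n' (fun d => star (u d)) α' ξ) f

/-- a quarter of the scalar curvature -/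
def sq (u : Fin 4 → ℍ) (F : Fin 4 → Fin 4 → ℍ) : ℍ :=
  (-(1 / 2) : ℝ) • ∑ i, ∑ j, star (u i) * u j * F i j

/-- the contribution of the twisting -/
def tw (u : Fin 4 → ℍ) (G : Fin 4 → Fin 4 → ℍ) : ℝ :=
  ∑ i, ∑ j, ∑ k, ∑ l, (star (u i) * u j * (star (u k) * u l)).re * (G k l * G i j).re

/-- the index density of the twisted Dirac operator -/
def dq (u : Fin 4 → ℍ) (F F' G : Fin 4 → Fin 4 → ℍ) : ℝ :=
  2 * (tw u G - tw (fun d => star (u d)) G) +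
    (4 / 3) * ∑ i, ∑ j, ((F i j * F i j).re - (F' i j * F' i j).re)

/-- `ALG`: consequences of the Bianchi identity -/
def ALG_statement : Prop := ∀ F F' : Fin 4 → Fin 4 → ℍ, (∀ i j, F i j = -F j i) →
  (∀ i j, F' i j = -F' j i) → (∀ i j, (F i j).re = 0) → (∀ i j, (F' i j).re = 0) → Bia F F' →
  (∃ c : ℝ, sq uq F = c ∧ sq (fun d => star (uq d)) F' = c) ∧
  dq uq F F' F' = dq (fun d => star (uq d)) F' F F + 4 * dq (fun d => star (uq d)) F' F 0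

/-- `DIR`: the index theorem for twisted Dirac operators on `QM` (from `LIT`, `WEI`) -/
def DIR_statement : Prop := ForAllQ fun _ _ _ _ _ _ Q _ => ∀ (B : QR Sp) (E F : Bun Q.toCM Sp)
  (P : Op E F) (u : Fin 4 → ℍ) (α α' ξ : Q.A → Fin 4 → V4 → ℍ)
  (Γ : Q.A → Fin 4 → Fin 4 → Fin 4 → V4 → ℝ),
  (∀ a, WD (Q.n' a) (fun y => det4 (Q.n a y)) u (α a) (α' a) (Γ a)) →
  (∀ a, WD (Q.n' a) (fun y => det4 (Q.n a y)) (fun d => star (u d)) (α' a) (α a) (Γ a)) →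
  (∀ a k, ContDiff ℝ ∞ (ξ a k)) → (∀ a k y, (ξ a k y).re = 0) →
  (∀ a y, ∃ c : ℝ, sq u (frc (Q.n' a y) fun i j => cur (α a) i j y) = c ∧
    sq (fun d => star (u d)) (frc (Q.n' a y) fun i j => cur (α' a) i j y) = c) →
  (∀ a, P.Mi a = B.Mi (Q.n' a) u) → (∀ a, P.N a = B.N (Q.n' a) u (α a) (ξ a)) →
  P.Cliff ∧ (∀ a, Continuous fun y => dq u (frc (Q.n' a y) fun i j => cur (α a) i j y)
    (frc (Q.n' a y) fun i j => cur (α' a) i j y) (frc (Q.n' a y) fun i j => cur (ξ a) i j y)) ∧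
  (P.ind : ℝ) = ∑ a, ∫ y, Q.zl a y * rho Q.toCM a y *
    (kap * dq u (frc (Q.n' a y) fun i j => cur (α a) i j y)
      (frc (Q.n' a y) fun i j => cur (α' a) i j y) (frc (Q.n' a y) fun i j => cur (ξ a) i j y))

/-- `OPS`: the three operators.  `B₁` is `Sp` with `sgm` on the left and `ph` on the right, `B₂`
is its conjugate. -/
def OPS_statement : Prop := ∃ B₁ B₂ : QR Sp, (∀ q v, B₁.l q v = sgm (vq q) v) ∧
  (∀ q v, B₂.l q v = ph' (spn (vq q)) v) ∧ ForAllQ fun _ _ _ _ _ _ Q _ =>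
  ∀ ap am : Q.A → Fin 4 → V4 → ℍ, (∀ a, IsLC (Q.n a) (ap a) (am a)) →
  (∃ P : Op Q.t1 Q.t0, ∀ a, P.Mi a = B₁.Mi (Q.n' a) (fun d => star (uq d)) ∧
    P.N a = B₁.N (Q.n' a) (fun d => star (uq d)) (am a) (ap a)) ∧
  (∃ P : Op Q.t1 Q.t0, ∀ a, P.Mi a = B₁.Mi (Q.n' a) (fun d => star (uq d)) ∧
    P.N a = B₁.N (Q.n' a) (fun d => star (uq d)) (am a) 0) ∧
  ∃ P : Op Q.t1 (tm Q), ∀ a, P.Mi a = B₂.Mi (Q.n' a) uq ∧
    P.N a = B₂.N (Q.n' a) uq (ap a) (am a)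

/-- `NOQ`: the formula of Noether -/
def NOQ_statement : Prop := ForAllQ fun _ _ _ _ _ _ Q _ => ∀ Hm : Op Q.t1 (tm Q),
  (∀ a i y w, Hm.Mi a i y w = ph' (spn fun d => Q.b a y d i) w) →
  Hm.ind = -5 * (Q.dirac (LBc.triv Q.toCM)).ind

end Vale.Agent.P247J
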