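import Vale.Agent.P247J.Sta

/-!
# P247J, row `WEI`: the adjoint of a twisted Dirac operator and the Weitzenboeck formula
-/

set_option linter.all false

open scoped ContDiff Topology Quaternion RealInnerProductSpace
open Set Filter

noncomputable section

namespace Vale.Agent.P247J

open Vale.Agent.P204.GX Vale.Agent.P204.T4 Vale.Agent.P247E
open Vale.Agent.P247.H74 (e)

namespace Wei

section abstract

variable {V : Type} [NormedAddCommGroup V] [InnerProductSpace ℝ V]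

theorem sm_pd {B : Type} [NormedAddCommGroup B] [NormedSpace ℝ B] {f : V4 → B}
    (hf : ContDiff ℝ ∞ f) (v : V4) : ContDiff ℝ ∞ fun y => fderiv ℝ f y v :=
  (hf.fderiv_right (m := ∞) le_rfl).clm_apply contDiff_const

theorem sm_cd {A : Fin 4 → V4 → V →L[ℝ] V} (hA : ∀ k, ContDiff ℝ ∞ (A k)) {f : V4 → V}
    (hf : ContDiff ℝ ∞ f) (k : Fin 4) : ContDiff ℝ ∞ (cd A k f) :=
  (sm_pd hf _).add ((hA k).clm_apply hf)

theorem dif {B : Type} [NormedAddCommGroup B] [NormedSpace ℝ B] {f : V4 → B}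
    (hf : ContDiff ℝ ∞ f) (y : V4) : DifferentiableAt ℝ f y := hf.differentiable (by simp) y

theorem pd_app {γ : V4 → V →L[ℝ] V} (hγ : ContDiff ℝ ∞ γ) {g : V4 → V} (hg : ContDiff ℝ ∞ g)
    (y v : V4) : fderiv ℝ (fun y => γ y (g y)) y v = fderiv ℝ γ y v (g y) + γ y (fderiv ℝ g y v) := by
  rw [fderiv_clm_apply (dif hγ y) (dif hg y)]
  simp [add_comm]

theorem pd_pd {f : V4 → V} (hf : ContDiff ℝ ∞ f) (y u v : V4) :
    fderiv ℝ (fun y => fderiv ℝ f y u) y v = fderiv ℝ (fun y => fderiv ℝ f y v) y u := by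
  have h1 : DifferentiableAt ℝ (fderiv ℝ f) y := dif (hf.fderiv_right (m := ∞) le_rfl) y
  rw [fderiv_clm_apply h1 (differentiableAt_const _), fderiv_clm_apply h1 (differentiableAt_const _)]
  simp only [fderiv_fun_const, Pi.zero_apply, ContinuousLinearMap.comp_zero, zero_add,
    ContinuousLinearMap.flip_apply]
  exact (hf.contDiffAt.isSymmSndFDerivAt (by
    rw [minSmoothness_of_isRCLikeNormedField]; exact ENat.LEInfty.out)).eq v u

theorem cd_comm {A : Fin 4 → V4 → V →L[ℝ] V} (hA : ∀ k, ContDiff ℝ ∞ (A k)) {f : V4 → V}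
    (hf : ContDiff ℝ ∞ f) (k m : Fin 4) (y : V4) :
    cd A k (cd A m f) y - cd A m (cd A k f) y = cur A k m y (f y) := by
  have h : ∀ k m, cd A k (cd A m f) y = fderiv ℝ (fun y => fderiv ℝ f y (e m)) y (e k) +
      (fderiv ℝ (A m) y (e k) (f y) + A m y (fderiv ℝ f y (e k))) +
      (A k y (fderiv ℝ f y (e m)) + A k y (A m y (f y))) := by
    intro k m
    have h1 : cd A m f = fun y => fderiv ℝ f y (e m) + A m y (f y) := rfl
    rw [cd, h1, fderiv_fun_add (dif (sm_pd hf _) y) (dif ((hA m).clm_apply hf) y),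
      ContinuousLinearMap.add_apply, pd_app (hA m) hf, map_add]
  rw [h, h, pd_pd hf y (e m) (e k)]
  simp only [cur, ContinuousLinearMap.add_apply, ContinuousLinearMap.sub_apply,
    ContinuousLinearMap.mul_apply]
  abel

theorem locOp_eq (γ A : Fin 4 → V4 → V →L[ℝ] V) (f : V4 → V) :
    locOp γ (fun y => ∑ k, γ k y * A k y) f = fun y => ∑ k, γ k y (cd A k f y) := by
  funext y
  simp only [locOp, cd, map_add, Finset.sum_add_distrib, ContinuousLinearMap.sum_apply,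
    ContinuousLinearMap.mul_apply]

theorem locOp_neg (γ : Fin 4 → V4 → V →L[ℝ] V) (N : V4 → V →L[ℝ] V) (f : V4 → V) :
    locOp (fun k y => -γ k y) (fun y => -N y) f = fun y => -locOp γ N f y := by
  funext y
  simp only [locOp, ContinuousLinearMap.neg_apply, Finset.sum_neg_distrib, neg_add]

theorem locOp_neg' (γ : Fin 4 → V4 → V →L[ℝ] V) (N : V4 → V →L[ℝ] V) (f : V4 → V) :
    locOp γ N (fun y => -f y) = fun y => -locOp γ N f y := by
  funext y
  simp only [locOp, fderiv_fun_neg, ContinuousLinearMap.neg_apply, map_neg,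
    Finset.sum_neg_distrib, neg_add]

theorem sum_split (X : Fin 4 → Fin 4 → V →L[ℝ] V) (Y : Fin 4 → Fin 4 → V) (g : Fin 4 → Fin 4 → ℝ)
    (h : ∀ k l, X k l + X l k = (2 * g k l) • 1) :
    ∑ k, ∑ l, X k l (Y k l) = ∑ k, ∑ l, g k l • Y k l +
      (1 / 2 : ℝ) • ∑ k, ∑ l, X k l (Y k l - Y l k) := by
  have h1 : ∑ k, ∑ l, X k l (Y l k) = ∑ k, ∑ l, X l k (Y k l) := Finset.sum_comm
  have h2 : ∑ k, ∑ l, X k l (Y k l) + ∑ k, ∑ l, X l k (Y k l) =
      (2 : ℝ) • ∑ k, ∑ l, g k l • Y k l := by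
    simp only [← Finset.sum_add_distrib, Finset.smul_sum, smul_smul]
    refine Finset.sum_congr rfl fun k _ => Finset.sum_congr rfl fun l _ => ?_
    rw [← ContinuousLinearMap.add_apply, h]
    rfl
  simp only [map_sub, Finset.sum_sub_distrib, h1]
  rw [eq_sub_of_add_eq' h2]
  module

theorem core {γ γ' A A' : Fin 4 → V4 → V →L[ℝ] V} {g : Fin 4 → Fin 4 → V4 → ℝ}
    {Γ : Fin 4 → Fin 4 → Fin 4 → V4 → ℝ} (hγ : ∀ k, ContDiff ℝ ∞ (γ k))
    (hA : ∀ k, ContDiff ℝ ∞ (A k)) (hΓ : ∀ m k l y, Γ m k l y = Γ m l k y)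
    (h1 : ∀ m k y, fderiv ℝ (γ m) y (e k) + (A' k y * γ m y - γ m y * A k y) =
      -∑ l, Γ m k l y • γ l y)
    (h2 : ∀ k l y, γ' k y * γ l y + γ' l y * γ k y = (2 * g k l y) • 1)
    {f : V4 → V} (hf : ContDiff ℝ ∞ f) (y : V4) :
    -∑ k, γ' k y (cd A' k (fun y => ∑ m, γ m y (cd A m f y)) y) =
      lap g (fun m y => ∑ k, ∑ l, g k l y * Γ m k l y) A
        (fun y => (-(1 / 2) : ℝ) • ∑ k, ∑ l, γ' k y * γ l y * cur A k l y) f y := by
  have h3 : ∀ k, cd A' k (fun y => ∑ m, γ m y (cd A m f y)) y =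
      ∑ m, γ m y (cd A k (cd A m f) y) - ∑ m, ∑ l, Γ m k l y • γ l y (cd A m f y) := by
    intro k
    rw [cd, fderiv_fun_sum fun m _ => dif ((hγ m).clm_apply (sm_cd hA hf m)) y,
      ContinuousLinearMap.sum_apply, map_sum, ← Finset.sum_add_distrib, ← Finset.sum_sub_distrib]
    refine Finset.sum_congr rfl fun m _ => ?_
    have h4 := congrArg (fun T : V →L[ℝ] V => T (cd A m f y)) (h1 m k y)
    simp only [ContinuousLinearMap.add_apply, ContinuousLinearMap.sub_apply,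
      ContinuousLinearMap.mul_apply, ContinuousLinearMap.neg_apply, ContinuousLinearMap.sum_apply,
      ContinuousLinearMap.smul_apply] at h4
    rw [pd_app (hγ m) (sm_cd hA hf m), sub_eq_add_neg, ← h4]
    conv_rhs => rw [cd, map_add]
    abel
  have h5 := sum_split (fun k l => γ' k y * γ l y) (fun k l => cd A k (cd A l f) y)
    (fun k l => g k l y) fun k l => h2 k l y
  have h6 : ∀ m, ∑ k, ∑ l, γ' k y (Γ m k l y • γ l y (cd A m f y)) =
      (∑ k, ∑ l, g k l y * Γ m k l y) • cd A m f y := by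
    intro m
    have h7 := sum_split (fun k l => γ' k y * γ l y) (fun k l => Γ m k l y • cd A m f y)
      (fun k l => g k l y) fun k l => h2 k l y
    have h8 : ∀ k l, Γ m k l y • cd A m f y - Γ m l k y • cd A m f y = 0 := fun k l => by
      rw [hΓ, sub_self]
    simp only [h8, map_zero, Finset.sum_const_zero, smul_zero, add_zero, smul_smul,
      ← Finset.sum_smul] at h7
    rw [← h7]
    simp only [ContinuousLinearMap.mul_apply, map_smul]
  have h9 : ∑ k, ∑ m, ∑ l, γ' k y (Γ m k l y • γ l y (cd A m f y)) =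
      ∑ m, (∑ k, ∑ l, g k l y * Γ m k l y) • cd A m f y := by
    rw [Finset.sum_comm]
    exact Finset.sum_congr rfl fun m _ => h6 m
  simp only [cd_comm hA hf, ContinuousLinearMap.mul_apply] at h5
  simp only [h3, map_sub, map_sum, Finset.sum_sub_distrib, h9, h5, lap,
    ContinuousLinearMap.smul_apply, ContinuousLinearMap.sum_apply, ContinuousLinearMap.mul_apply]
  module

end abstract

section quat

variable {V : Type} [NormedAddCommGroup V] [InnerProductSpace ℝ V] [FiniteDimensional ℝ V]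
  [CompleteSpace V] (B : QR V)
variable {n' : V4 → M4} {ρ : V4 → ℝ} {u : Fin 4 → ℍ} {α α' ξ : Fin 4 → V4 → ℍ}
  {Γ : Fin 4 → Fin 4 → Fin 4 → V4 → ℝ}

theorem adjL_eq (T : V →L[ℝ] V) : adjL V V T = star T := by
  ext w
  refine ext_inner_left ℝ fun v => ?_
  rw [inner_adjL, ContinuousLinearMap.star_eq_adjoint, ContinuousLinearMap.adjoint_inner_right]

theorem star_im {a : ℍ} (h : a.re = 0) : star a = -a := Quaternion.star_eq_neg.2 h

theorem sm_ent (hn : ContDiff ℝ ∞ n') (k d : Fin 4) : ContDiff ℝ ∞ fun y => n' y k d :=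
  (contDiff_apply ℝ ℝ d).comp ((contDiff_apply ℝ (Fin 4 → ℝ) k).comp hn)

theorem sm_be (hn : ContDiff ℝ ∞ n') (u : Fin 4 → ℍ) (k : Fin 4) : ContDiff ℝ ∞ (be n' u k) :=
  ContDiff.sum fun d _ => (sm_ent hn k d).smul contDiff_const

theorem sm_Mi (hn : ContDiff ℝ ∞ n') (u : Fin 4 → ℍ) (k : Fin 4) : ContDiff ℝ ∞ (B.Mi n' u k) :=
  B.l.contDiff.comp (sm_be hn u k)

theorem sm_con (hα : ∀ k, ContDiff ℝ ∞ (α k)) (hξ : ∀ k, ContDiff ℝ ∞ (ξ k)) (k : Fin 4) :
    ContDiff ℝ ∞ (B.con α ξ k) :=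
  (B.l.contDiff.comp (hα k)).sub (B.r.contDiff.comp (hξ k))

theorem star_be (n' : V4 → M4) (u : Fin 4 → ℍ) (k : Fin 4) (y : V4) :
    star (be n' u k y) = be n' (fun d => star (u d)) k y := by
  simp only [be, star_sum, Quaternion.star_smul]

theorem star_Mi (n' : V4 → M4) (u : Fin 4 → ℍ) (k : Fin 4) (y : V4) :
    star (B.Mi n' u k y) = B.Mi n' (fun d => star (u d)) k y := by
  rw [QR.Mi, B.l_star, star_be, QR.Mi]

theorem star_con (hα : ∀ k y, (α k y).re = 0) (hξ : ∀ k y, (ξ k y).re = 0) (k : Fin 4) (y : V4) :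
    star (B.con α ξ k y) = -B.con α ξ k y := by
  rw [QR.con, star_sub, B.l_star, B.r_star, star_im (hα k y), star_im (hξ k y), map_neg, map_neg]
  abel

theorem d_Mi (W : WD n' ρ u α α' Γ) (m k : Fin 4) (y : V4) :
    fderiv ℝ (B.Mi n' u m) y (e k) +
      (B.con α' ξ k y * B.Mi n' u m y - B.Mi n' u m y * B.con α ξ k y) =
      -∑ l, Γ m k l y • B.Mi n' u l y := by
  have h1 : fderiv ℝ (B.Mi n' u m) y (e k) = B.l (fderiv ℝ (be n' u m) y (e k)) := by
    have := (B.l.hasFDerivAt.comp y (dif (sm_be W.n'_sm u m) y).hasFDerivAt).fderiv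
    exact congrArg (fun T => T (e k)) this
  have h2 := congrArg B.l (W.dβ m k y)
  simp only [map_add, map_sub, map_neg, map_sum, map_smul, B.l_mul] at h2
  simp only [QR.con, QR.Mi, h1, ← h2, sub_mul, mul_sub, B.comm]
  abel

theorem be_mul (n' : V4 → M4) (u v : Fin 4 → ℍ) (k l : Fin 4) (y : V4) :
    be n' u k y * be n' v l y = ∑ i, ∑ j, (n' y k i * n' y l j) • (u i * v j) := by
  simp only [be, Finset.sum_mul, Finset.mul_sum, smul_mul_smul_comm]
  exact Finset.sum_comm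

theorem be_cl (W : WD n' ρ u α α' Γ) (k l : Fin 4) (y : V4) :
    be n' (fun d => star (u d)) k y * be n' u l y + be n' (fun d => star (u d)) l y * be n' u k y =
      (2 * gi n' k l y) • 1 := by
  rw [be_mul, be_mul, Finset.sum_comm (f := fun i j => (n' y l i * n' y k j) • _)]
  simp only [← Finset.sum_add_distrib, mul_comm (n' y l _), ← smul_add, W.on, gi, Finset.mul_sum,
    Finset.sum_smul, smul_ite, smul_zero, Finset.sum_ite_eq, Finset.mem_univ, if_true]
  refine Finset.sum_congr rfl fun i _ => ?_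
  rw [mul_comm (2 : ℝ), ← smul_smul _ (2 : ℝ), two_smul, one_add_one_eq_two]

theorem Mi_cl (W : WD n' ρ u α α' Γ) (k l : Fin 4) (y : V4) :
    B.Mi n' (fun d => star (u d)) k y * B.Mi n' u l y +
      B.Mi n' (fun d => star (u d)) l y * B.Mi n' u k y = (2 * gi n' k l y) • 1 := by
  simp only [QR.Mi, ← B.l_mul, ← map_add, be_cl W, map_smul, B.l_one]

theorem adjM_eq (n' : V4 → M4) (u : Fin 4 → ℍ) :
    adjM (B.Mi n' u) = fun k y => -B.Mi n' (fun d => star (u d)) k y := by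
  funext k y
  rw [adjM, adjL_eq, star_Mi]

theorem adjN_eq (W : WD n' ρ u α α' Γ) (hξ : ∀ k y, (ξ k y).re = 0) :
    adjN (B.Mi n' u) (B.N n' u α ξ) ρ = fun y => -B.N n' (fun d => star (u d)) α' ξ y := by
  funext y
  have h1 : ∑ i, ((ρ y)⁻¹ * fderiv ℝ ρ y (e i)) • B.Mi n' u i y =
      ∑ k, ∑ l, Γ k k l y • B.Mi n' u l y := by
    rw [Finset.sum_comm]
    refine Finset.sum_congr rfl fun l _ => ?_
    rw [W.dρ, mul_comm _ (ρ y), inv_mul_cancel_left₀ (W.ρ_ne y), Finset.sum_smul]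
  have h2 : B.N n' u α ξ y - ∑ i, (fderiv ℝ (B.Mi n' u i) y (e i) +
      ((ρ y)⁻¹ * fderiv ℝ ρ y (e i)) • B.Mi n' u i y) = ∑ k, B.con α' ξ k y * B.Mi n' u k y := by
    rw [Finset.sum_add_distrib, h1, QR.N, ← Finset.sum_add_distrib, ← Finset.sum_sub_distrib]
    refine Finset.sum_congr rfl fun k _ => ?_
    rw [eq_sub_of_add_eq (d_Mi B (ξ := ξ) W k k y)]
    abel
  rw [adjN, h2, adjL_eq, star_sum, QR.N, ← Finset.sum_neg_distrib]
  refine Finset.sum_congr rfl fun k _ => ?_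
  rw [star_mul, star_Mi, star_con B W.im' hξ, mul_neg]

theorem sum4 {M : Type*} [AddCommMonoid M] (F : Fin 4 → Fin 4 → Fin 4 → Fin 4 → M) :
    ∑ i, ∑ j, ∑ k, ∑ l, F i j k l = ∑ k, ∑ l, ∑ i, ∑ j, F i j k l := by
  calc ∑ i, ∑ j, ∑ k, ∑ l, F i j k l = ∑ i, ∑ k, ∑ l, ∑ j, F i j k l :=
        Finset.sum_congr rfl fun i _ => Finset.sum_comm.trans
          (Finset.sum_congr rfl fun k _ => Finset.sum_comm)
    _ = _ := Finset.sum_comm.trans (Finset.sum_congr rfl fun k _ => Finset.sum_comm)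

theorem pot_eq (n' : V4 → M4) (u : Fin 4 → ℍ) (α ξ : Fin 4 → V4 → ℍ) :
    B.pot n' u α ξ = fun y => (-(1 / 2) : ℝ) • ∑ k, ∑ l,
      B.Mi n' (fun d => star (u d)) k y * B.Mi n' u l y * cur (B.con α ξ) k l y := by
  funext y
  rw [QR.pot]
  congr 1
  simp only [frc, QR.Mi, ← B.l_mul, be_mul, map_sum, map_smul, Finset.mul_sum, Finset.sum_mul,
    smul_mul_assoc, mul_smul_comm]
  exact sum4 _

theorem main (W : WD n' ρ u α α' Γ) (hξ : ∀ k, ContDiff ℝ ∞ (ξ k)) {f : V4 → V}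
    (hf : ContDiff ℝ ∞ f) :
    (fun y => -locOp (B.Mi n' fun d => star (u d)) (B.N n' (fun d => star (u d)) α' ξ)
      (locOp (B.Mi n' u) (B.N n' u α ξ) f) y) =
    lap (gi n') (hG n' Γ) (B.con α ξ) (B.pot n' u α ξ) f := by
  funext y
  have h := core (γ' := B.Mi n' fun d => star (u d)) (sm_Mi B W.n'_sm u) (sm_con B W.sm hξ)
    W.Γ_symm (d_Mi B W) (Mi_cl B W) hf y
  rw [pot_eq]
  refine Eq.trans ?_ h
  rw [← locOp_eq, ← congrFun (locOp_eq _ _ _) y]
  rfl

end quat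

end Wei

open Wei in
theorem wei : WEI_statement := by
  intro V _ _ _ _ B n' ρ u α α' Γ ξ W W' hξ hξ' f hf
  rw [adjM_eq, adjN_eq B W hξ', Wei.locOp_neg, Wei.locOp_neg, locOp_neg']
  refine ⟨main B W hξ hf, ?_⟩
  have h := main B W' hξ hf
  simp only [star_star] at h
  exact h

end Vale.Agent.P247J
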